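import Vale.Agent.P110.Exist.Design.Defs

/-!
# P110, design combinatorics: equivariant injections, digits, determination by residues

See `../PROOF.md`, section D.
-/

namespace Vale.Agent.P110.Exist.Design

open Finset

/-- An equivariant injection between finite sets with involutions, the first without fixed
points, whenever the second moves at least as many points. -/
theorem exists_equivariant_injective {X Y : Type*} [Fintype X] [Fintype Y] [DecidableEq Y]
    (sX : X → X) (sY : Y → Y) (hX : Function.Involutive sX) (hY : Function.Involutive sY)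
    (hfix : ∀ x, sX x ≠ x) (hcard : Fintype.card X ≤ (univ.filter fun y => sY y ≠ y).card) :
    ∃ f : X → Y, Function.Injective f ∧ ∀ x, f (sX x) = sY (f x) := by
  classical
  let eX := Fintype.equivFin X
  let eY := Fintype.equivFin Y
  set X' := univ.filter fun x => eX x < eX (sX x) with hX'
  set Y' := univ.filter fun y => eY y < eY (sY y) with hY'
  have hXeq : Fintype.card X = 2 * X'.card := by
    have h1 : (univ : Finset X) = X' ∪ X'.image sX := by
      refine (eq_univ_of_forall fun x => ?_).symm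
      rcases lt_trichotomy (eX x) (eX (sX x)) with h | h | h
      · exact mem_union_left _ (mem_filter.2 ⟨mem_univ _, h⟩)
      · exact absurd (eX.injective h).symm (hfix x)
      · exact mem_union_right _ (mem_image.2 ⟨sX x, mem_filter.2 ⟨mem_univ _, by rwa [hX x]⟩, hX x⟩)
    have h2 : Disjoint X' (X'.image sX) := by
      refine disjoint_left.2 fun x hx hx' => ?_
      obtain ⟨z, hz, rfl⟩ := mem_image.1 hx'
      have h3 := (mem_filter.1 hx).2
      rw [hX z] at h3
      exact lt_asymm h3 (mem_filter.1 hz).2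
    rw [← card_univ, h1, card_union_of_disjoint h2, card_image_of_injective _ hX.injective]
    ring
  have hYeq : (univ.filter fun y => sY y ≠ y).card = 2 * Y'.card := by
    have h1 : (univ.filter fun y => sY y ≠ y) = Y' ∪ Y'.image sY := by
      ext y
      constructor
      · intro hy
        rcases lt_trichotomy (eY y) (eY (sY y)) with h | h | h
        · exact mem_union_left _ (mem_filter.2 ⟨mem_univ _, h⟩)
        · exact absurd (eY.injective h).symm (mem_filter.1 hy).2
        · exact mem_union_right _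
            (mem_image.2 ⟨sY y, mem_filter.2 ⟨mem_univ _, by rwa [hY y]⟩, hY y⟩)
      · intro hy
        refine mem_filter.2 ⟨mem_univ _, fun h => ?_⟩
        rcases mem_union.1 hy with hy' | hy'
        · have := (mem_filter.1 hy').2
          rw [h] at this
          exact lt_irrefl _ this
        · obtain ⟨z, hz, rfl⟩ := mem_image.1 hy'
          rw [hY z] at h
          have := (mem_filter.1 hz).2
          rw [← h] at this
          exact lt_irrefl _ this
    have h2 : Disjoint Y' (Y'.image sY) := by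
      refine disjoint_left.2 fun y hy hy' => ?_
      obtain ⟨z, hz, rfl⟩ := mem_image.1 hy'
      have h3 := (mem_filter.1 hy).2
      rw [hY z] at h3
      exact lt_asymm h3 (mem_filter.1 hz).2
    rw [h1, card_union_of_disjoint h2, card_image_of_injective _ hY.injective]
    ring
  obtain ⟨g⟩ := Function.Embedding.nonempty_of_card_le (α := X') (β := Y')
    (by rw [Fintype.card_coe, Fintype.card_coe]; omega)
  have hmem : ∀ x : X, ¬ eX x < eX (sX x) → sX x ∈ X' := fun x h =>
    mem_filter.2 ⟨mem_univ _, by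
      rw [hX x]
      exact lt_of_le_of_ne (not_lt.1 h) fun e => hfix x (eX.injective e)⟩
  let f : X → Y := fun x =>
    if h : eX x < eX (sX x) then (g ⟨x, mem_filter.2 ⟨mem_univ _, h⟩⟩).1
    else sY (g ⟨sX x, hmem x h⟩).1
  have hY'm : ∀ z : X', eY (g z).1 < eY (sY (g z).1) := fun z => (mem_filter.1 (g z).2).2
  have hne : ∀ z w : X', (g z).1 ≠ sY (g w).1 := fun z w e => by
    have h1 := hY'm z
    rw [e, hY] at h1
    exact lt_asymm h1 (hY'm w)
  refine ⟨f, fun x x' e => ?_, fun x => ?_⟩
  · by_cases h : eX x < eX (sX x) <;> by_cases h' : eX x' < eX (sX x') <;>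
      simp only [f, h, h', dite_true, dite_false] at e
    · exact congrArg Subtype.val (g.injective (Subtype.ext e))
    · exact absurd e (hne _ _)
    · exact absurd e.symm (hne _ _)
    · exact hX.injective (congrArg Subtype.val (g.injective (Subtype.ext (hY.injective e))))
  · by_cases h : eX x < eX (sX x)
    · have h' : ¬ eX (sX x) < eX (sX (sX x)) := by rw [hX x]; exact lt_asymm h
      simp only [f, h, h', dite_true, dite_false]
      congr 3
      exact Subtype.ext (hX x)
    · have h' : eX (sX x) < eX (sX (sX x)) := (mem_filter.1 (hmem x h)).2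
      simp only [f, h, h', dite_true, dite_false]
      rw [hY]

/-- The digit `i` (counted from the top, `1` to `V`) of `j` mod `p ^ V`. -/
def digit (p V i j : ℕ) : ℕ := j % p ^ V / p ^ (V - i) % p

lemma digit_lt {p : ℕ} (hp : 0 < p) (V i j : ℕ) : digit p V i j < p := Nat.mod_lt _ hp

/-- The digits of the mirror point are the complementary ones. -/
lemma digit_mirror {p V i j J : ℕ} (hp : 0 < p) (hi : 1 ≤ i) (hiV : i ≤ V) (hdvd : p ^ V ∣ J)
    (hj : j < J) : digit p V i (J - 1 - j) = p - 1 - digit p V i j := by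
  obtain ⟨c, rfl⟩ := hdvd
  have hq : 0 < p ^ V := pow_pos hp V
  have h1 : (p ^ V * c - 1 - j) % p ^ V = p ^ V - 1 - j % p ^ V := by
    rw [show p ^ V * c - 1 - j = p ^ V * c - (j + 1) by omega, Nat.mul_sub_mod (by omega)]
    omega
  set r := j % p ^ V with hr
  have hrlt : r < p ^ V := Nat.mod_lt _ hq
  set b := p ^ (V - i) with hb
  have hbpos : 0 < b := pow_pos hp _
  obtain ⟨i', rfl⟩ := Nat.exists_eq_add_of_le hi
  have hsplit : p ^ V = p * p ^ i' * b := by
    rw [hb, ← pow_succ', ← pow_add]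
    congr 1
    omega
  unfold digit
  rw [h1, ← hr]
  have h2 : (p ^ V - 1 - r) / b = p * p ^ i' - 1 - r / b := by
    rw [hsplit] at hrlt ⊢
    have hd : r / b < p * p ^ i' := Nat.div_lt_of_lt_mul (by rwa [mul_comm b])
    obtain ⟨e, he⟩ := Nat.exists_eq_add_of_lt hd
    have hm : r % b < b := Nat.mod_lt _ hbpos
    have hdm := Nat.div_add_mod r b
    rw [mul_comm b] at hdm
    have hmul : p * p ^ i' * b = r / b * b + e * b + b := by rw [he]; ring
    have he' : p * p ^ i' - 1 - r / b = e := by omega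
    rw [he']
    apply Nat.div_eq_of_lt_le
    · omega
    · rw [add_mul, one_mul]
      omega
  rw [h2]
  have hd : r / b < p * p ^ i' := Nat.div_lt_of_lt_mul (by rw [← hsplit.trans (mul_comm _ _)]; exact hrlt)
  rw [show p * p ^ i' - 1 - r / b = p * p ^ i' - (r / b + 1) by omega,
    Nat.mul_sub_mod (by omega), ← hb]
  omega

/-- The top `v` digits and the residue mod `p ^ (V - v)` determine the residue mod `p ^ V`. -/
lemma mod_pow_eq_of_digit {p V : ℕ} (hp : 0 < p) {j j' : ℕ} :
    ∀ v ≤ V, j % p ^ (V - v) = j' % p ^ (V - v) →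
      (∀ i, 1 ≤ i → i ≤ v → digit p V i j = digit p V i j') → j % p ^ V = j' % p ^ V
  | 0, _, h, _ => by simpa using h
  | v + 1, hv, h, hd => by
    refine mod_pow_eq_of_digit hp v (by omega) ?_ fun i hi hiv => hd i hi (by omega)
    have e := hd (v + 1) (by omega) le_rfl
    obtain ⟨w, hw⟩ := Nat.exists_eq_add_of_le hv
    have hsucc : V - v = V - (v + 1) + 1 := by omega
    have key : ∀ x : ℕ, x % p ^ (V - v) =
        x % p ^ (V - (v + 1)) + p ^ (V - (v + 1)) * digit p V (v + 1) x := fun x => by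
      have h3 : x % p ^ V / p ^ (V - (v + 1)) % p = x / p ^ (V - (v + 1)) % p := by
        rw [← Nat.mod_mul_right_div_self, ← Nat.mod_mul_right_div_self,
          Nat.mod_mod_of_dvd _ (by rw [← pow_succ]; exact pow_dvd_pow p (by omega))]
      rw [digit, h3, hsucc, Nat.mod_pow_succ]
    rw [key, key, h, e]

/-- A digit is a function of the residue modulo the power of `p` reaching it. -/
lemma digit_eq_of_mod {p V i : ℕ} (hi : 1 ≤ i) (hiV : i ≤ V) {j j' : ℕ}
    (h : j % p ^ (V - i + 1) = j' % p ^ (V - i + 1)) : digit p V i j = digit p V i j' := by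
  unfold digit
  rw [← Nat.mod_mul_right_div_self, ← Nat.mod_mul_right_div_self, ← pow_succ,
    Nat.mod_mod_of_dvd _ (pow_dvd_pow p (by omega)),
    Nat.mod_mod_of_dvd _ (pow_dvd_pow p (by omega)), h]

section CRT

variable (P : Finset ℕ) (V : ℕ)

/-- The modulus `2 Π p ^ V`. -/
def modJ : ℕ := 2 * ∏ p ∈ P, p ^ V

lemma pow_dvd_modJ {p : ℕ} (hp : p ∈ P) : p ^ V ∣ modJ P V :=
  Dvd.dvd.mul_left (Finset.dvd_prod_of_mem _ hp) 2

variable {P V}
variable (hP : ∀ p ∈ P, p.Prime ∧ Odd p)
include hP

/-- Equality of `j * m` mod `J` fixes `j` modulo `p ^ (V - v)`, `v` the multiplicity of `p`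
in `m`. -/
lemma mod_eq_of_mul_mod {m j j' p : ℕ} (hp : p ∈ P) (hm : m ∣ ∏ q ∈ P, q ^ V)
    (h : j * m % modJ P V = j' * m % modJ P V) :
    m.factorization p ≤ V ∧ j % p ^ (V - m.factorization p) = j' % p ^ (V - m.factorization p) := by
  have hpp := (hP p hp).1
  have hm0 : m ≠ 0 := ne_zero_of_dvd_ne_zero
    (Finset.prod_ne_zero_iff.2 fun q hq => pow_ne_zero _ (hP q hq).1.ne_zero) hm
  set v := m.factorization p with hv
  have hv1 : p ^ v ∣ m := Nat.ordProj_dvd m p
  have hcop : Nat.Coprime p (m / p ^ v) := Nat.coprime_ordCompl hpp hm0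
  have hvV : v ≤ V := by
    have hrest : Nat.Coprime (p ^ v) (∏ q ∈ P.erase p, q ^ V) :=
      Nat.Coprime.prod_right fun q hq => Nat.Coprime.pow _ _
        ((Nat.coprime_primes hpp (hP q (mem_of_mem_erase hq)).1).2 (ne_of_mem_erase hq).symm)
    have := hv1.trans hm
    rw [← Finset.mul_prod_erase _ _ hp] at this
    exact (Nat.pow_dvd_pow_iff_le_right hpp.one_lt).1 (hrest.dvd_of_dvd_mul_right this)
  refine ⟨hvV, ?_⟩
  have h2 : j * m ≡ j' * m [MOD p ^ V] := (Nat.ModEq.of_dvd (pow_dvd_modJ P V hp) h)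
  rw [← Nat.mul_div_cancel' hv1, ← mul_assoc, ← mul_assoc] at h2
  have h3 := Nat.ModEq.cancel_right_of_coprime (by
    exact (Nat.Coprime.pow_left V hcop)) h2
  rw [show V = V - v + v by omega, pow_add] at h3
  exact Nat.ModEq.mul_right_cancel' (pow_ne_zero _ hpp.ne_zero) h3

/-- Digits above the multiplicity of `p` in `m` are read off from `j * m` mod `J`. -/
theorem digit_eq_of_mul_mod {m j j' p i : ℕ} (hp : p ∈ P) (hm : m ∣ ∏ q ∈ P, q ^ V)
    (h : j * m % modJ P V = j' * m % modJ P V) (hi : m.factorization p < i) (hiV : i ≤ V) :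
    digit p V i j = digit p V i j' := by
  obtain ⟨-, h'⟩ := mod_eq_of_mul_mod hP hp hm h
  exact digit_eq_of_mod (by omega) hiV (Nat.ModEq.of_dvd (pow_dvd_pow p (by omega)) h')

/-- `j < J` is determined by `j * m` mod `J` and the top digits up to the multiplicities. -/
theorem eq_of_mul_mod_of_digit {m j j' : ℕ} (hm : m ∣ ∏ q ∈ P, q ^ V) (hj : j < modJ P V)
    (hj' : j' < modJ P V) (h : j * m % modJ P V = j' * m % modJ P V)
    (hd : ∀ p ∈ P, ∀ i, 1 ≤ i → i ≤ m.factorization p → digit p V i j = digit p V i j') :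
    j = j' := by
  have hodd : Odd m := by
    refine Odd.of_dvd_nat ?_ hm
    refine Finset.prod_induction _ Odd (fun a b ha hb => ha.mul hb) odd_one ?_
    exact fun q hq => (hP q hq).2.pow
  have h2 : j ≡ j' [MOD 2] := Nat.ModEq.cancel_right_of_coprime
    (hodd.coprime_two_left) (Nat.ModEq.of_dvd (dvd_mul_right 2 _) h)
  have hp : ∀ p ∈ P, (p ^ V : ℕ) ∣ Nat.dist j j' := fun p hp => by
    obtain ⟨hv, hmod⟩ := mod_eq_of_mul_mod hP hp hm h
    have := mod_pow_eq_of_digit (hP p hp).1.pos _ hv hmod (hd p hp)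
    rcases le_total j j' with hle | hle
    · rw [Nat.dist_eq_sub_of_le hle]; exact (Nat.modEq_iff_dvd' hle).1 this
    · rw [Nat.dist_eq_sub_of_le_right hle]; exact (Nat.modEq_iff_dvd' hle).1 this.symm
  have hprod : (∏ q ∈ P, q ^ V) ∣ Nat.dist j j' :=
    Finset.prod_dvd_of_isRelPrime (fun a ha b hb hab => Nat.coprime_iff_isRelPrime.1
      (Nat.Coprime.pow V V ((Nat.coprime_primes (hP a ha).1 (hP b hb).1).2 hab))) hp
  have htwo : 2 ∣ Nat.dist j j' := by
    rcases le_total j j' with hle | hle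
    · rw [Nat.dist_eq_sub_of_le hle]; exact (Nat.modEq_iff_dvd' hle).1 h2
    · rw [Nat.dist_eq_sub_of_le_right hle]; exact (Nat.modEq_iff_dvd' hle).1 h2.symm
  have hJ : modJ P V ∣ Nat.dist j j' :=
    Nat.Coprime.mul_dvd_of_dvd_of_dvd (Nat.Coprime.prod_right fun q hq =>
      ((hP q hq).2.pow).coprime_two_left) htwo hprod
  exact Nat.eq_of_dist_eq_zero (Nat.eq_zero_of_dvd_of_lt hJ (by
    rcases le_total j j' with hle | hle
    · rw [Nat.dist_eq_sub_of_le hle]; omega
    · rw [Nat.dist_eq_sub_of_le_right hle]; omega))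

end CRT

end Vale.Agent.P110.Exist.Design

namespace Vale.Agent.P110.Exist.Par

open Finset

variable (d : Par)

lemma dig_eq_digit (p t j : ℕ) : d.dig p t j = Design.digit p d.V t j := rfl

lemma J_eq : d.J = Design.modJ d.P d.V := rfl

lemma pow_dvd_J {p : ℕ} (hp : p ∈ d.P) : p ^ d.V ∣ d.J := Design.pow_dvd_modJ d.P d.V hp

/-- A digit of `j` without the reduction mod `p ^ V`. -/
lemma dig_eq_div {p t : ℕ} (ht : 1 ≤ t) (htV : t ≤ d.V) (j : ℕ) :
    d.dig p t j = j / p ^ (d.V - t) % p := by
  rw [dig, ← Nat.mod_mul_right_div_self, ← Nat.mod_mul_right_div_self,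
    Nat.mod_mod_of_dvd _ (by rw [← pow_succ]; exact pow_dvd_pow p (by omega))]

/-- The mirror slot has the reversed digit vector. -/
lemma digVec_mirror {p t : ℕ} (hp : p ∈ d.P) (hp0 : 0 < p) (ht : 1 ≤ t) (htV : t ≤ d.V)
    {j : d.Coord → ℕ} (hj : ∀ x, j x < d.J) :
    d.digVec p hp0 t (fun x => d.J - 1 - j x) = fun x => (d.digVec p hp0 t j x).rev := by
  funext x
  refine Fin.ext ?_
  rw [Fin.val_rev]
  show d.dig p t (d.J - 1 - j x) = p - (d.dig p t (j x) + 1)
  rw [dig_eq_digit, dig_eq_digit,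
    Design.digit_mirror hp0 ht htV (d.pow_dvd_J hp) (hj x)]
  omega

/-- Digits above the multiplicity of `p` in `m` depend only on `j * m` mod `J`. -/
lemma dig_eq_of_mul_mod (hP : ∀ p ∈ d.P, p.Prime ∧ Odd p) {m j j' p t : ℕ} (hp : p ∈ d.P)
    (hm : m ∣ ∏ q ∈ d.P, q ^ d.V) (h : j * m % d.J = j' * m % d.J) (ht : m.factorization p < t)
    (htV : t ≤ d.V) : d.dig p t j = d.dig p t j' :=
  Design.digit_eq_of_mul_mod hP hp hm h ht htV

/-- `j * m` mod `J` and the digits up to the multiplicities determine `j`. -/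
lemma eq_of_mul_mod_of_dig (hP : ∀ p ∈ d.P, p.Prime ∧ Odd p) {m j j' : ℕ}
    (hm : m ∣ ∏ q ∈ d.P, q ^ d.V) (hj : j < d.J) (hj' : j' < d.J)
    (h : j * m % d.J = j' * m % d.J)
    (hd : ∀ p ∈ d.P, ∀ t, 1 ≤ t → t ≤ m.factorization p → d.dig p t j = d.dig p t j') :
    j = j' :=
  Design.eq_of_mul_mod_of_digit hP hm hj hj' h hd

/-- The harmonics divide `Q`. -/
lemma dvd_prod_pow {m : ℕ} (hm : m ∣ ∏ q ∈ d.P, q ^ (d.V - 1)) : m ∣ ∏ q ∈ d.P, q ^ d.V :=
  hm.trans (Finset.prod_dvd_prod_of_dvd _ _ fun q _ => pow_dvd_pow q (Nat.sub_le _ _))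

/-- Every value of a digit is taken `J / p` times. -/
lemma card_dig {p t : ℕ} (hp : p ∈ d.P) (hp0 : 0 < p) (ht : 1 ≤ t) (htV : t ≤ d.V) {a : ℕ}
    (ha : a < p) : ((range d.J).filter fun j => d.dig p t j = a).card = d.J / p := by
  obtain ⟨c, hc⟩ : p * p ^ (d.V - t) ∣ d.J :=
    (by rw [← pow_succ']; exact pow_dvd_pow p (by omega) : p * p ^ (d.V - t) ∣ p ^ d.V).trans
      (d.pow_dvd_J hp)
  set b := p ^ (d.V - t) with hb
  have hb0 : 0 < b := pow_pos hp0 _
  have hdiv : d.J / p = b * c := by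
    rw [hc, mul_assoc, Nat.mul_div_cancel_left _ hp0]
  rw [hdiv, ← card_range (b * c)]
  refine (card_bij' (fun k _ => (k / b * p + a) * b + k % b)
    (fun j _ => j / b / p * b + j % b) ?_ ?_ ?_ ?_).symm
  · intro k hk
    rw [mem_range] at hk
    have h1 : k / b < c := Nat.div_lt_of_lt_mul hk
    have h2 : k % b < b := Nat.mod_lt _ hb0
    rw [mem_filter, mem_range, dig_eq_div d ht htV, ← hb]
    refine ⟨?_, ?_⟩
    · calc (k / b * p + a) * b + k % b < (k / b * p + a + 1) * b := by rw [add_mul _ 1, one_mul]; omega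
        _ ≤ ((k / b + 1) * p) * b := Nat.mul_le_mul_right b (by rw [add_mul, one_mul]; omega)
        _ ≤ c * p * b := Nat.mul_le_mul_right b (Nat.mul_le_mul_right p h1)
        _ = d.J := by rw [hc]; ring
    · rw [mul_comm _ b, Nat.mul_add_div hb0, Nat.div_eq_of_lt h2, add_zero, mul_comm,
        Nat.mul_add_mod, Nat.mod_eq_of_lt ha]
  · intro j hj
    rw [mem_filter, mem_range] at hj
    rw [mem_range]
    have h1 : j / b / p < c := by
      rw [Nat.div_div_eq_div_mul]
      exact Nat.div_lt_of_lt_mul (by rw [mul_comm b p, ← hc]; exact hj.1)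
    have h2 : j % b < b := Nat.mod_lt _ hb0
    calc j / b / p * b + j % b < (j / b / p + 1) * b := by rw [add_mul, one_mul]; omega
      _ ≤ c * b := Nat.mul_le_mul_right b h1
      _ = b * c := mul_comm _ _
  · intro k hk
    have h2 : k % b < b := Nat.mod_lt _ hb0
    show ((k / b * p + a) * b + k % b) / b / p * b + ((k / b * p + a) * b + k % b) % b = k
    rw [mul_comm (k / b * p + a) b, Nat.mul_add_div hb0, Nat.div_eq_of_lt h2, add_zero,
      Nat.mul_add_mod, Nat.mod_mod, mul_comm (k / b) p, Nat.mul_add_div hp0, Nat.div_eq_of_lt ha,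
      add_zero, mul_comm]
    exact Nat.div_add_mod k b
  · intro j hj
    rw [mem_filter, dig_eq_div d ht htV, ← hb] at hj
    have h2 : j % b < b := Nat.mod_lt _ hb0
    show ((j / b / p * b + j % b) / b * p + a) * b + (j / b / p * b + j % b) % b = j
    rw [mul_comm (j / b / p) b, Nat.mul_add_div hb0, Nat.div_eq_of_lt h2, add_zero,
      Nat.mul_add_mod, Nat.mod_mod, ← hj.2, Nat.div_add_mod']
    exact Nat.div_add_mod' j b

/-- The number of slot vectors with a given digit vector. -/
lemma card_digVec [DecidableEq d.Coord] {p t : ℕ} (hp : p ∈ d.P) (hp0 : 0 < p) (ht : 1 ≤ t) (htV : t ≤ d.V)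
    (v : d.Coord → Fin p) :
    ((Fintype.piFinset fun _ : d.Coord => range d.J).filter
      fun j => d.digVec p hp0 t j = v).card = (d.J / p) ^ d.D := by
  have : ((Fintype.piFinset fun _ : d.Coord => range d.J).filter
      fun j => d.digVec p hp0 t j = v) =
      Fintype.piFinset fun x => (range d.J).filter fun j => d.dig p t j = (v x).1 := by
    ext j
    simp only [mem_filter, Fintype.mem_piFinset]
    constructor
    · rintro ⟨h1, h2⟩ x
      exact ⟨h1 x, congrArg Fin.val (congrFun h2 x)⟩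
    · intro h
      exact ⟨fun x => (h x).1, funext fun x => Fin.ext (h x).2⟩
  rw [this, Fintype.card_piFinset, Finset.prod_congr rfl
    (fun x _ => d.card_dig hp hp0 ht htV (v x).2), Finset.prod_const, card_univ]
  rfl

end Vale.Agent.P110.Exist.Par
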