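import Vale.Agent.P110.Exist.Design.Defs
import Vale.Agent.P110.Exist.Design.Equiv

/-! Codes exist: the valid codes of a level outnumber the digit vectors, so the non-central digit
vectors inject into them equivariantly. See section D of `../PROOF.md`. -/

namespace Vale.Agent.P110.Exist

open scoped BigOperators
open Finset

namespace Par

variable {d : Par} {p t : ℕ}

lemma mirror_mirror (C : d.Code p) : d.mirror p t (d.mirror p t C) = C := by
  obtain ⟨Z, f, g⟩ := C
  simp [mirror, Option.map_map]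

lemma valid_mirror {Z' : Finset (Fin (d.n p))} {C : d.Code p} (h : d.Valid p t Z' C) :
    d.Valid p t Z' (d.mirror p t C) := by
  obtain ⟨h1, h2, h3, h4, h5⟩ := h
  refine ⟨h1, h2, fun x => by simpa [mirror] using h3 x, fun k v hv => ?_, fun k v hv => ?_⟩
  · obtain ⟨w, hw, rfl⟩ := Option.map_eq_some_iff.1 hv
    simpa [or_comm] using h4 k w hw
  · obtain ⟨w, hw, rfl⟩ := Option.map_eq_some_iff.1 hv
    simpa [and_comm] using h5 k w hw

lemma nonCentre_rev {v : d.Coord → Fin p} (hv : d.NonCentre v) :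
    d.NonCentre (fun x => (v x).rev) := by
  obtain ⟨x, hx⟩ := hv
  refine ⟨x, ?_⟩
  have := (v x).isLt
  simp only [Fin.val_rev]
  omega

lemma rev_ne_self {v : d.Coord → Fin p} (hv : d.NonCentre v) : (fun x => (v x).rev) ≠ v := by
  obtain ⟨x, hx⟩ := hv
  intro h
  have h' := congrArg Fin.val (congrFun h x)
  have := (v x).isLt
  simp only [Fin.val_rev] at h'
  omega

/-- `-q - v = v` has at most one solution modulo an odd prime. -/
lemma eq_of_fixed {l : ℕ} [Fact l.Prime] (hl : 2 < l) {c a b : ZMod l} (ha : c - a = a)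
    (hb : c - b = b) : a = b := by
  have h2 : (2 : ZMod l) ≠ 0 := fun h => by
    have h' := Nat.le_of_dvd (by norm_num)
      ((ZMod.natCast_eq_zero_iff 2 l).1 (by exact_mod_cast h))
    omega
  have h : (2 : ZMod l) * (a - b) = 0 := by linear_combination hb - ha
  exact sub_eq_zero.1 ((mul_eq_zero.1 h).resolve_left h2)

/-- The allowed values of a slot, given the selections. -/
def choices [NeZero d.ℓ] (t : ℕ) (Z' Z : Finset (Fin (d.n p))) :
    d.Lv p → Finset (Option (ZMod d.ℓ))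
  | .inl k => if k ∈ Z then d.H.map Function.Embedding.some else {none}
  | .inr (.inl k) => if k ∈ Z' then {none} else
      (univ \ (d.E ∪ d.E.image fun x => ((-(p ^ t : ℕ) : ℤ) : ZMod d.ℓ) - x)).map
        Function.Embedding.some
  | .inr (.inr (.inl i)) =>
      if i.1 < d.J₀ + Z'.card - Z.card then univ.map Function.Embedding.some else {none}
  | .inr (.inr (.inr _)) => univ.map Function.Embedding.some

lemma valid_of_mem_choices [NeZero d.ℓ] {Z' Z : Finset (Fin (d.n p))} (h1 : 1 ≤ Z.card)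
    (h2 : Z.card ≤ d.J₀) {f : d.Lv p → Option (ZMod d.ℓ)}
    (hf : ∀ x, f x ∈ choices t Z' Z x) (g : Fin (d.L₂ p) → ZMod d.ℓ') :
    d.Valid p t Z' (Z, f, g) := by
  refine ⟨h1, h2, fun x => ?_, fun k v hv => ?_, fun k v hv => ?_⟩
  · have := hf x
    show (f x).isSome ↔ _
    rcases x with k | k | i | i
    all_goals simp only [choices] at this
    all_goals simp only [Used]
    · split_ifs at this with hk <;> simp only [mem_map, mem_singleton] at this
      · obtain ⟨v, -, hv⟩ := this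
        simp [← hv, hk]
      · simp [this, hk]
    · split_ifs at this with hk <;> simp only [mem_map, mem_singleton] at this
      · simp [this, hk]
      · obtain ⟨v, -, hv⟩ := this
        simp [← hv, hk]
    · split_ifs at this with hk <;> simp only [mem_map, mem_singleton] at this
      · obtain ⟨v, -, hv⟩ := this
        simp [← hv, hk]
      · simp [this, hk]
    · obtain ⟨v, -, hv⟩ := mem_map.1 this
      simp [← hv]
  · have := hf (.inl k)
    change f (.inl k) = some v at hv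
    simp only [choices, hv] at this
    split_ifs at this with hk
    · exact .inl (by simpa using this)
    · simp at this
  · have := hf (.inr (.inl k))
    change f (.inr (.inl k)) = some v at hv
    simp only [choices, hv] at this
    split_ifs at this with hk
    · simp at this
    · have h : v ∉ d.E ∪ d.E.image fun x => ((-(p ^ t : ℕ) : ℤ) : ZMod d.ℓ) - x := by
        simpa using this
      rw [mem_union, not_or] at h
      refine ⟨h.1, fun hm => h.2 (mem_image.2 ⟨_, hm, ?_⟩)⟩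
      push_cast
      ring

lemma prod_card_choices [NeZero d.ℓ] {Z' Z : Finset (Fin (d.n p))} (h' : Z'.card ≤ d.J₀) :
    ∏ x, (choices t Z' Z x).card = d.H.card ^ Z.card *
      ((d.ℓ - (d.E ∪ d.E.image fun x => ((-(p ^ t : ℕ) : ℤ) : ZMod d.ℓ) - x).card) ^
          (d.n p - Z'.card) *
        (d.ℓ ^ (d.J₀ + Z'.card - Z.card) * d.ℓ ^ d.L₁ p)) := by
  simp only [Fintype.prod_sum_type, choices, apply_ite Finset.card, card_map, card_singleton,
    prod_const, card_univ, ZMod.card, Fintype.card_fin]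
  congr 1
  · rw [prod_ite_mem, univ_inter, prod_const]
  congr 1
  · rw [prod_ite, prod_const_one, one_mul, prod_const, filter_not, filter_mem_eq_inter,
      univ_inter, card_univ_sdiff, card_univ_sdiff, ZMod.card, Fintype.card_fin]
  congr 1
  · rw [prod_ite, prod_const_one, mul_one, prod_const, Fin.card_filter_val_lt]
    congr 1
    omega

/-- The valid codes are at least as many as the count predicts. -/
lemma le_card_valid [NeZero d.ℓ] [NeZero d.ℓ'] {Z' : Finset (Fin (d.n p))}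
    (h' : Z'.card ≤ d.J₀) (S : Finset (d.Code p)) (hS : ∀ C, d.Valid p t Z' C → C ∈ S) :
    d.W p * (∑ j ∈ Icc 1 d.J₀, (Nat.choose (d.n p) j : ℝ) * ((d.H.card : ℝ) / d.ℓ) ^ j) *
      (1 - ((d.E ∪ d.E.image fun x => ((-(p ^ t : ℕ) : ℤ) : ZMod d.ℓ) - x).card : ℝ) / d.ℓ) ^
        d.n p ≤ (S.card : ℝ) := by
  classical
  set E' := d.E ∪ d.E.image fun x => ((-(p ^ t : ℕ) : ℤ) : ZMod d.ℓ) - x with hE'
  have hz : Z'.card ≤ d.n p := (card_le_univ _).trans_eq (Fintype.card_fin _)
  have he : E'.card ≤ d.ℓ := (card_le_univ _).trans_eq (ZMod.card _)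
  let ZS := (Icc 1 d.J₀).biUnion fun j => (univ : Finset (Fin (d.n p))).powersetCard j
  let T : Finset (Fin (d.n p)) → Finset (d.Code p) := fun Z =>
    ({Z} : Finset _) ×ˢ (Fintype.piFinset (choices t Z' Z) ×ˢ univ)
  have hsub : ZS.biUnion T ⊆ S := by
    rintro ⟨Z, f, g⟩ hC
    obtain ⟨Z₁, hZ, hC⟩ := mem_biUnion.1 hC
    obtain ⟨j, hj, hZ⟩ := mem_biUnion.1 hZ
    simp only [T, mem_product, mem_singleton, Fintype.mem_piFinset] at hC
    obtain ⟨rfl, hf, -⟩ := hC
    rw [mem_powersetCard] at hZ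
    rw [mem_Icc, ← hZ.2] at hj
    exact hS _ (valid_of_mem_choices hj.1 hj.2 hf g)
  have hcard : (ZS.biUnion T).card =
      ∑ j ∈ Icc 1 d.J₀, (d.n p).choose j * (d.H.card ^ j *
        ((d.ℓ - E'.card) ^ (d.n p - Z'.card) *
          (d.ℓ ^ (d.J₀ + Z'.card - j) * d.ℓ ^ d.L₁ p)) * d.ℓ' ^ d.L₂ p) := by
    rw [card_biUnion, sum_biUnion]
    · refine sum_congr rfl fun j _ => ?_
      rw [sum_const_nat (m := d.H.card ^ j * ((d.ℓ - E'.card) ^ (d.n p - Z'.card) *
          (d.ℓ ^ (d.J₀ + Z'.card - j) * d.ℓ ^ d.L₁ p)) * d.ℓ' ^ d.L₂ p),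
        card_powersetCard, card_univ, Fintype.card_fin]
      intro Z hZ
      rw [mem_powersetCard] at hZ
      simp only [T, card_product, card_singleton, one_mul, Fintype.card_piFinset,
        prod_card_choices h', card_univ, Fintype.card_fun, Fintype.card_fin, ZMod.card, hZ.2,
        hE']
    · intro i _ j _ hij
      exact pairwise_disjoint_powersetCard univ hij
    · intro a _ b _ hab
      refine disjoint_left.2 fun C ha hb => hab ?_
      simp only [T, mem_product, mem_singleton] at ha hb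
      exact ha.1.symm.trans hb.1
  refine le_trans ?_ (Nat.cast_le.2 (card_le_card hsub))
  rw [hcard, mul_sum, sum_mul, Nat.cast_sum]
  refine sum_le_sum fun j hj => ?_
  have hjJ : j ≤ d.J₀ := (mem_Icc.1 hj).2
  have hl : (0 : ℝ) < d.ℓ := by exact_mod_cast NeZero.pos d.ℓ
  have hx : (0 : ℝ) ≤ 1 - (E'.card : ℝ) / d.ℓ := by
    rw [sub_nonneg, div_le_one hl]; exact_mod_cast he
  have hx1 : 1 - (E'.card : ℝ) / d.ℓ ≤ 1 := sub_le_self _ (by positivity)
  have key : ((d.H.card : ℝ) ^ j * (((d.ℓ - E'.card : ℕ) : ℝ) ^ (d.n p - Z'.card) *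
      ((d.ℓ : ℝ) ^ (d.J₀ + Z'.card - j) * (d.ℓ : ℝ) ^ d.L₁ p))) =
      (d.ℓ : ℝ) ^ (d.n p + d.J₀ + d.L₁ p) * ((d.H.card : ℝ) / d.ℓ) ^ j *
        (1 - (E'.card : ℝ) / d.ℓ) ^ (d.n p - Z'.card) := by
    have h1 : (d.H.card : ℝ) = ((d.H.card : ℝ) / d.ℓ) * d.ℓ := by field_simp
    have h2 : ((d.ℓ - E'.card : ℕ) : ℝ) = (1 - (E'.card : ℝ) / d.ℓ) * d.ℓ := by
      rw [Nat.cast_sub he]; field_simp
    rw [show d.n p + d.J₀ + d.L₁ p =
      j + ((d.n p - Z'.card) + ((d.J₀ + Z'.card - j) + d.L₁ p)) by omega, pow_add, pow_add,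
      pow_add]
    conv_lhs => rw [h1, h2, mul_pow, mul_pow]
    ring
  push_cast
  rw [key]
  calc d.W p * (((d.n p).choose j : ℝ) * ((d.H.card : ℝ) / d.ℓ) ^ j) *
        (1 - (E'.card : ℝ) / d.ℓ) ^ d.n p
      ≤ d.W p * (((d.n p).choose j : ℝ) * ((d.H.card : ℝ) / d.ℓ) ^ j) *
        (1 - (E'.card : ℝ) / d.ℓ) ^ (d.n p - Z'.card) := by
        refine mul_le_mul_of_nonneg_left (pow_le_pow_of_le_one hx hx1 (Nat.sub_le _ _)) ?_
        unfold W
        positivity
    _ = _ := by unfold W; ring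

/-- At most one fixed code for each selection. -/
lemma card_fixed_le [Fact d.ℓ.Prime] [Fact d.ℓ'.Prime] (hl : 2 < d.ℓ) (hl' : 2 < d.ℓ')
    {Z' : Finset (Fin (d.n p))} (S : Finset (d.Code p))
    (hS : ∀ C ∈ S, d.Valid p t Z' C ∧ d.mirror p t C = C) : S.card ≤ 2 ^ d.n p := by
  have hinj : Set.InjOn (fun C : d.Code p => C.1) ↑S := by
    rintro ⟨Z, f, g⟩ hC ⟨Z₂, f₂, g₂⟩ hC₂ (rfl : Z = Z₂)
    obtain ⟨⟨-, -, hu, -⟩, hf⟩ := hS _ hC
    obtain ⟨⟨-, -, hu₂, -⟩, hf₂⟩ := hS _ hC₂
    simp only [mirror, Prod.mk.injEq, true_and] at hf hf₂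
    refine Prod.ext rfl (Prod.ext (funext fun x => ?_) (funext fun x => ?_))
    · have hiff : (f x).isSome ↔ (f₂ x).isSome := (hu x).trans (hu₂ x).symm
      have e₁ := congrFun hf.1 x
      have e₂ := congrFun hf₂.1 x
      show f x = f₂ x
      cases h : f x <;> cases h₂ : f₂ x <;> simp [h, h₂] at hiff e₁ e₂ ⊢
      exact eq_of_fixed hl e₁ e₂
    · exact eq_of_fixed hl' (congrFun hf.2 x) (congrFun hf₂.2 x)
  calc S.card = (S.image fun C : d.Code p => C.1).card := (card_image_of_injOn hinj).symm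
    _ ≤ 2 ^ d.n p := (card_le_univ _).trans_eq (by rw [Fintype.card_finset, Fintype.card_fin])

/-- The equivariant injection at one level. -/
lemma exists_encode {κ ε : ℝ} {S : Finset ℕ} {c : ℕ → ℂ} (hG : d.Good κ ε S c) (hp : p ∈ d.P)
    (htV : t < d.V) {Z' : Finset (Fin (d.n p))} (hZ' : Z'.card ≤ d.J₀) :
    ∃ f : (d.Coord → Fin p) → d.Code p,
      (∀ v, d.NonCentre v → d.Valid p t Z' (f v)) ∧
      (∀ v w, d.NonCentre v → d.NonCentre w → f v = f w → v = w) ∧
      ∀ v, d.NonCentre v → f (fun x => (v x).rev) = d.mirror p t (f v) := by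
  classical
  have := Fact.mk hG.ℓ_prime
  have := Fact.mk hG.ℓ'_prime
  have hpp : ∀ q ∈ d.P, 0 < q := fun q hq => (hG.prime q hq).1.pos
  have hQ : p ^ t ≤ d.Q := (Nat.pow_le_pow_right (hpp p hp) htV.le).trans
    (Nat.le_of_dvd (prod_pos fun q hq => pow_pos (hpp q hq) _) (dvd_prod_of_mem _ hp))
  have hJ : 1 ≤ p ^ t ∧ p ^ t ≤ d.J := ⟨Nat.one_le_pow _ _ (hpp p hp), by unfold J; omega⟩
  have hl : 2 < d.ℓ := by have := hG.ℓ_big; omega
  have hl' : 2 < d.ℓ' := hl.trans hG.ℓ_lt
  have hcount := hG.count p hp (-(p ^ t : ℕ) : ℤ) (by rw [abs_neg, Nat.abs_cast]; omega)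
  let sX : {v : d.Coord → Fin p // d.NonCentre v} → {v : d.Coord → Fin p // d.NonCentre v} :=
    fun v => ⟨fun x => (v.1 x).rev, nonCentre_rev v.2⟩
  let sY : {C : d.Code p // d.Valid p t Z' C} → {C : d.Code p // d.Valid p t Z' C} :=
    fun C => ⟨d.mirror p t C.1, valid_mirror C.2⟩
  have hX : Fintype.card {v : d.Coord → Fin p // d.NonCentre v} ≤ p ^ d.D :=
    (Fintype.card_subtype_le _).trans_eq (by rw [Fintype.card_fun, Fintype.card_fin]; rfl)
  have hY : p ^ d.D + 2 ^ d.n p ≤ (univ.filter fun C : d.Code p => d.Valid p t Z' C).card := by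
    have := hcount.trans (le_card_valid hZ'
      (univ.filter fun C : d.Code p => d.Valid p t Z' C) (by simp))
    exact_mod_cast this
  have hfix : (univ.filter fun C : {C : d.Code p // d.Valid p t Z' C} => sY C = C).card ≤
      2 ^ d.n p := by
    rw [← card_map ⟨Subtype.val, Subtype.val_injective⟩]
    refine card_fixed_le (t := t) (Z' := Z') hl hl' _ fun C hC => ?_
    obtain ⟨C₀, hC₀, rfl⟩ := mem_map.1 hC
    exact ⟨C₀.2, congrArg Subtype.val (mem_filter.1 hC₀).2⟩
  have hmov : Fintype.card {v : d.Coord → Fin p // d.NonCentre v} ≤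
      (univ.filter fun C : {C : d.Code p // d.Valid p t Z' C} => sY C ≠ C).card := by
    have h1 := card_filter_add_card_filter_not
      (s := (univ : Finset {C : d.Code p // d.Valid p t Z' C})) (fun C => sY C = C)
    rw [card_univ, Fintype.card_subtype] at h1
    simp only [ne_eq]
    omega
  obtain ⟨f, hinj, heq⟩ := Design.exists_equivariant_injective sX sY
    (fun v => Subtype.ext (funext fun x => Fin.rev_rev _))
    (fun C => Subtype.ext (mirror_mirror C.1))
    (fun v h => rev_ne_self v.2 (congrArg Subtype.val h)) hmov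
  refine ⟨fun v => if h : d.NonCentre v then (f ⟨v, h⟩).1 else (∅, fun _ => none, 0),
    fun v hv => ?_, fun v w hv hw h => ?_, fun v hv => ?_⟩
  · simp only [dif_pos hv]
    exact (f ⟨v, hv⟩).2
  · simp only [dif_pos hv, dif_pos hw] at h
    exact congrArg Subtype.val (hinj (Subtype.ext h))
  · simp only [dif_pos hv, dif_pos (nonCentre_rev hv)]
    exact congrArg Subtype.val (heq ⟨v, hv⟩)

end Par

theorem encGoal : EncGoal := by
  classical
  intro d κ ε S c hG
  have key : ∀ p t, ∀ Z' : Finset (Fin (d.n p)), ∃ f : (d.Coord → Fin p) → d.Code p,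
      p ∈ d.P → t < d.V → Z'.card ≤ d.J₀ →
        (∀ v, d.NonCentre v → d.Valid p t Z' (f v)) ∧
        (∀ v w, d.NonCentre v → d.NonCentre w → f v = f w → v = w) ∧
        ∀ v, d.NonCentre v → f (fun x => (v x).rev) = d.mirror p t (f v) := by
    intro p t Z'
    by_cases h : p ∈ d.P ∧ t < d.V ∧ Z'.card ≤ d.J₀
    · obtain ⟨f, hf⟩ := Par.exists_encode hG h.1 h.2.1 h.2.2
      exact ⟨f, fun _ _ _ => hf⟩
    · exact ⟨fun _ => (∅, fun _ => none, 0), fun h1 h2 h3 => absurd ⟨h1, h2, h3⟩ h⟩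
  choose f hf using key
  exact ⟨{
    enc := f
    valid := fun p hp t _ ht Z' hZ => (hf p t Z' hp ht hZ).1
    inj := fun p hp t _ ht Z' hZ => (hf p t Z' hp ht hZ).2.1
    equiv := fun p hp t _ ht Z' hZ => (hf p t Z' hp ht hZ).2.2 }⟩


end Vale.Agent.P110.Exist
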