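import Mathlib

/-! The binomial count of one level: with `n ≈ λ ℓ / h`, `λ = -log (1 - x)`, the selected codes
have proportion at least `x (1 - η)` and the collapse factor is at most `(1 + η) / (1 - x)`. -/

namespace Vale.Agent.P110.Exist

open Finset Filter Topology Real

/-- The count and height asymptotics of one level. -/
theorem count_ineq (x η : ℝ) (hx : 0 < x) (hx1 : x < 1) (hη : 0 < η) :
    ∃ J₁ : ℕ, ∀ J₀ : ℕ, J₁ ≤ J₀ → ∃ δ : ℝ, 0 < δ ∧ ∀ ℓ h : ℝ, 0 < h → h ≤ δ * ℓ →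
      J₀ ≤ ⌊-log (1 - x) * ℓ / h⌋₊ ∧ ∀ e : ℝ, 0 ≤ e → e ≤ (1 + δ) * h →
        x * (1 - η) ≤ (∑ j ∈ Icc 1 J₀,
            (Nat.choose ⌊-log (1 - x) * ℓ / h⌋₊ j : ℝ) * (h / ℓ) ^ j) *
          (1 - e / ℓ) ^ ⌊-log (1 - x) * ℓ / h⌋₊ ∧
        (ℓ / (ℓ - e)) ^ ⌊-log (1 - x) * ℓ / h⌋₊ ≤ (1 + η) / (1 - x) := by
  set lam := -log (1 - x) with hlam_def
  have hlam : 0 < lam := by
    rw [hlam_def]
    exact neg_pos.2 (log_neg (by linarith) (by linarith))
  have hexp : exp (-lam) = 1 - x := by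
    rw [hlam_def, neg_neg, exp_log (by linarith)]
  -- the exponential series
  have hser : Tendsto (fun N => ∑ j ∈ Icc 1 N, lam ^ j / (j.factorial : ℝ)) atTop
      (𝓝 (exp lam - 1)) := by
    have h1 : HasSum (fun j => lam ^ j / (j.factorial : ℝ)) (exp lam) := by
      rw [Real.exp_eq_exp_ℝ]
      exact NormedSpace.expSeries_div_hasSum_exp lam
    have h2 : Tendsto (fun N => ∑ j ∈ range (N + 1), lam ^ j / (j.factorial : ℝ)) atTop
        (𝓝 (exp lam)) := h1.tendsto_sum_nat.comp (tendsto_add_atTop_nat 1)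
    refine (h2.sub_const 1).congr fun N => ?_
    rw [Finset.range_eq_Ico, Finset.sum_eq_sum_Ico_succ_bot (by omega)]
    simp [Finset.Ico_add_one_right_eq_Icc]
  have hlt : (exp lam - 1) * (1 - η) < exp lam - 1 := by
    have : 0 < exp lam - 1 := by linarith [Real.one_lt_exp_iff.2 hlam]
    nlinarith
  obtain ⟨J₁, hJ₁⟩ := eventually_atTop.1 (hser.eventually (lt_mem_nhds hlt))
  refine ⟨J₁, fun J₀ hJ₀ => ?_⟩
  set Sm : ℝ → ℝ := fun δ =>
    ∑ j ∈ Icc 1 J₀, max (lam - (J₀ + 1) * δ) 0 ^ j / (j.factorial : ℝ)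
  set c : ℝ → ℝ := fun δ => lam * (1 + δ) / (1 - (1 + δ) * δ)
  have hc : Tendsto c (𝓝 0) (𝓝 lam) := by
    have : ContinuousAt c 0 := by
      refine ContinuousAt.div (by fun_prop) (by fun_prop) (by norm_num)
    simpa [c] using this.tendsto
  have hS : Tendsto Sm (𝓝 0) (𝓝 (Sm 0)) := by
    have : Continuous Sm := by
      simp only [Sm]
      fun_prop
    exact this.tendsto 0
  have hS0 : Sm 0 = ∑ j ∈ Icc 1 J₀, lam ^ j / (j.factorial : ℝ) := by
    simp [Sm, max_eq_left hlam.le]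
  have hA : ∀ᶠ δ in 𝓝 (0 : ℝ), x * (1 - η) < Sm δ * exp (-c δ) := by
    refine (hS.mul ((Real.continuous_exp.tendsto _).comp hc.neg)).eventually (lt_mem_nhds ?_)
    rw [hS0, hexp]
    have hx' : x = (exp lam - 1) * (1 - x) := by
      rw [sub_mul, one_mul, ← hexp, ← exp_add, add_neg_cancel, exp_zero, hexp]
      ring
    calc x * (1 - η) = (exp lam - 1) * (1 - η) * (1 - x) := by rw [mul_right_comm, ← hx']
      _ < _ := mul_lt_mul_of_pos_right (hJ₁ J₀ hJ₀) (by linarith)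
  have hB : ∀ᶠ δ in 𝓝 (0 : ℝ), exp (c δ) < (1 + η) / (1 - x) := by
    refine ((Real.continuous_exp.tendsto _).comp hc).eventually (gt_mem_nhds ?_)
    rw [lt_div_iff₀ (by linarith), ← hexp, ← exp_add, add_neg_cancel, exp_zero]
    linarith
  have hC : ∀ᶠ δ in 𝓝 (0 : ℝ), (1 + δ) * δ < 1 ∧ ((J₀ : ℝ) + 1) * δ < lam := by
    refine (ContinuousAt.eventually_lt (f := fun δ : ℝ => (1 + δ) * δ) (g := fun _ => 1)
      (by fun_prop) continuousAt_const (by simp)).and ?_
    exact ContinuousAt.eventually_lt (f := fun δ : ℝ => ((J₀ : ℝ) + 1) * δ) (g := fun _ => lam)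
      (by fun_prop) continuousAt_const (by simpa using hlam)
  obtain ⟨ε, hε, hball⟩ := Metric.eventually_nhds_iff.1 (hA.and (hB.and hC))
  have hδ : dist (ε / 2) 0 < ε := by
    rw [Real.dist_eq, sub_zero, abs_of_pos (half_pos hε)]
    exact half_lt_self hε
  obtain ⟨hA', hB', h1, h2⟩ := hball hδ
  set δ := ε / 2
  refine ⟨δ, half_pos hε, fun ℓ h hh hhl => ?_⟩
  have hδ0 : 0 < δ := half_pos hε
  have hℓ : 0 < ℓ := pos_of_mul_pos_right (lt_of_lt_of_le hh hhl) hδ0.le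
  set n := ⌊lam * ℓ / h⌋₊
  set r := h / ℓ
  have hr : 0 < r := div_pos hh hℓ
  have hrδ : r ≤ δ := (div_le_iff₀ hℓ).2 hhl
  have hlr : lam * ℓ / h = lam / r := by simp only [r]; field_simp
  have hn1 : (n : ℝ) * r ≤ lam := by
    have := Nat.floor_le (show 0 ≤ lam * ℓ / h by positivity)
    rw [le_div_iff₀ hh] at this
    simp only [r]
    rw [mul_div_assoc', div_le_iff₀ hℓ]
    exact this
  have hn2 : lam - r ≤ (n : ℝ) * r := by
    have := Nat.lt_floor_add_one (lam * ℓ / h)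
    nth_rw 1 [hlr] at this
    rw [div_lt_iff₀ hr] at this
    nlinarith
  have hJn : J₀ ≤ n := by
    refine Nat.le_floor ?_
    rw [hlr, le_div_iff₀ hr]
    nlinarith [Nat.cast_nonneg (α := ℝ) J₀]
  refine ⟨hJn, fun e he0 he => ?_⟩
  set s := e / ℓ
  have hs0 : 0 ≤ s := div_nonneg he0 hℓ.le
  have hsr : s ≤ (1 + δ) * r := by
    simp only [s, r, ← mul_div_assoc]
    gcongr
  have hs1 : s ≤ (1 + δ) * δ := hsr.trans (by gcongr)
  have hs : s < 1 := hs1.trans_lt h1
  -- the power of `1 - s`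
  have hpow : exp (-c δ) ≤ (1 - s) ^ n := by
    have hlog : -(s / (1 - s)) ≤ log (1 - s) := by
      have := Real.one_sub_inv_le_log_of_pos (show 0 < 1 - s by linarith)
      have hne : (1 : ℝ) - s ≠ 0 := by linarith
      calc -(s / (1 - s)) = 1 - (1 - s)⁻¹ := by field_simp; ring
        _ ≤ _ := this
    rw [← exp_log (show 0 < 1 - s by linarith), ← exp_nat_mul]
    refine exp_le_exp.2 (le_trans ?_ (mul_le_mul_of_nonneg_left hlog (Nat.cast_nonneg n)))
    rw [mul_neg, neg_le_neg_iff, mul_div_assoc']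
    refine div_le_div₀ (by positivity) ?_ (by linarith) (by linarith)
    calc (n : ℝ) * s ≤ n * ((1 + δ) * r) := mul_le_mul_of_nonneg_left hsr (Nat.cast_nonneg n)
      _ = (n * r) * (1 + δ) := by ring
      _ ≤ lam * (1 + δ) := by gcongr
  constructor
  · refine hA'.le.trans (mul_le_mul ?_ hpow (exp_pos _).le (by positivity))
    refine Finset.sum_le_sum fun j hj => ?_
    rw [Finset.mem_Icc] at hj
    have hbase : max (lam - (J₀ + 1) * δ) 0 ≤ ((n + 1 - j : ℕ) : ℝ) * r := by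
      refine max_le ?_ (by positivity)
      rw [Nat.cast_sub (by omega), Nat.cast_add, Nat.cast_one]
      have hj' : ((j : ℝ) - 1) * r ≤ J₀ * δ := by
        have : (j : ℝ) - 1 ≤ J₀ := by
          have : (j : ℝ) ≤ J₀ := by exact_mod_cast hj.2
          linarith
        refine le_trans (mul_le_mul_of_nonneg_right this hr.le) ?_
        gcongr
      nlinarith
    calc max (lam - (J₀ + 1) * δ) 0 ^ j / (j.factorial : ℝ)
        ≤ (((n + 1 - j : ℕ) : ℝ) * r) ^ j / (j.factorial : ℝ) := by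
          gcongr
      _ = (((n + 1 - j : ℕ) : ℝ) ^ j / (j.factorial : ℝ)) * r ^ j := by rw [mul_pow]; ring
      _ ≤ _ := mul_le_mul_of_nonneg_right (by simpa using Nat.pow_le_choose (α := ℝ) j n)
          (by positivity)
  · have hne : ℓ / (ℓ - e) = (1 - s)⁻¹ := by
      simp only [s]
      rw [one_sub_div hℓ.ne', inv_div]
    rw [hne, inv_pow]
    calc ((1 - s) ^ n)⁻¹ ≤ (exp (-c δ))⁻¹ := inv_anti₀ (exp_pos _) hpow
      _ = exp (c δ) := by rw [exp_neg, inv_inv]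
      _ ≤ _ := hB'.le

end Vale.Agent.P110.Exist
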