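import Vale.Agent.P110.Exist.Design.Hits

/-!
# Decoding a slot from a hit cell

Abstract form of the disjointness argument (PROOF.md, section D): the chosen sets and values of a
segment can be read from any fine cell that one of its boxes contains.
-/

namespace Vale.Agent.P110.Exist

variable {ι : Type}

/-- The data used in decoding: chosen sets in the groups `G p i`, and supports of boxes. -/
structure Decodable (J V ℓ₀ : ℕ) (P : Finset ℕ) (S : Finset ℕ) (ℓ : ι → ℕ)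
    (H' : Finset (ZMod ℓ₀)) (G : ℕ → ℕ → Finset ι) (Z : (ι → ℕ) → ℕ → ℕ → Finset ι)
    (Good : (ι → ℕ) → ℕ → (ι → ℕ) → Prop) : Prop where
  S_dvd : ∀ m ∈ S, Odd m ∧ m ∣ J ∧ m.primeFactors ⊆ P
  S_exp : ∀ m ∈ S, ∀ p ∈ P, m.factorization p < V
  prime : ∀ p ∈ P, p.Prime ∧ Odd p
  pow_dvd : ∀ p ∈ P, p ^ V ∣ J
  J_pos : 0 < J
  J_rec : ∀ a < J, ∀ b < J, a % 2 = b % 2 → (∀ p ∈ P, a % p ^ V = b % p ^ V) → a = b
  J_even : 2 ∣ J
  modulus : ∀ p ∈ P, ∀ i, ∀ x ∈ G p i, ℓ x = ℓ₀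
  good_lt : ∀ j m u, Good j m u → (∀ x, j x < J) ∧ ∀ x, u x < ℓ x
  Z_sub : ∀ j p i, Z j p i ⊆ G p i
  Z_top : ∀ j m u, Good j m u → ∀ p ∈ P, Z j p V = ∅
  Z_ne : ∀ j m u, Good j m u → ∀ p ∈ P, ∀ i, 1 ≤ i → i < V → (Z j p i).Nonempty
  chosen : ∀ j m u, Good j m u → ∀ p ∈ P, ∀ i, 1 ≤ i → i ≤ m.factorization p →
    ∀ x ∈ Z j p i, ∀ k < m, (u x : ZMod ℓ₀) * J + m * j x + k ∈ H'
  avoid : ∀ j m u, Good j m u → ∀ p ∈ P, ∀ i, 1 ≤ i → i ≤ m.factorization p + 1 →
    ∀ x ∈ G p i, (x ∉ Z j p i ∨ i = m.factorization p + 1) →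
      ∀ k < m, (u x : ZMod ℓ₀) * J + m * j x + k ∉ H'
  determined : ∀ j m u j' u', Good j m u → Good j' m u' → ∀ p ∈ P, ∀ i, 1 ≤ i → i < V →
    Z j p (i + 1) = Z j' p (i + 1) → (∀ x, digit p V i (j x) = digit p V i (j' x)) →
      Z j p i = Z j' p i
  values : ∀ j m u j' u', Good j m u → Good j' m u' → ∀ p ∈ P, ∀ i, 1 ≤ i →
    i ≤ m.factorization p → Z j p (i + 1) = Z j' p (i + 1) → Z j p i = Z j' p i →
    (∀ x, (u x : ZMod (ℓ x)) * J + m * j x = (u' x : ZMod (ℓ x)) * J + m * j' x) →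
      ∀ x, digit p V i (j x) = digit p V i (j' x)

namespace Decodable

variable {J V ℓ₀ : ℕ} {P S : Finset ℕ} {ℓ : ι → ℕ} {H' : Finset (ZMod ℓ₀)}
  {G : ℕ → ℕ → Finset ι} {Z : (ι → ℕ) → ℕ → ℕ → Finset ι}
  {Good : (ι → ℕ) → ℕ → (ι → ℕ) → Prop} {j j' u u' φ : ι → ℕ} {m m' : ℕ}

/-- Different harmonics hit different cells. -/
theorem factorization_le (h : Decodable J V ℓ₀ P S ℓ H' G Z Good) (hm' : m' ∈ S)
    (g : Good j m u) (g' : Good j' m' u')
    (hφ : ∀ x, Hits J (ℓ x) m (j x) (u x) (φ x))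
    (hφ' : ∀ x, Hits J (ℓ x) m' (j' x) (u' x) (φ x)) {p : ℕ} (hp : p ∈ P) :
    m'.factorization p ≤ m.factorization p := by
  by_contra hlt
  push Not at hlt
  obtain ⟨x, hx⟩ := h.Z_ne j' m' u' g' p hp (m.factorization p + 1) (by omega)
    (by have := h.S_exp m' hm' p hp; omega)
  have hxG := h.Z_sub _ _ _ hx
  have hℓ := h.modulus p hp _ x hxG
  have hk := hφ x
  have hk' := hφ' x
  rw [hℓ] at hk hk'
  obtain ⟨k, hkm, hk⟩ := hk.zmod
  obtain ⟨k', hkm', hk'⟩ := hk'.zmod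
  refine h.avoid j m u g p hp _ (by omega) le_rfl x hxG (Or.inr rfl) k hkm ?_
  rw [← hk, hk']
  exact h.chosen j' m' u' g' p hp _ (by omega) (by omega) x hx k' hkm'

theorem harmonic_eq (h : Decodable J V ℓ₀ P S ℓ H' G Z Good) (hm : m ∈ S) (hm' : m' ∈ S)
    (g : Good j m u) (g' : Good j' m' u')
    (hφ : ∀ x, Hits J (ℓ x) m (j x) (u x) (φ x))
    (hφ' : ∀ x, Hits J (ℓ x) m' (j' x) (u' x) (φ x)) : m = m' := by
  refine Nat.eq_of_factorization_eq (h.S_dvd m hm).1.pos.ne' (h.S_dvd m' hm').1.pos.ne' fun p => ?_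
  by_cases hp : p ∈ P
  · exact le_antisymm (h.factorization_le hm g' g hφ' hφ hp) (h.factorization_le hm' g g' hφ hφ' hp)
  · have h0 : ∀ n ∈ S, n.factorization p = 0 := fun n hn =>
      Finsupp.notMem_support_iff.1 fun hc => hp ((h.S_dvd n hn).2.2 (by simpa using hc))
    rw [h0 m hm, h0 m' hm']

/-- The cell determines the slot. -/
theorem slot_eq (h : Decodable J V ℓ₀ P S ℓ H' G Z Good) (hm : m ∈ S)
    (g : Good j m u) (g' : Good j' m u')
    (hφ : ∀ x, Hits J (ℓ x) m (j x) (u x) (φ x))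
    (hφ' : ∀ x, Hits J (ℓ x) m (j' x) (u' x) (φ x)) : j = j' := by
  obtain ⟨hodd, hmJ, -⟩ := h.S_dvd m hm
  have hgrp : ∀ x, j x % (J / m) = j' x % (J / m) := fun x => (hφ x).mod_div_eq hmJ (hφ' x)
  have hsame : ∀ x, (u x : ZMod (ℓ x)) * J + m * j x = (u' x : ZMod (ℓ x)) * J + m * j' x := by
    intro x
    obtain ⟨k, hk, e⟩ := hφ x
    obtain ⟨k', hk', e'⟩ := hφ' x
    have e1 : k = k' := by
      have := (e.symm.trans e').of_mul_right.of_dvd hmJ
      obtain ⟨n, hn⟩ := hmJ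
      rw [hn, Nat.ModEq] at this
      simp only [show ∀ a b c, a * (m * n) + m * b + c = m * (a * n + b) + c from
        fun a b c => by ring, Nat.mul_add_mod] at this
      rwa [Nat.mod_eq_of_lt hk, Nat.mod_eq_of_lt hk'] at this
    subst e1
    have := (ZMod.natCast_eq_natCast_iff _ _ (ℓ x)).2 (e.symm.trans e').of_mul_left
    simpa using this
  funext x
  refine h.J_rec _ ((h.good_lt j m u g).1 x) _ ((h.good_lt j' m u' g').1 x) ?_ fun p hp => ?_
  · have h2 : 2 ∣ J / m := by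
      refine Nat.Coprime.dvd_of_dvd_mul_left ?_ (by rw [Nat.mul_div_cancel' hmJ]; exact h.J_even)
      exact Nat.coprime_two_left.2 hodd
    rw [← Nat.mod_mod_of_dvd (j x) h2, hgrp x, Nat.mod_mod_of_dvd _ h2]
  have hv := h.S_exp m hm p hp
  have hdiv : p ^ (V - m.factorization p) ∣ J / m := by
    have hpp := (h.prime p hp).1
    have hne : J / m ≠ 0 :=
      (Nat.div_pos (Nat.le_of_dvd h.J_pos hmJ) hodd.pos).ne'
    rw [hpp.pow_dvd_iff_le_factorization hne, Nat.factorization_div hmJ, Finsupp.tsub_apply]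
    have := (hpp.pow_dvd_iff_le_factorization h.J_pos.ne').1 (h.pow_dvd p hp)
    omega
  have hlow : ∀ i, m.factorization p < i → i ≤ V → ∀ y,
      digit p V i (j y) = digit p V i (j' y) := fun i hi hiV y =>
    digit_eq_of_mod (by omega) hiV ((pow_dvd_pow p (by omega)).trans hdiv) (hgrp y)
  have key : ∀ n i, V - i = n → 1 ≤ i → i ≤ V →
      Z j p i = Z j' p i ∧ ∀ y, digit p V i (j y) = digit p V i (j' y) := by
    intro n
    induction n with
    | zero =>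
      intro i hn hi hiV
      obtain rfl : i = V := by omega
      exact ⟨(h.Z_top j m u g p hp).trans (h.Z_top j' m u' g' p hp).symm, hlow i hv le_rfl⟩
    | succ n ih =>
      intro i hn hi hiV
      have hup := (ih (i + 1) (by omega) (by omega) (by omega)).1
      by_cases hiv : m.factorization p < i
      · exact ⟨h.determined j m u j' u' g g' p hp i hi (by omega) hup (hlow i hiv hiV),
          hlow i hiv hiV⟩
      push Not at hiv
      have hsub : ∀ j j' u u' : ι → ℕ, Good j m u → Good j' m u' →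
          (∀ x, Hits J (ℓ x) m (j x) (u x) (φ x)) →
          (∀ x, Hits J (ℓ x) m (j' x) (u' x) (φ x)) → Z j p i ⊆ Z j' p i := by
        intro j j' u u' g g' hφ hφ' y hy
        by_contra hy'
        have hyG := h.Z_sub _ _ _ hy
        have hk := hφ y
        have hk' := hφ' y
        rw [h.modulus p hp _ y hyG] at hk hk'
        obtain ⟨k, hkm, hk⟩ := hk.zmod
        obtain ⟨k', hkm', hk'⟩ := hk'.zmod
        refine h.avoid j' m u' g' p hp i hi (by omega) y hyG (Or.inl hy') k' hkm' ?_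
        rw [← hk', hk]
        exact h.chosen j m u g p hp i hi hiv y hy k hkm
      have hZ := Finset.Subset.antisymm (hsub j j' u u' g g' hφ hφ') (hsub j' j u' u g' g hφ' hφ)
      exact ⟨hZ, h.values j m u j' u' g g' p hp i hi hiv hup hZ hsame⟩
  exact mod_pow_eq_of_digit le_rfl fun i hi hiV => (key (V - i) i rfl (by omega) hiV).2 x

/-- Two boxes with a common cell are equal. -/
theorem eq_of_common_cell (h : Decodable J V ℓ₀ P S ℓ H' G Z Good) (hm : m ∈ S) (hm' : m' ∈ S)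
    (g : Good j m u) (g' : Good j' m' u')
    (hφ : ∀ x, Hits J (ℓ x) m (j x) (u x) (φ x))
    (hφ' : ∀ x, Hits J (ℓ x) m' (j' x) (u' x) (φ x)) : j = j' ∧ m = m' ∧ u = u' := by
  obtain rfl := h.harmonic_eq hm hm' g g' hφ hφ'
  obtain rfl := h.slot_eq hm g g' hφ hφ'
  exact ⟨rfl, rfl, funext fun x => (hφ x).spike_eq h.J_pos (h.S_dvd m hm).2.1
    ((h.good_lt j m u g).2 x) ((h.good_lt j m u' g').2 x) (hφ' x)⟩

/-- The disjointness clause of a design, from decoding and closure under the mirror. -/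
theorem disjoint_clause (h : Decodable J V ℓ₀ P S ℓ H' G Z Good) (hℓ : ∀ x, 0 < ℓ x) (top : ι)
    (hmir : ∀ j m u u', Good j m u → (∀ x, u' x < ℓ x) →
      (∀ x, (u' x : ZMod (ℓ x)) = -(u x : ZMod (ℓ x)) - m) →
        Good (fun x => J - 1 - j x) m u')
    (hm : m ∈ S) (hm' : m' ∈ S) (g : Good j m u) (g' : Good j' m' u')
    (htop : 2 * j top < J) (htop' : 2 * j' top < J) (hlt : ∀ x, φ x < J * ℓ x)
    (hφ : ∀ x, Hits J (ℓ x) m (j x) (u x) (φ x)) :
    ((∀ x, Hits J (ℓ x) m' (j' x) (u' x) (φ x)) → j = j' ∧ m = m' ∧ u = u') ∧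
      ¬ ∀ x, Hits J (ℓ x) m' (j' x) (u' x) (J * ℓ x - 1 - φ x) := by
  refine ⟨fun hφ' => h.eq_of_common_cell hm hm' g g' hφ hφ', fun hneg => ?_⟩
  have hj' := (h.good_lt j' m' u' g').1
  choose w hw hwφ hw' using fun x => (hneg x).mirror' (hℓ x) (hj' x) (hlt x)
  have := congrFun (h.eq_of_common_cell hm hm' g
    (hmir j' m' u' w g' hw hw') hφ hwφ).1 top
  have := h.J_even
  omega

end Decodable

/-- Residues to the modulus two and to the prime powers determine a slot. -/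
theorem slot_rec {P : Finset ℕ} {V a b : ℕ} (hP : ∀ p ∈ P, p.Prime ∧ Odd p)
    (ha : a < 2 * ∏ p ∈ P, p ^ V) (hb : b < 2 * ∏ p ∈ P, p ^ V) (h2 : a % 2 = b % 2)
    (h : ∀ p ∈ P, a % p ^ V = b % p ^ V) : a = b := by
  refine Nat.ModEq.eq_of_lt_of_lt (m := 2 * ∏ p ∈ P, p ^ V) ?_ ha hb
  refine (Nat.modEq_and_modEq_iff_modEq_mul ?_).1 ⟨h2, ?_⟩
  · exact Nat.Coprime.prod_right fun p hp => Nat.Coprime.pow_right _
      (Nat.coprime_two_left.2 (hP p hp).2)
  rw [Nat.modEq_iff_dvd]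
  push_cast
  refine Finset.prod_dvd_of_coprime (fun p hp q hq hne => ?_) fun p hp => ?_
  · exact IsCoprime.pow (Int.isCoprime_iff_nat_coprime.2
      (by simpa using (Nat.coprime_primes (hP p hp).1 (hP q hq).1).2 hne))
  · have := Nat.modEq_iff_dvd.1 (h p hp)
    simpa using this

end Vale.Agent.P110.Exist
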