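import Vale.Agent.P110.Exist.Defs

/-! The concrete design: parameters, coordinates, codes and letters, with interface statements.
See section D of `PROOF.md`. Levels are `t = 1, ..., V-1`; a block `(p, s, k)` is the `k`-th
coordinate of `G(p, s+1)` together with its partner of modulus `Y`. -/

namespace Vale.Agent.P110.Exist

open scoped BigOperators
open Finset

/-- Parameters of the design. -/
structure Par where
  P : Finset ℕ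
  V : ℕ
  J₀ : ℕ
  ℓ : ℕ
  ℓ' : ℕ
  n : ℕ → ℕ
  L₁ : ℕ → ℕ
  L₂ : ℕ → ℕ
  rest : ℕ
  H : Finset (ZMod ℓ)
  H' : Finset (ZMod ℓ)
  E : Finset (ZMod ℓ)

namespace Par

variable (d : Par)

def Q : ℕ := ∏ p ∈ d.P, p ^ d.V
def J : ℕ := 2 * d.Q
def Y : ℕ := d.ℓ - d.E.card

/-- Single coordinates: pads and labels of each level, and spare coordinates of modulus one. -/
abbrev A : Type :=
  (Σ p : d.P, Fin (d.V - 1) × (Fin (2 * d.J₀) ⊕ (Fin (d.L₁ p.1) ⊕ Fin (d.L₂ p.1)))) ⊕ Fin d.rest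

/-- Paired coordinates. -/
abbrev B : Type := Σ p : d.P, Fin d.V × Fin (d.n p.1)

abbrev Coord : Type := d.A ⊕ d.B × Bool

def la : d.A → ℕ
  | .inl ⟨_, _, .inl _⟩ => d.ℓ
  | .inl ⟨_, _, .inr (.inl _)⟩ => d.ℓ
  | .inl ⟨_, _, .inr (.inr _)⟩ => d.ℓ'
  | .inr _ => 1

def lb : d.B × Bool → ℕ
  | (_, false) => d.ℓ
  | (_, true) => d.Y

abbrev mods : d.Coord → ℕ := Sum.elim d.la d.lb

/-- The number of coordinates. -/
def D : ℕ := Fintype.card d.Coord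

/-- `ℓ^(n+J₀+L₁) ℓ'^L₂`, the weight of one level of the prime `p`. -/
noncomputable def W (p : ℕ) : ℝ :=
  (d.ℓ : ℝ) ^ (d.n p + d.J₀ + d.L₁ p) * (d.ℓ' : ℝ) ^ d.L₂ p

/-- Slots in a level index: selected, unselected (next level), pads, first labels. -/
abbrev Lv (p : ℕ) : Type :=
  Fin (d.n p) ⊕ (Fin (d.n p) ⊕ (Fin (2 * d.J₀) ⊕ Fin (d.L₁ p)))

/-- A selected set and values. -/
abbrev Code (p : ℕ) : Type :=
  Finset (Fin (d.n p)) × (d.Lv p → Option (ZMod d.ℓ)) × (Fin (d.L₂ p) → ZMod d.ℓ')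

/-- Which slots carry values. -/
def Used {p : ℕ} (Z' Z : Finset (Fin (d.n p))) : d.Lv p → Prop
  | .inl k => k ∈ Z
  | .inr (.inl k) => k ∉ Z'
  | .inr (.inr (.inl i)) => i.1 < d.J₀ + Z'.card - Z.card
  | .inr (.inr (.inr _)) => True

/-- Codes allowed at level `t` above the selection `Z'` of level `t+1`. -/
def Valid (p t : ℕ) (Z' : Finset (Fin (d.n p))) (C : d.Code p) : Prop :=
  1 ≤ C.1.card ∧ C.1.card ≤ d.J₀ ∧ (∀ x, (C.2.1 x).isSome ↔ d.Used Z' C.1 x) ∧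
  (∀ k v, C.2.1 (.inl k) = some v → v ∈ d.H ∨ -((p ^ t : ℕ) : ZMod d.ℓ) - v ∈ d.H) ∧
  (∀ k v, C.2.1 (.inr (.inl k)) = some v → v ∉ d.E ∧ -((p ^ t : ℕ) : ZMod d.ℓ) - v ∉ d.E)

/-- The mirror `v ↦ -q-v` of a code, `q = p^t`. -/
def mirror (p t : ℕ) (C : d.Code p) : d.Code p :=
  (C.1, fun x => (C.2.1 x).map fun v => -((p ^ t : ℕ) : ZMod d.ℓ) - v,
    fun x => -((p ^ t : ℕ) : ZMod d.ℓ') - C.2.2 x)

/-- A digit vector other than the centre. -/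
def NonCentre {p : ℕ} (v : d.Coord → Fin p) : Prop := ∃ x, 2 * (v x).1 + 1 ≠ p

/-- Injective mirror equivariant coding of digit vectors. -/
structure Enc where
  enc : ∀ p, ℕ → Finset (Fin (d.n p)) → (d.Coord → Fin p) → d.Code p
  valid : ∀ p ∈ d.P, ∀ t, 1 ≤ t → t < d.V → ∀ Z', Z'.card ≤ d.J₀ → ∀ v, d.NonCentre v →
    d.Valid p t Z' (enc p t Z' v)
  inj : ∀ p ∈ d.P, ∀ t, 1 ≤ t → t < d.V → ∀ Z', Z'.card ≤ d.J₀ → ∀ v w, d.NonCentre v →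
    d.NonCentre w → enc p t Z' v = enc p t Z' w → v = w
  equiv : ∀ p ∈ d.P, ∀ t, 1 ≤ t → t < d.V → ∀ Z', Z'.card ≤ d.J₀ → ∀ v, d.NonCentre v →
    enc p t Z' (fun x => (v x).rev) = d.mirror p t (enc p t Z' v)

/-- The digit `t` of a slot. -/
def dig (p t j : ℕ) : ℕ := j % p ^ d.V / p ^ (d.V - t) % p

def digVec (p : ℕ) (hp : 0 < p) (t : ℕ) (j : d.Coord → ℕ) : d.Coord → Fin p :=
  fun x => ⟨d.dig p t (j x), Nat.mod_lt _ hp⟩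

/-- A slot vector all whose digit vectors avoid the centre. -/
def GoodSlot (j : d.Coord → ℕ) : Prop :=
  (∀ x, j x < d.J) ∧ ∀ p ∈ d.P, ∀ hp : 0 < p, ∀ t, 1 ≤ t → t < d.V →
    d.NonCentre (d.digVec p hp t j)

variable {d} (e : d.Enc)

/-- The selection at level `V - k`. -/
def Enc.selDown (p : ℕ) (hp : 0 < p) (j : d.Coord → ℕ) : ℕ → Finset (Fin (d.n p))
  | 0 => ∅
  | k + 1 => (e.enc p (d.V - (k + 1)) (selDown p hp j k) (d.digVec p hp (d.V - (k + 1)) j)).1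

/-- The selection at level `t`. -/
def Enc.sel (p : ℕ) (hp : 0 < p) (t : ℕ) (j : d.Coord → ℕ) : Finset (Fin (d.n p)) :=
  e.selDown p hp j (d.V - t)

/-- The code at level `t`. -/
def Enc.code (p : ℕ) (hp : 0 < p) (t : ℕ) (j : d.Coord → ℕ) : d.Code p :=
  e.enc p t (e.sel p hp (t + 1) j) (d.digVec p hp t j)

end Par

/-- Letters of a single coordinate: quadratic, a level letter with spike parameter `b`, or one
with the frequencies `del m` deleted. -/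
inductive Lt
  | quad
  | lev (q b : ℕ)
  | del (q b : ℕ) (R : ℕ → Finset ℕ)

/-- Letters of a pair: a bent pair on a frequency set, or a letter and a quadratic partner. -/
inductive Bl
  | bent (A : Finset ℕ)
  | split (x : Lt)

def Lt.Ok (S : Finset ℕ) (ℓ : ℕ) (ε : ℝ) : Lt → Prop
  | .quad => Odd ℓ ∧ ∀ m ∈ S, Nat.Coprime m ℓ
  | .lev q _ => ℓ.Prime ∧ 1 < q ∧ q ∣ ℓ - 1
  | .del q _ R => ℓ.Prime ∧ 1 < q ∧ q ∣ ℓ - 1 ∧ ∀ m ∈ S, R m ⊆ range ℓ ∧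
      ((R m).card : ℝ) ≤ ε * Real.sqrt ℓ / (2 * S.card) ∧ (q ∣ m → R m = ∅)

def Lt.Supp (ℓ m : ℕ) : Lt → ℕ → Prop
  | .quad, _ => True
  | .lev q b, u => q ∣ m ↔ u = m * b % ℓ
  | .del q b R, u => (q ∣ m ↔ u = m * b % ℓ) ∧ u ∉ R m

/-- Upper bound for `ℓ ‖coef‖²`. -/
noncomputable def Lt.height (ℓ m : ℕ) : Lt → ℝ
  | .quad => 1
  | .lev q _ => if q ∣ m then (ℓ : ℝ) else 1
  | .del q _ _ => if q ∣ m then (ℓ : ℝ) else 1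

/-- Lower bound for `∑ ‖coef‖²`. -/
noncomputable def Lt.en (ℓ m : ℕ) (ε : ℝ) : Lt → ℝ
  | .quad => 1
  | .lev _ _ => 1 - 1 / (ℓ : ℝ)
  | .del _ _ R => (1 - ε) ^ 2 * (1 - (((R m).card : ℝ) + 1) / (ℓ : ℝ))

def Bl.Ok (S : Finset ℕ) (ℓ Y : ℕ) (ε : ℝ) : Bl → Prop
  | .bent A => 0 < Y ∧ A ⊆ range ℓ ∧ A.card = Y ∧ ∀ m ∈ S, Nat.Coprime m ℓ
  | .split x => x.Ok S ℓ ε ∧ Odd Y ∧ ∀ m ∈ S, Nat.Coprime m Y

def Bl.Supp (ℓ m : ℕ) : Bl → ℕ → Prop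
  | .bent A, u => ∃ w ∈ A, u = m * w % ℓ
  | .split x, u => x.Supp ℓ m u

/-- Upper bound for `ℓ Y ‖coef‖²`. -/
noncomputable def Bl.height (ℓ Y m : ℕ) : Bl → ℝ
  | .bent _ => (ℓ : ℝ) / (Y : ℝ)
  | .split x => x.height ℓ m

noncomputable def Bl.en (ℓ m : ℕ) (ε : ℝ) : Bl → ℝ
  | .bent _ => 1
  | .split x => x.en ℓ m ε

/-- Letters with prescribed roles exist (module Realise). -/
def RealiseGoal : Prop :=
  ∀ (A B : Type) [Fintype A] [DecidableEq A] [Fintype B] [DecidableEq B] (S : Finset ℕ)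
    (ε : ℝ) (la : A → ℕ) (lb : B × Bool → ℕ) (xa : A → Lt) (xb : B → Bl),
    0 < ε → ε ≤ 1 → (∀ m ∈ S, 0 < m) → (∀ i, (xa i).Ok S (la i) ε) →
    (∀ i, (xb i).Ok S (lb (i, false)) (lb (i, true)) ε) →
    ∃ g : ℕ → Res (Sum.elim la lb) → ℂ, (∀ r, IsMom S (fun m => g m r)) ∧ ∀ m ∈ S,
      (∀ u, coef (g m) u ≠ 0 → (∀ i, (xa i).Supp (la i) m (u (Sum.inl i))) ∧
        ∀ i, (xb i).Supp (lb (i, false)) m (u (Sum.inr (i, false)))) ∧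
      (∀ u, ‖coef (g m) u‖ ^ 2 * ∏ i, ((Sum.elim la lb i : ℕ) : ℝ) ≤
        (∏ i, (xa i).height (la i) m) *
          ∏ i, (xb i).height (lb (i, false)) (lb (i, true)) m) ∧
      (∏ i, (xa i).en (la i) m ε) * (∏ i, (xb i).en (lb (i, false)) m ε) ≤
        ∑ u, ‖coef (g m) u‖ ^ 2

namespace Par

variable {d : Par} (e : d.Enc)

/-- The spike parameter `b` with `q (b J + j) = v` modulo `ℓ`. -/
def bOf (ℓ q J j : ℕ) (v : ZMod ℓ) : ℕ :=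
  ((v * (q : ZMod ℓ)⁻¹ - (j : ZMod ℓ)) * (J : ZMod ℓ)⁻¹).val

open Classical in
/-- Deleted frequencies on selected coordinates of level `t`. -/
noncomputable def delSet (d : Par) (p t j m : ℕ) : Finset ℕ :=
  if m.factorization p = t - 1 then
    (range d.ℓ).filter fun u => ∃ k < m, ((u * d.J + m * j + k : ℕ) : ZMod d.ℓ) ∈ d.H'
  else ∅

open Classical in
/-- Frequencies of the bent pair. -/
noncomputable def bentSet (d : Par) (j : ℕ) : Finset ℕ :=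
  (range d.ℓ).filter fun u => ((u * d.J + j : ℕ) : ZMod d.ℓ) ∉ d.E

variable (pos : ∀ p ∈ d.P, 0 < p)

/-- Letters of single coordinates. -/
def Enc.roleA (j : d.Coord → ℕ) : d.A → Lt
  | .inr _ => .quad
  | .inl ⟨p, s, .inl i⟩ =>
      match (e.code p.1 (pos p.1 p.2) (s.1 + 1) j).2.1 (.inr (.inr (.inl i))) with
      | none => .quad
      | some v => .lev (p.1 ^ (s.1 + 1))
          (bOf d.ℓ (p.1 ^ (s.1 + 1)) d.J (j (.inl (.inl ⟨p, s, .inl i⟩))) v)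
  | .inl ⟨p, s, .inr (.inl i)⟩ =>
      .lev (p.1 ^ (s.1 + 1)) (bOf d.ℓ (p.1 ^ (s.1 + 1)) d.J
        (j (.inl (.inl ⟨p, s, .inr (.inl i)⟩)))
        (((e.code p.1 (pos p.1 p.2) (s.1 + 1) j).2.1 (.inr (.inr (.inr i)))).getD 0))
  | .inl ⟨p, s, .inr (.inr i)⟩ =>
      .lev (p.1 ^ (s.1 + 1)) (bOf d.ℓ' (p.1 ^ (s.1 + 1)) d.J
        (j (.inl (.inl ⟨p, s, .inr (.inr i)⟩)))
        ((e.code p.1 (pos p.1 p.2) (s.1 + 1) j).2.2 i))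

/-- Letters of pairs. -/
noncomputable def Enc.roleB (j : d.Coord → ℕ) : d.B → Bl
  | ⟨p, s, k⟩ =>
    if k ∈ e.sel p.1 (pos p.1 p.2) (s.1 + 1) j then
      .split (.del (p.1 ^ (s.1 + 1))
        (bOf d.ℓ (p.1 ^ (s.1 + 1)) d.J (j (.inr (⟨p, s, k⟩, false)))
          (((e.code p.1 (pos p.1 p.2) (s.1 + 1) j).2.1 (.inl k)).getD 0))
        (delSet d p.1 (s.1 + 1) (j (.inr (⟨p, s, k⟩, false)))))
    else if s.1 = 0 then .bent (bentSet d (j (.inr (⟨p, s, k⟩, false))))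
    else .split (.lev (p.1 ^ s.1)
        (bOf d.ℓ (p.1 ^ s.1) d.J (j (.inr (⟨p, s, k⟩, false)))
          (((e.code p.1 (pos p.1 p.2) s.1 j).2.1 (.inr (.inl k))).getD 0)))

/-- `u` can be a spike of harmonic `m` in segment `j`. -/
def Enc.Supp (j : d.Coord → ℕ) (m : ℕ) (u : Res d.mods) : Prop :=
  (∀ i, (e.roleA pos j i).Supp (d.la i) m (u (Sum.inl i))) ∧
    ∀ i, (e.roleB pos j i).Supp (d.lb (i, false)) m (u (Sum.inr (i, false)))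

end Par

/-- All numerical requirements on the parameters. -/
structure Par.Good (d : Par) (κ ε : ℝ) (S : Finset ℕ) (c : ℕ → ℂ) : Prop where
  prime : ∀ p ∈ d.P, p.Prime ∧ Odd p
  nonempty : d.P.Nonempty
  two_le_V : 2 ≤ d.V
  J₀_pos : 1 ≤ d.J₀
  J₀_le : ∀ p ∈ d.P, d.J₀ ≤ d.n p
  rest_pos : 1 ≤ d.rest
  S_dvd : ∀ m ∈ S, m ∣ ∏ p ∈ d.P, p ^ (d.V - 1)
  ℓ_prime : d.ℓ.Prime
  ℓ'_prime : d.ℓ'.Prime
  ℓ_big : 4 * d.J < d.ℓ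
  ℓ_lt : d.ℓ < d.ℓ'
  ℓ_mod : d.Q ∣ d.ℓ - 1
  ℓ'_mod : d.Q ∣ d.ℓ' - 1
  E_lt : d.E.card < d.ℓ
  Y_cop : Nat.Coprime d.Y (2 * d.Q)
  symH : ∀ x ∈ d.H, -1 - x ∈ d.H
  symH' : ∀ x ∈ d.H', -1 - x ∈ d.H'
  symE : ∀ x ∈ d.E, -1 - x ∈ d.E
  folner : ∀ k : ℕ, Odd k → k ≤ d.J + 1 → ∀ i : ℤ, |i| ≤ d.J + 1 →
    (∀ x ∈ d.H, (k : ZMod d.ℓ) * x + i ∈ d.H') ∧
      ∀ x, (k : ZMod d.ℓ) * x + i ∈ d.H' → x ∈ d.E
  count : ∀ p ∈ d.P, ∀ c : ℤ, |c| ≤ d.J + 1 →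
    (p : ℝ) ^ d.D + 2 ^ d.n p ≤ d.W p *
      (∑ j ∈ Icc 1 d.J₀, (Nat.choose (d.n p) j : ℝ) * ((d.H.card : ℝ) / d.ℓ) ^ j) *
      (1 - ((d.E ∪ d.E.image fun x => (c : ZMod d.ℓ) - x).card : ℝ) / d.ℓ) ^ d.n p
  height : ∀ m ∈ S, 2 * ‖c m‖ ^ 2 *
      (∏ p ∈ d.P, ((d.ℓ : ℝ) / d.Y) ^ d.n p * d.W p ^ m.factorization p) ≤
    (1 + κ) ^ 2 * (m : ℝ) ^ d.D
  H'_small : d.J * d.H'.card + 1 < d.ℓ
  ε_pos : 0 < ε
  ε_le : ε ≤ 1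
  deleted : ∀ m ∈ S, ((m * d.H'.card : ℕ) : ℝ) ≤ ε * Real.sqrt d.ℓ / (2 * S.card)
  energy : 1 - κ ≤ (∑ m ∈ S, 2 * ‖c m‖ ^ 2) *
    (1 - 2 * ∑ p ∈ d.P, (d.V : ℝ) / (p : ℝ) ^ d.D) *
    (1 - 1 / (d.ℓ : ℝ)) ^ (∑ p ∈ d.P, d.V * (d.n p + d.J₀ + d.L₁ p + d.L₂ p)) *
    ((1 - ε) ^ 2 * (1 - ((d.J * d.H'.card : ℕ) + 1 : ℝ) / d.ℓ)) ^ (∑ _p ∈ d.P, d.V * d.J₀)

/-- Good parameters exist (module Params). -/
def ParamsGoal : Prop :=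
  ∀ κ : ℝ, 0 < κ → ∃ (d : Par) (ε : ℝ) (S : Finset ℕ) (c : ℕ → ℂ), d.Good κ ε S c ∧
    ∀ x : ℝ, |∑ m ∈ S, 2 * (c m * fe (m * x)).re| ≤ 1

/-- Codes exist (module Count). -/
def EncGoal : Prop :=
  ∀ (d : Par) (κ ε : ℝ) (S : Finset ℕ) (c : ℕ → ℂ), d.Good κ ε S c → Nonempty d.Enc

/-- Boxes are disjoint (module Disjoint). -/
def DisjointGoal : Prop :=
  ∀ (d : Par) (κ ε : ℝ) (S : Finset ℕ) (c : ℕ → ℂ), d.Good κ ε S c →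
    ∀ (e : d.Enc) (pos : ∀ p ∈ d.P, 0 < p) (top : d.Coord),
    ∀ j j' : d.Coord → ℕ, d.GoodSlot j → d.GoodSlot j' → 2 * j top < d.J → 2 * j' top < d.J →
    ∀ m ∈ S, ∀ m' ∈ S, ∀ u u', e.Supp pos j m u → e.Supp pos j' m' u' →
    ∀ φ : d.Coord → ℕ, (∀ i, φ i < d.J * d.mods i) →
      (∀ i, Hits d.J (d.mods i) m (j i) (u i) (φ i)) →
      ((∀ i, Hits d.J (d.mods i) m' (j' i) (u' i) (φ i)) → j = j' ∧ m = m' ∧ u = u') ∧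
        ¬ ∀ i, Hits d.J (d.mods i) m' (j' i) (u' i) (d.J * d.mods i - 1 - φ i)

end Vale.Agent.P110.Exist
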