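import Vale.Agent.P110.Exist.Design.Decode
import Vale.Agent.P110.Exist.Design.Defs
import Vale.Agent.P110.Exist.Design.Equiv

/-!
# The boxes of the design are disjoint

Proves `DisjointGoal`: a fine cell determines the harmonic, the slot and the spike, also for the
mirrored boxes, because codes commute with the mirror.
-/

namespace Vale.Agent.P110.Exist

open Finset

namespace DisjointAux

attribute [local instance 10] Classical.propDecidable

section cast

variable {ℓ : ℕ}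

theorem eq_mod_iff {u a : ℕ} (hu : u < ℓ) : u = a % ℓ ↔ (u : ZMod ℓ) = a := by
  rw [ZMod.natCast_eq_natCast_iff', Nat.mod_eq_of_lt hu]

theorem bOf_spec [Fact ℓ.Prime] {q J j : ℕ} (hq : (q : ZMod ℓ) ≠ 0) (hJ : (J : ZMod ℓ) ≠ 0)
    (v : ZMod ℓ) : (q : ZMod ℓ) * ((Par.bOf ℓ q J j v : ℕ) * J + j) = v := by
  rw [Par.bOf, ZMod.natCast_val, ZMod.cast_id]
  field_simp
  ring

/-- A collapsed letter shows its value. -/
theorem collapse [Fact ℓ.Prime] {q J j u m n : ℕ} {v : ZMod ℓ} (hq : (q : ZMod ℓ) ≠ 0)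
    (hJ : (J : ZMod ℓ) ≠ 0) (hu : u < ℓ) (hm : m = q * n) (h : u = m * Par.bOf ℓ q J j v % ℓ) :
    (u : ZMod ℓ) * J + m * j = n * v := by
  have h' := (eq_mod_iff hu).1 h
  rw [h', hm]
  push_cast
  linear_combination (n : ZMod ℓ) * bOf_spec (j := j) hq hJ v

/-- The spike parameter of the mirrored value. -/
theorem spike_mirror [Fact ℓ.Prime] {q J j u u' m : ℕ} {v : ZMod ℓ} (hq : (q : ZMod ℓ) ≠ 0)
    (hJ : (J : ZMod ℓ) ≠ 0) (hj : j < J) (hu : u < ℓ) (hu' : u' < ℓ)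
    (he : (u' : ZMod ℓ) = -(u : ZMod ℓ) - m) :
    u' = m * Par.bOf ℓ q J (J - 1 - j) (-(q : ZMod ℓ) - v) % ℓ ↔
      u = m * Par.bOf ℓ q J j v % ℓ := by
  rw [eq_mod_iff hu, eq_mod_iff hu', he, Nat.cast_mul, Nat.cast_mul]
  have h1 := bOf_spec (j := j) hq hJ v
  have h2 := bOf_spec (j := J - 1 - j) hq hJ (-(q : ZMod ℓ) - v)
  have e : ((J - 1 - j : ℕ) : ZMod ℓ) = J - 1 - j := by
    rw [Nat.cast_sub (by omega), Nat.cast_sub (by omega), Nat.cast_one]
  rw [e] at h2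
  have hb : ((Par.bOf ℓ q J (J - 1 - j) (-(q : ZMod ℓ) - v) : ℕ) : ZMod ℓ) =
      -(Par.bOf ℓ q J j v : ℕ) - 1 := by
    refine mul_right_cancel₀ hJ (mul_left_cancel₀ hq ?_)
    linear_combination h1 + h2
  rw [hb]
  constructor <;> intro h <;> linear_combination -h

end cast

variable {d : Par} {κ ε : ℝ} {S : Finset ℕ} {c : ℕ → ℂ}

/-- The mirrored slot vector. -/
def mir (d : Par) (j : d.Coord → ℕ) : d.Coord → ℕ := fun x => d.J - 1 - j x

/-- The first coordinate of block `k` of the group `(p, s + 1)`. -/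
abbrev blk (d : Par) {p : ℕ} (hp : p ∈ d.P) {s : ℕ} (hs : s < d.V) (k : Fin (d.n p)) : d.Coord :=
  .inr (⟨⟨p, hp⟩, ⟨s, hs⟩, k⟩, false)

/-- The group `G (p, i)`. -/
noncomputable def grp (d : Par) (p i : ℕ) : Finset d.Coord :=
  univ.filter fun x => ∃ b : d.B, x = .inr (b, false) ∧ b.1.1 = p ∧ b.2.1.1 + 1 = i

theorem mem_grp {p i : ℕ} {x : d.Coord} (hx : x ∈ grp d p i) :
    ∃ (hp : p ∈ d.P) (s : ℕ) (hs : s < d.V) (k : Fin (d.n p)),
      i = s + 1 ∧ x = blk d hp hs k := by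
  obtain ⟨⟨⟨p', hp⟩, ⟨s, hs⟩, k⟩, rfl, hpp, hi⟩ := (mem_filter.1 hx).2
  obtain rfl : p' = p := hpp
  exact ⟨hp, s, hs, k, hi.symm, rfl⟩

theorem blk_mem_grp {p : ℕ} (hp : p ∈ d.P) {s : ℕ} (hs : s < d.V) (k : Fin (d.n p)) :
    blk d hp hs k ∈ grp d p (s + 1) := mem_filter.2 ⟨mem_univ _, _, rfl, rfl, rfl⟩

variable (e : d.Enc) (pos : ∀ p ∈ d.P, 0 < p)

/-- The chosen coordinates of the group `G (p, i)`. -/
noncomputable def chz (j : d.Coord → ℕ) (p i : ℕ) : Finset d.Coord :=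
  (grp d p i).filter fun x => ∃ b : d.B, x = .inr (b, false) ∧
    b.2.2 ∈ e.sel b.1.1 (pos _ b.1.2) (b.2.1.1 + 1) j

theorem blk_mem_chz {j : d.Coord → ℕ} {p : ℕ} (hp : p ∈ d.P) {s : ℕ} (hs : s < d.V)
    (k : Fin (d.n p)) :
    blk d hp hs k ∈ chz e pos j p (s + 1) ↔ k ∈ e.sel p (pos p hp) (s + 1) j := by
  refine ⟨fun h => ?_, fun h => mem_filter.2 ⟨blk_mem_grp hp hs k, _, rfl, h⟩⟩
  obtain ⟨b, hb, hk⟩ := (mem_filter.1 h).2
  simp only [Sum.inr.injEq, Prod.mk.injEq, and_true] at hb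
  subst hb
  exact hk

theorem sel_eq_of_chz_eq {j j' : d.Coord → ℕ} {p : ℕ} (hp : p ∈ d.P) {s : ℕ} (hs : s < d.V)
    (h : chz e pos j p (s + 1) = chz e pos j' p (s + 1)) :
    e.sel p (pos p hp) (s + 1) j = e.sel p (pos p hp) (s + 1) j' := by
  ext k
  rw [← blk_mem_chz e pos hp hs k, ← blk_mem_chz e pos hp hs k, h]

section sel

variable {p : ℕ} (hp0 : 0 < p) (j : d.Coord → ℕ)

theorem sel_top : e.sel p hp0 d.V j = ∅ := by
  rw [Par.Enc.sel, Nat.sub_self, Par.Enc.selDown]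

theorem sel_eq {t : ℕ} (ht : t < d.V) : e.sel p hp0 t j = (e.code p hp0 t j).1 := by
  obtain ⟨k, hk⟩ : ∃ k, d.V - t = k + 1 := ⟨d.V - t - 1, by omega⟩
  rw [Par.Enc.code, Par.Enc.sel, hk, Par.Enc.selDown, show d.V - (k + 1) = t by omega,
    Par.Enc.sel, show d.V - (t + 1) = k by omega]

end sel

variable {j j' : d.Coord → ℕ}

theorem sel_card (hg : d.GoodSlot j) {p : ℕ} (hp : p ∈ d.P) :
    ∀ k t, 1 ≤ t → t + k = d.V → (e.sel p (pos p hp) t j).card ≤ d.J₀ := by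
  intro k
  induction k with
  | zero => intro t _ ht; obtain rfl : t = d.V := ht; simp [sel_top]
  | succ k ih =>
    intro t ht htV
    rw [sel_eq e _ _ (by omega)]
    exact (e.valid p hp t ht (by omega) _ (ih (t + 1) (by omega) (by omega)) _
      (hg.2 p hp (pos p hp) t ht (by omega))).2.1

theorem code_valid (hg : d.GoodSlot j) {p : ℕ} (hp : p ∈ d.P) {t : ℕ} (ht : 1 ≤ t)
    (htV : t < d.V) :
    d.Valid p t (e.sel p (pos p hp) (t + 1) j) (e.code p (pos p hp) t j) :=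
  e.valid p hp t ht htV _ (sel_card e pos hg hp (d.V - (t + 1)) _ (by omega) (by omega)) _
    (hg.2 p hp (pos p hp) t ht htV)

/-- A carried value. -/
theorem code_some (hg : d.GoodSlot j) {p : ℕ} (hp : p ∈ d.P) {t : ℕ} (ht : 1 ≤ t)
    (htV : t < d.V) (x : d.Lv p)
    (hx : d.Used (e.sel p (pos p hp) (t + 1) j) (e.code p (pos p hp) t j).1 x) :
    ∃ v, (e.code p (pos p hp) t j).2.1 x = some v :=
  Option.isSome_iff_exists.1 (((code_valid e pos hg hp ht htV).2.2.1 x).2 hx)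

/-! ### The mirror -/

theorem digVec_mir {p : ℕ} (hp : p ∈ d.P) (hj : ∀ x, j x < d.J) {t : ℕ} (ht : 1 ≤ t)
    (htV : t ≤ d.V) :
    d.digVec p (pos p hp) t (mir d j) = fun x => (d.digVec p (pos p hp) t j x).rev :=
  d.digVec_mirror hp (pos p hp) ht htV hj

include pos in
theorem goodSlot_mir (hg : d.GoodSlot j) : d.GoodSlot (mir d j) := by
  refine ⟨fun x => by have := hg.1 x; simp only [mir]; omega, fun p hp hp0 t ht htV => ?_⟩
  obtain ⟨x, hx⟩ := hg.2 p hp hp0 t ht htV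
  refine ⟨x, ?_⟩
  rw [digVec_mir pos hp hg.1 ht htV.le, Fin.val_rev]
  have := (d.digVec p hp0 t j x).isLt
  omega

theorem selDown_mir (hg : d.GoodSlot j) {p : ℕ} (hp : p ∈ d.P) :
    ∀ k t, 1 ≤ t → t + k = d.V →
      e.sel p (pos p hp) t (mir d j) = e.sel p (pos p hp) t j := by
  intro k
  induction k with
  | zero => intro t _ ht; obtain rfl : t = d.V := ht; simp [sel_top]
  | succ k ih =>
    intro t ht htV
    rw [sel_eq e _ _ (by omega), sel_eq e _ _ (by omega), Par.Enc.code, Par.Enc.code,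
      ih (t + 1) (by omega) (by omega), digVec_mir pos hp hg.1 ht (by omega),
      e.equiv p hp t ht (by omega) _ (sel_card e pos hg hp k _ (by omega) (by omega)) _
        (hg.2 p hp (pos p hp) t ht (by omega))]
    rfl

theorem sel_mir (hg : d.GoodSlot j) {p : ℕ} (hp : p ∈ d.P) {t : ℕ} (ht : 1 ≤ t) (htV : t ≤ d.V) :
    e.sel p (pos p hp) t (mir d j) = e.sel p (pos p hp) t j :=
  selDown_mir e pos hg hp (d.V - t) t ht (by omega)

theorem code_mir (hg : d.GoodSlot j) {p : ℕ} (hp : p ∈ d.P) {t : ℕ} (ht : 1 ≤ t) (htV : t < d.V) :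
    e.code p (pos p hp) t (mir d j) = d.mirror p t (e.code p (pos p hp) t j) := by
  rw [Par.Enc.code, Par.Enc.code, sel_mir e pos hg hp (by omega) (by omega),
    digVec_mir pos hp hg.1 ht (by omega)]
  exact e.equiv p hp t ht htV _ (sel_card e pos hg hp (d.V - (t + 1)) _ (by omega) (by omega)) _
    (hg.2 p hp (pos p hp) t ht htV)

/-! ### Arithmetic of the parameters -/

section good

variable (h : d.Good κ ε S c)
include h

theorem S_facts {m : ℕ} (hm : m ∈ S) :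
    Odd m ∧ m ∣ d.J ∧ m.primeFactors ⊆ d.P ∧ (∀ p ∈ d.P, m.factorization p < d.V) ∧ m ≤ d.J := by
  have hne : ∀ p ∈ d.P, p ^ (d.V - 1) ≠ 0 := fun p hp => pow_ne_zero _ (h.prime p hp).1.ne_zero
  have hprod : ∏ p ∈ d.P, p ^ (d.V - 1) ≠ 0 := prod_ne_zero_iff.2 hne
  have hdvd := h.S_dvd m hm
  have hJ : m ∣ d.J := (hdvd.trans (prod_dvd_prod_of_dvd _ _ fun p _ =>
    pow_dvd_pow p (Nat.sub_le _ _))).trans (dvd_mul_left _ 2)
  refine ⟨Odd.of_dvd_nat (prod_induction _ Odd (fun _ _ => Odd.mul) odd_one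
    fun p hp => (h.prime p hp).2.pow) hdvd, hJ, ?_, fun p hp => ?_, ?_⟩
  · intro q hq
    rw [Nat.mem_primeFactors] at hq
    obtain ⟨p, hp, hqp⟩ := hq.1.prime.exists_mem_finset_dvd (hq.2.1.trans hdvd)
    rwa [(Nat.prime_dvd_prime_iff_eq hq.1 (h.prime p hp).1).1 (hq.1.dvd_of_dvd_pow hqp)]
  · have hpp := (h.prime p hp).1
    refine lt_of_le_of_lt ((Nat.factorization_le_iff_dvd (ne_zero_of_dvd_ne_zero hprod hdvd)
      hprod).2 hdvd p) ?_
    have := h.two_le_V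
    rw [Nat.factorization_prod hne, Finsupp.finsetSum_apply, sum_eq_single p (fun q hq hne => by
      rw [(h.prime q hq).1.factorization_pow, Finsupp.single_eq_of_ne hne.symm])
      (fun hc => absurd hp hc), hpp.factorization_pow, Finsupp.single_eq_same]
    omega
  · refine Nat.le_of_dvd ?_ hJ
    exact mul_pos two_pos (prod_pos fun p hp => pow_pos (h.prime p hp).1.pos _)

theorem J_pos : 0 < d.J := mul_pos two_pos (prod_pos fun p hp => pow_pos (h.prime p hp).1.pos _)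

theorem cast_ne_zero {a : ℕ} (ha : 0 < a) (haJ : a ≤ d.J) :
    (a : ZMod d.ℓ) ≠ 0 ∧ (a : ZMod d.ℓ') ≠ 0 := by
  have := h.ℓ_big; have := h.ℓ_lt
  constructor <;> rw [Ne, ZMod.natCast_eq_zero_iff] <;> intro hd <;>
    have := Nat.le_of_dvd ha hd <;> omega

/-- Splitting `m = q n` for `q = p ^ t`, `t` at most the exponent of `p` in `m`. -/
theorem split_m {m : ℕ} (hm : m ∈ S) {p t : ℕ} (ht : t ≤ m.factorization p) :
    ∃ n, m = p ^ t * n ∧ Odd n ∧ n ≤ d.J ∧ 0 < n ∧ p ^ t ≤ d.J := by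
  obtain ⟨hodd, -, -, -, hmJ⟩ := S_facts h hm
  have hd : p ^ t ∣ m := (pow_dvd_pow p ht).trans (Nat.ordProj_dvd m p)
  obtain ⟨n, hn⟩ := hd
  have hn' : Odd n := hodd.of_dvd_nat ⟨p ^ t, by rw [hn, mul_comm]⟩
  have h1 : n ≤ m := Nat.le_of_dvd hodd.pos ⟨p ^ t, by rw [hn, mul_comm]⟩
  have h2 : p ^ t ≤ m := Nat.le_of_dvd hodd.pos ⟨n, hn⟩
  exact ⟨n, hn, hn', h1.trans hmJ, hn'.pos, h2.trans hmJ⟩

end good

/-- The support predicate on natural spikes. -/
def Box (S : Finset ℕ) (j : d.Coord → ℕ) (m : ℕ) (u : d.Coord → ℕ) : Prop :=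
  d.GoodSlot j ∧ m ∈ S ∧ ∃ U : Res d.mods, (∀ x, (U x : ℕ) = u x) ∧ e.Supp pos j m U

theorem box_blk {m : ℕ} {u : d.Coord → ℕ} (g : Box e pos S j m u) {p : ℕ} (hp : p ∈ d.P) {s : ℕ}
    (hs : s < d.V) (k : Fin (d.n p)) :
    (e.roleB pos j ⟨⟨p, hp⟩, ⟨s, hs⟩, k⟩).Supp d.ℓ m (u (blk d hp hs k)) ∧
      u (blk d hp hs k) < d.ℓ := by
  obtain ⟨-, -, U, hU, hs'⟩ := g
  have h1 := hs'.2 ⟨⟨p, hp⟩, ⟨s, hs⟩, k⟩
  rw [hU] at h1
  exact ⟨h1, (hU _).symm ▸ (U (blk d hp hs k)).isLt⟩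

theorem decodable (h : d.Good κ ε S c) :
    Decodable d.J d.V d.ℓ d.P S d.mods d.H' (grp d) (chz e pos) (Box e pos S) where
  S_dvd m hm := ⟨(S_facts h hm).1, (S_facts h hm).2.1, (S_facts h hm).2.2.1⟩
  S_exp m hm := (S_facts h hm).2.2.2.1
  prime := h.prime
  pow_dvd p hp := Dvd.dvd.mul_left (dvd_prod_of_mem (fun q => q ^ d.V) hp) 2
  J_pos := J_pos h
  J_rec a ha b hb := slot_rec h.prime ha hb
  J_even := dvd_mul_right 2 _
  modulus p hp i x hx := by
    obtain ⟨hp', s, hs, k, -, rfl⟩ := mem_grp hx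
    rfl
  good_lt j m u g := ⟨g.1.1, fun x => by
    obtain ⟨U, hU, -⟩ := g.2.2
    exact hU x ▸ (U x).isLt⟩
  Z_sub j p i := filter_subset _ _
  Z_top j m u g p hp := by
    refine eq_empty_of_forall_notMem fun x hx => ?_
    obtain ⟨hp', s, hs, k, hi, rfl⟩ := mem_grp (mem_of_mem_filter x hx)
    rw [hi, blk_mem_chz e pos hp' hs k, ← hi, sel_top] at hx
    exact notMem_empty _ hx
  Z_ne j m u g p hp i hi hiV := by
    obtain ⟨s, rfl⟩ : ∃ s, i = s + 1 := ⟨i - 1, by omega⟩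
    obtain ⟨k, hk⟩ := card_pos.1 (code_valid e pos g.1 hp hi hiV).1
    exact ⟨_, (blk_mem_chz e pos hp (by omega : s < d.V) k).2 (by rwa [sel_eq e _ _ hiV])⟩
  chosen j m u g p hp i hi hiv x hx kk hkk := by
    have hmS := g.2.1
    obtain ⟨hodd, -, -, hexp, hmJ⟩ := S_facts h hmS
    obtain ⟨hp', s, hs, k, rfl, rfl⟩ := mem_grp (mem_of_mem_filter x hx)
    have hk := (blk_mem_chz e pos hp' hs k).1 hx
    have hsV : s + 1 < d.V := by have := hexp p hp; omega
    obtain ⟨hsupp, hult⟩ := box_blk e pos g hp' hs k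
    rw [Par.Enc.roleB, if_pos hk] at hsupp
    obtain ⟨v, hv⟩ := code_some e pos g.1 hp' hi hsV (.inl k)
      (by rwa [sel_eq e _ _ hsV] at hk)
    simp only [Bl.Supp, Lt.Supp, hv, Option.getD_some] at hsupp
    obtain ⟨n, hn, hnodd, hnJ, -, hqJ⟩ := split_m h hmS hiv
    have := Fact.mk h.ℓ_prime
    rw [collapse (cast_ne_zero h (pow_pos (pos p hp) _) hqJ).1 (cast_ne_zero h (J_pos h) le_rfl).1
      hult hn (hsupp.1.1 ⟨n, hn⟩)]
    have hval := (code_valid e pos g.1 hp' hi hsV).2.2.2.1 k v hv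
    rcases hval with hv' | hv'
    · have := (h.folner n hnodd (by omega) kk (by rw [Nat.abs_cast]; omega)).1 v hv'
      simpa using this
    · have := (h.folner n hnodd (by omega) ((m : ℤ) - 1 - kk)
        (by rw [abs_le]; omega)).1 _ hv'
      have := h.symH' _ this
      convert this using 1
      rw [hn]
      push_cast
      ring
  avoid j m u g p hp i hi hiv x hx hor kk hkk := by
    have hmS := g.2.1
    obtain ⟨hodd, -, -, hexp, hmJ⟩ := S_facts h hmS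
    obtain ⟨hp', s, hs, k, rfl, rfl⟩ := mem_grp hx
    have := Fact.mk h.ℓ_prime
    obtain ⟨hsupp, hult⟩ := box_blk e pos g hp' hs k
    by_cases hk : k ∈ e.sel p (pos p hp') (s + 1) j
    · have hv : m.factorization p = s := by
        rcases hor with hor | hor
        · exact absurd ((blk_mem_chz e pos hp' hs k).2 hk) hor
        · omega
      rw [Par.Enc.roleB, if_pos hk] at hsupp
      intro hH
      refine hsupp.2 ?_
      rw [Par.delSet, if_pos (by simpa using hv)]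
      exact mem_filter.2 ⟨mem_range.2 hult, kk, hkk, by simpa using hH⟩
    rw [Par.Enc.roleB, if_neg hk] at hsupp
    by_cases hs0 : s = 0
    · rw [if_pos hs0] at hsupp
      obtain ⟨w, hw, hu⟩ := hsupp
      rw [Par.bentSet, mem_filter] at hw
      intro hH
      refine hw.2 ((h.folner m hodd (by omega) kk (by rw [Nat.abs_cast]; omega)).2 _ ?_)
      rw [(eq_mod_iff hult).1 hu] at hH
      convert hH using 1
      push_cast
      ring
    · rw [if_neg hs0] at hsupp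
      have hsV : s < d.V := hs
      obtain ⟨v, hv⟩ := code_some e pos g.1 hp' (by omega : 1 ≤ s) hsV (.inr (.inl k)) hk
      simp only [Bl.Supp, Lt.Supp, hv, Option.getD_some] at hsupp
      obtain ⟨n, hn, hnodd, hnJ, -, hqJ⟩ := split_m h hmS (by omega : s ≤ m.factorization p)
      rw [collapse (cast_ne_zero h (pow_pos (pos p hp) _) hqJ).1 (cast_ne_zero h (J_pos h) le_rfl).1
        hult hn (hsupp.1 ⟨n, hn⟩)]
      intro hH
      refine ((code_valid e pos g.1 hp' (by omega) hsV).2.2.2.2 k v hv).1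
        ((h.folner n hnodd (by omega) kk (by rw [Nat.abs_cast]; omega)).2 _ ?_)
      simpa using hH
  determined j m u j' u' g g' p hp i hi hiV hZ hdig := by
    obtain ⟨s, rfl⟩ : ∃ s, i = s + 1 := ⟨i - 1, by omega⟩
    have h1 := sel_eq_of_chz_eq e pos hp hiV hZ
    have h2 : e.sel p (pos p hp) (s + 1) j = e.sel p (pos p hp) (s + 1) j' := by
      rw [sel_eq e _ _ hiV, sel_eq e _ _ hiV, Par.Enc.code, Par.Enc.code, h1,
        show d.digVec p (pos p hp) (s + 1) j = d.digVec p (pos p hp) (s + 1) j' from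
          funext fun x => Fin.ext (hdig x)]
    ext x
    by_cases hx : x ∈ grp d p (s + 1)
    · obtain ⟨hp', s', hs, k, hss, rfl⟩ := mem_grp hx
      obtain rfl : s = s' := by omega
      rw [blk_mem_chz e pos hp' hs k, blk_mem_chz e pos hp' hs k, h2]
    · exact ⟨fun hc => absurd (mem_of_mem_filter x hc) hx,
        fun hc => absurd (mem_of_mem_filter x hc) hx⟩
  values j m u j' u' g g' p hp i hi hiv hZ' hZ hsame := by
    have hmS := g.2.1
    obtain ⟨-, -, -, hexp, -⟩ := S_facts h hmS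
    have hiV : i < d.V := lt_of_le_of_lt hiv (hexp p hp)
    obtain ⟨s, rfl⟩ : ∃ s, i = s + 1 := ⟨i - 1, by omega⟩
    have hs : s < d.V := by omega
    have hs1 : s < d.V - 1 := by omega
    have h1 := sel_eq_of_chz_eq e pos hp hiV hZ'
    have h2 := sel_eq_of_chz_eq e pos hp hs hZ
    obtain ⟨n, hn, -, hnJ, hn0, hqJ⟩ := split_m h hmS hiv
    have hdvd : p ^ (s + 1) ∣ m := ⟨n, hn⟩
    have := Fact.mk h.ℓ_prime
    have := Fact.mk h.ℓ'_prime
    have hq := cast_ne_zero h (pow_pos (pos p hp) (s + 1)) hqJ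
    have hJ := cast_ne_zero h (J_pos h) le_rfl
    obtain ⟨U, hU, hUs⟩ := g.2.2
    obtain ⟨U', hU', hUs'⟩ := g'.2.2
    have cancel : ∀ (x : d.Coord) (_ : d.mods x = d.ℓ) (v v' : ZMod d.ℓ) (a b : ℕ),
        a < d.ℓ → b < d.ℓ → (a : ZMod d.ℓ) * d.J + m * j x = (b : ZMod d.ℓ) * d.J + m * j' x →
        a = m * Par.bOf d.ℓ (p ^ (s + 1)) d.J (j x) v % d.ℓ →
        b = m * Par.bOf d.ℓ (p ^ (s + 1)) d.J (j' x) v' % d.ℓ → v = v' := by
      intro x _ v v' a b ha hb he e1 e2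
      rw [collapse hq.1 hJ.1 ha hn e1, collapse hq.1 hJ.1 hb hn e2] at he
      exact mul_left_cancel₀ (cast_ne_zero h hn0 hnJ).1 he
    have hcode : e.code p (pos p hp) (s + 1) j = e.code p (pos p hp) (s + 1) j' := by
      have hC1 : (e.code p (pos p hp) (s + 1) j).1 = (e.code p (pos p hp) (s + 1) j').1 := by
        rw [← sel_eq e _ _ hiV, ← sel_eq e _ _ hiV, h2]
      refine Prod.ext hC1 (Prod.ext (funext fun x => ?_) (funext fun i => ?_))
      · have husedj := (code_valid e pos g.1 hp hi hiV).2.2.1 x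
        have husedj' := (code_valid e pos g'.1 hp hi hiV).2.2.1 x
        rw [← h1, ← hC1] at husedj'
        by_cases hus : d.Used (e.sel p (pos p hp) (s + 1 + 1) j)
            (e.code p (pos p hp) (s + 1) j).1 x
        · obtain ⟨v, hv⟩ := Option.isSome_iff_exists.1 (husedj.2 hus)
          obtain ⟨v', hv'⟩ := Option.isSome_iff_exists.1 (husedj'.2 hus)
          rw [hv, hv']
          congr 1
          rcases x with k | k | i | i
          · have e1 := (box_blk e pos g hp hs k).1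
            have e2 := (box_blk e pos g' hp hs k).1
            have hk : k ∈ e.sel p (pos p hp) (s + 1) j := by rw [sel_eq e _ _ hiV]; exact hus
            rw [Par.Enc.roleB, if_pos hk] at e1
            rw [Par.Enc.roleB, if_pos (h2 ▸ hk)] at e2
            simp only [Bl.Supp, Lt.Supp, hv, hv', Option.getD_some] at e1 e2
            exact cancel (blk d hp hs k) rfl v v' _ _ (box_blk e pos g hp hs k).2
              (box_blk e pos g' hp hs k).2 (hsame _) (e1.1.1 hdvd) (e2.1.1 hdvd)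
          · have e1 := (box_blk e pos g hp hiV k).1
            have e2 := (box_blk e pos g' hp hiV k).1
            have hk : k ∉ e.sel p (pos p hp) (s + 1 + 1) j := hus
            rw [Par.Enc.roleB, if_neg hk, if_neg (Nat.succ_ne_zero s)] at e1
            rw [Par.Enc.roleB, if_neg (h1 ▸ hk), if_neg (Nat.succ_ne_zero s)] at e2
            simp only [Bl.Supp, Lt.Supp, hv, hv', Option.getD_some] at e1 e2
            exact cancel (blk d hp hiV k) rfl v v' _ _ (box_blk e pos g hp hiV k).2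
              (box_blk e pos g' hp hiV k).2 (hsame _) (e1.1 hdvd) (e2.1 hdvd)
          · have e1 := hUs.1 (.inl ⟨⟨p, hp⟩, ⟨s, hs1⟩, .inl i⟩)
            have e2 := hUs'.1 (.inl ⟨⟨p, hp⟩, ⟨s, hs1⟩, .inl i⟩)
            simp only [Par.Enc.roleA, hv, hv', Lt.Supp] at e1 e2
            exact cancel (.inl (.inl ⟨⟨p, hp⟩, ⟨s, hs1⟩, .inl i⟩)) rfl v v' _ _ (U _).isLt
              (U' _).isLt (by rw [hU, hU']; exact hsame _) (e1.1 hdvd) (e2.1 hdvd)
          · have e1 := hUs.1 (.inl ⟨⟨p, hp⟩, ⟨s, hs1⟩, .inr (.inl i)⟩)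
            have e2 := hUs'.1 (.inl ⟨⟨p, hp⟩, ⟨s, hs1⟩, .inr (.inl i)⟩)
            simp only [Par.Enc.roleA, hv, hv', Option.getD_some, Lt.Supp] at e1 e2
            exact cancel (.inl (.inl ⟨⟨p, hp⟩, ⟨s, hs1⟩, .inr (.inl i)⟩)) rfl v v' _ _ (U _).isLt
              (U' _).isLt (by rw [hU, hU']; exact hsame _) (e1.1 hdvd) (e2.1 hdvd)
        · rw [Option.not_isSome_iff_eq_none.1 (husedj.not.2 hus),
            Option.not_isSome_iff_eq_none.1 (husedj'.not.2 hus)]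
      · have e1 := hUs.1 (.inl ⟨⟨p, hp⟩, ⟨s, hs1⟩, .inr (.inr i)⟩)
        have e2 := hUs'.1 (.inl ⟨⟨p, hp⟩, ⟨s, hs1⟩, .inr (.inr i)⟩)
        simp only [Par.Enc.roleA, Lt.Supp] at e1 e2
        have he := hsame (.inl (.inl ⟨⟨p, hp⟩, ⟨s, hs1⟩, .inr (.inr i)⟩))
        rw [← hU, ← hU'] at he
        have c1 := collapse hq.2 hJ.2 (U (.inl (.inl ⟨⟨p, hp⟩, ⟨s, hs1⟩, .inr (.inr i)⟩))).isLt hn
          (e1.1 hdvd)
        have c2 := collapse hq.2 hJ.2 (U' (.inl (.inl ⟨⟨p, hp⟩, ⟨s, hs1⟩, .inr (.inr i)⟩))).isLt hn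
          (e2.1 hdvd)
        exact mul_left_cancel₀ (cast_ne_zero h hn0 hnJ).2 (c1.symm.trans (he.trans c2))
    intro x
    have hvec := e.inj p hp (s + 1) hi hiV (e.sel p (pos p hp) (s + 1 + 1) j)
      (sel_card e pos g.1 hp (d.V - (s + 1 + 1)) _ (by omega) (by omega))
      _ _ (g.1.2 p hp (pos p hp) _ hi hiV) (g'.1.2 p hp (pos p hp) _ hi hiV)
      (hcode.trans (by rw [Par.Enc.code, h1]))
    exact congrArg Fin.val (congrFun hvec x)

theorem box_mir (h : d.Good κ ε S c) {m : ℕ} {u u' : d.Coord → ℕ} (g : Box e pos S j m u)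
    (hlt : ∀ x, u' x < d.mods x) (he : ∀ x, (u' x : ZMod (d.mods x)) = -(u x : ZMod (d.mods x)) - m) :
    Box e pos S (mir d j) m u' := by
  obtain ⟨hg, hmS, U, hU, hsupp⟩ := g
  have := Fact.mk h.ℓ_prime
  have := Fact.mk h.ℓ'_prime
  have hqJ : ∀ p ∈ d.P, ∀ s, s ≤ d.V → p ^ s ≤ d.J := fun p hp s hs => Nat.le_of_dvd (J_pos h)
    ((pow_dvd_pow p hs).trans (Dvd.dvd.mul_left (dvd_prod_of_mem (fun q => q ^ d.V) hp) 2))
  have hJ := cast_ne_zero h (J_pos h) le_rfl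
  have he' : ∀ x, (u' x : ZMod (d.mods x)) = -((U x : ℕ) : ZMod (d.mods x)) - m := fun x => by rw [hU, he]
  refine ⟨goodSlot_mir pos hg, hmS, fun x => ⟨u' x, hlt x⟩, fun x => rfl, ?_, ?_⟩
  · rintro (⟨⟨p, hp⟩, ⟨s, hs⟩, i | i | i⟩ | i)
    · have hs' : s + 1 < d.V := by omega
      have h0 := hsupp.1 (.inl ⟨⟨p, hp⟩, ⟨s, hs⟩, .inl i⟩)
      have hq := cast_ne_zero h (pow_pos (pos p hp) (s + 1)) (hqJ p hp _ hs'.le)
      simp only [Par.Enc.roleA, code_mir e pos hg hp (Nat.le_add_left 1 s) hs', Par.mirror] at h0 ⊢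
      cases hc : (e.code p (pos p hp) (s + 1) j).2.1 (.inr (.inr (.inl i))) with
      | none => simp [Lt.Supp]
      | some v =>
        rw [hc] at h0
        simp only [Option.map_some, Lt.Supp] at h0 ⊢
        rw [show d.la (.inl ⟨⟨p, hp⟩, ⟨s, hs⟩, .inl i⟩) = d.ℓ from rfl] at h0 ⊢
        exact h0.trans (spike_mirror hq.1 hJ.1 (hg.1 _) (U _).isLt (hlt _) (he' _)).symm
    · have hs' : s + 1 < d.V := by omega
      have h0 := hsupp.1 (.inl ⟨⟨p, hp⟩, ⟨s, hs⟩, .inr (.inl i)⟩)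
      have hq := cast_ne_zero h (pow_pos (pos p hp) (s + 1)) (hqJ p hp _ hs'.le)
      obtain ⟨v, hv⟩ := code_some e pos hg hp (Nat.le_add_left 1 s) hs' (.inr (.inr (.inr i)))
        trivial
      simp only [Par.Enc.roleA, code_mir e pos hg hp (Nat.le_add_left 1 s) hs', Par.mirror, hv,
        Option.map_some, Option.getD_some, Lt.Supp] at h0 ⊢
      exact h0.trans (spike_mirror hq.1 hJ.1 (hg.1 _) (U _).isLt (hlt _) (he' _)).symm
    · have hs' : s + 1 < d.V := by omega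
      have h0 := hsupp.1 (.inl ⟨⟨p, hp⟩, ⟨s, hs⟩, .inr (.inr i)⟩)
      have hq := cast_ne_zero h (pow_pos (pos p hp) (s + 1)) (hqJ p hp _ hs'.le)
      simp only [Par.Enc.roleA, code_mir e pos hg hp (Nat.le_add_left 1 s) hs', Par.mirror,
        Lt.Supp] at h0 ⊢
      exact h0.trans (spike_mirror hq.2 hJ.2 (hg.1 _) (U _).isLt (hlt _) (he' _)).symm
    · trivial
  · rintro ⟨⟨p, hp⟩, ⟨s, hs⟩, k⟩
    have hlt' : u' (Sum.inr (⟨⟨p, hp⟩, ⟨s, hs⟩, k⟩, false)) < d.ℓ :=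
      hlt (Sum.inr (⟨⟨p, hp⟩, ⟨s, hs⟩, k⟩, false))
    have hult : (U (Sum.inr (⟨⟨p, hp⟩, ⟨s, hs⟩, k⟩, false)) : ℕ) < d.ℓ :=
      (U (Sum.inr (⟨⟨p, hp⟩, ⟨s, hs⟩, k⟩, false))).isLt
    have hex : (u' (Sum.inr (⟨⟨p, hp⟩, ⟨s, hs⟩, k⟩, false)) : ZMod d.ℓ) =
        -((U (Sum.inr (⟨⟨p, hp⟩, ⟨s, hs⟩, k⟩, false)) : ℕ) : ZMod d.ℓ) - m :=
      he' (Sum.inr (⟨⟨p, hp⟩, ⟨s, hs⟩, k⟩, false))
    have hjx := hg.1 (Sum.inr (⟨⟨p, hp⟩, ⟨s, hs⟩, k⟩, false))
    have h0 := hsupp.2 ⟨⟨p, hp⟩, ⟨s, hs⟩, k⟩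
    have hcast : ((d.J - 1 - j (Sum.inr (⟨⟨p, hp⟩, ⟨s, hs⟩, k⟩, false)) : ℕ) : ZMod d.ℓ) =
        d.J - 1 - (j (Sum.inr (⟨⟨p, hp⟩, ⟨s, hs⟩, k⟩, false)) : ZMod d.ℓ) := by
      rw [Nat.cast_sub (by omega), Nat.cast_sub (by omega), Nat.cast_one]
    have hsel := sel_mir e pos hg hp (Nat.le_add_left 1 s) hs
    by_cases hk : k ∈ e.sel p (pos p hp) (s + 1) j
    · have hs' : s + 1 < d.V := by
        by_contra hc
        rw [show s + 1 = d.V by omega, sel_top] at hk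
        exact notMem_empty _ hk
      have hq := cast_ne_zero h (pow_pos (pos p hp) (s + 1)) (hqJ p hp _ hs'.le)
      obtain ⟨v, hv⟩ := code_some e pos hg hp (Nat.le_add_left 1 s) hs' (.inl k)
        (by rwa [sel_eq e _ _ hs'] at hk)
      simp only [Par.Enc.roleB, hk, hsel, if_true, code_mir e pos hg hp (Nat.le_add_left 1 s) hs',
        Par.mirror, hv, Option.map_some, Option.getD_some, Bl.Supp, Lt.Supp] at h0 ⊢
      refine ⟨h0.1.trans (spike_mirror hq.1 hJ.1 hjx hult hlt' hex).symm, fun hc => h0.2 ?_⟩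
      by_cases hcnd : m.factorization p = s + 1 - 1
      · rw [Par.delSet, if_pos hcnd, mem_filter] at hc ⊢
        obtain ⟨-, kk, hkk, hH⟩ := hc
        refine ⟨mem_range.2 hult, m - 1 - kk, by omega, ?_⟩
        have := h.symH' _ hH
        convert this using 1
        rw [show ∀ x, mir d j x = d.J - 1 - j x from fun _ => rfl]
        push_cast [Nat.cast_sub (by omega : kk ≤ m - 1), Nat.cast_sub (by omega : 1 ≤ m)]
        rw [hcast, hex]
        ring
      · rw [Par.delSet, if_neg hcnd] at hc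
        exact absurd hc (notMem_empty _)
    by_cases hs0 : s = 0
    · subst hs0
      simp only [Par.Enc.roleB, hk, hsel, if_false, if_true, Bl.Supp] at h0 ⊢
      obtain ⟨w, hw, hwu⟩ := h0
      rw [Par.bentSet, mem_filter] at hw
      have hpl := h.ℓ_prime.pos
      refine ⟨(-(w : ZMod d.ℓ) - 1).val, mem_filter.2 ⟨mem_range.2 (ZMod.val_lt _), ?_⟩,
        (eq_mod_iff hlt').2 ?_⟩
      · intro hE
        refine hw.2 ?_
        have := h.symE _ hE
        convert this using 1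
        rw [show ∀ x, mir d j x = d.J - 1 - j x from fun _ => rfl]
        push_cast [ZMod.natCast_val, ZMod.cast_id]
        rw [hcast]
        ring
      · push_cast [ZMod.natCast_val, ZMod.cast_id]
        rw [hex]
        have := (eq_mod_iff hult).1 hwu
        push_cast at this
        linear_combination -this
    · have hq := cast_ne_zero h (pow_pos (pos p hp) s) (hqJ p hp _ (by omega))
      obtain ⟨v, hv⟩ := code_some e pos hg hp (by omega : 1 ≤ s) hs (.inr (.inl k)) hk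
      simp only [Par.Enc.roleB, hk, hsel, hs0, if_false, code_mir e pos hg hp (by omega : 1 ≤ s) hs,
        Par.mirror, hv, Option.map_some, Option.getD_some, Bl.Supp, Lt.Supp] at h0 ⊢
      exact h0.trans (spike_mirror hq.1 hJ.1 hjx hult hlt' hex).symm

end DisjointAux

open DisjointAux in
/-- The boxes of the design are disjoint. -/
theorem disjointGoal : DisjointGoal := by
  intro d κ ε S c h e pos top j j' hg hg' htop htop' m hm m' hm' u u' hu hu' φ hlt hφ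
  have hℓ : ∀ x, 0 < d.mods x := fun x => lt_of_le_of_lt (Nat.zero_le _) (u x).isLt
  have g : Box e pos S j m (fun x => (u x : ℕ)) := ⟨hg, hm, u, fun _ => rfl, hu⟩
  have g' : Box e pos S j' m' (fun x => (u' x : ℕ)) := ⟨hg', hm', u', fun _ => rfl, hu'⟩
  obtain ⟨h1, h2⟩ := (decodable e pos h).disjoint_clause hℓ top
    (fun j m u u' g hl he => box_mir e pos h g hl he) hm hm' g g' htop htop' hlt hφ
  refine ⟨fun hφ' => ?_, h2⟩
  obtain ⟨e1, e2, e3⟩ := h1 hφ'
  exact ⟨e1, e2, funext fun x => Fin.ext (congrFun e3 x)⟩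

end Vale.Agent.P110.Exist
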