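import Vale.Agent.P110.Exist.Design.Main
import Vale.Agent.P110.Exist.Design.Equiv

/-!
# P110, design: most slot vectors of the lower half are good

Half of all slot vectors have `2 * j top < J`. A vector fails to be good only if, for some prime
`p` and level `t`, all its digits sit at the centre `(p - 1) / 2`; this happens `(J / p) ^ D`
times for each of the at most `V` levels.
-/

namespace Vale.Agent.P110.Exist

open scoped BigOperators
open Finset

/-- Most slot vectors in the lower half are good. -/
theorem fibreGoal : FibreGoal := by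
  classical
  intro d hP _hV top
  set U := Fintype.piFinset fun _ : d.Coord => range d.J with hU
  set half := U.filter fun j => 2 * j top < d.J with hhalf_def
  set good := U.filter fun j => d.GoodSlot j ∧ 2 * j top < d.J with hgood_def
  set bad : ℕ → ℕ → Finset (d.Coord → ℕ) :=
    fun p t => U.filter fun j => ∀ x, d.dig p t (j x) = (p - 1) / 2 with hbad_def
  -- exactly half of the vectors lie in the lower half
  have hhalf : 2 * half.card = d.J ^ d.D := by
    have h1 : half = Fintype.piFinset fun x => if x = top then range d.Q else range d.J := by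
      ext j
      simp only [hhalf_def, hU, mem_filter, Fintype.mem_piFinset, mem_range, Par.J]
      constructor
      · rintro ⟨h, htop⟩ x
        split_ifs with hx
        · subst hx
          exact mem_range.2 (by omega)
        · exact mem_range.2 (h x)
      · intro h
        refine ⟨fun x => ?_, ?_⟩
        · have hx := h x
          split_ifs at hx with hx' <;> rw [mem_range] at hx <;> omega
        · have hx := h top
          rw [if_pos rfl, mem_range] at hx
          omega
    have h2 : half.card = d.Q * ∏ _x ∈ univ.erase top, d.J := by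
      rw [h1, Fintype.card_piFinset, ← mul_prod_erase univ _ (mem_univ top), if_pos rfl, card_range]
      exact congrArg _ (prod_congr rfl fun x hx => by rw [if_neg (ne_of_mem_erase hx), card_range])
    have h3 : d.J * ∏ _x ∈ univ.erase top, d.J = d.J ^ d.D := by
      rw [mul_prod_erase univ (fun _ => d.J) (mem_univ top), prod_const, card_univ]
      rfl
    rw [h2, ← h3, ← mul_assoc]
    rfl
  -- the failures are covered by the centre sets
  have hcover : half ⊆ good ∪ d.P.biUnion fun p => (Ico 1 d.V).biUnion fun t => bad p t := by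
    intro j hj
    obtain ⟨hjU, hjtop⟩ := mem_filter.1 hj
    by_cases hg : d.GoodSlot j
    · exact mem_union_left _ (mem_filter.2 ⟨hjU, hg, hjtop⟩)
    · refine mem_union_right _ ?_
      have hrange : ∀ x, j x < d.J := fun x => mem_range.1 (Fintype.mem_piFinset.1 hjU x)
      simp only [Par.GoodSlot, not_and, not_forall, Par.NonCentre, not_exists, not_not] at hg
      obtain ⟨p, hp, hp0, t, ht1, htV, hc⟩ := hg hrange
      refine mem_biUnion.2 ⟨p, hp, mem_biUnion.2 ⟨t, mem_Ico.2 ⟨ht1, htV⟩, ?_⟩⟩
      refine mem_filter.2 ⟨hjU, fun x => ?_⟩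
      have hx : 2 * d.dig p t (j x) + 1 = p := hc x
      omega
  have hbad : ∀ p ∈ d.P, ∀ t ∈ Ico 1 d.V, ((bad p t).card : ℝ) ≤ (d.J : ℝ) ^ d.D / (p : ℝ) ^ d.D := by
    intro p hp t ht
    obtain ⟨ht1, htV⟩ := mem_Ico.1 ht
    have hp0 : 0 < p := (hP p hp).1.pos
    have hcard := d.card_digVec hp hp0 ht1 htV.le fun _ => ⟨(p - 1) / 2, by omega⟩
    have heq : bad p t = (Fintype.piFinset fun _ : d.Coord => range d.J).filter
        fun j => d.digVec p hp0 t j = fun _ => ⟨(p - 1) / 2, by omega⟩ := by
      refine filter_congr fun j _ => ?_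
      constructor
      · exact fun h => funext fun x => Fin.ext (h x)
      · exact fun h x => congrArg Fin.val (congrFun h x)
    rw [heq, hcard, ← div_pow, Nat.cast_pow]
    exact pow_le_pow_left₀ (Nat.cast_nonneg _) Nat.cast_div_le _
  have hbadSum : ((d.P.biUnion fun p => (Ico 1 d.V).biUnion fun t => bad p t).card : ℝ) ≤
      (d.J : ℝ) ^ d.D * ∑ p ∈ d.P, (d.V : ℝ) / (p : ℝ) ^ d.D := by
    calc ((d.P.biUnion fun p => (Ico 1 d.V).biUnion fun t => bad p t).card : ℝ)
        ≤ ((∑ p ∈ d.P, ∑ t ∈ Ico 1 d.V, (bad p t).card : ℕ) : ℝ) := by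
          exact_mod_cast card_biUnion_le.trans (sum_le_sum fun p _ => card_biUnion_le)
      _ = ∑ p ∈ d.P, ∑ t ∈ Ico 1 d.V, ((bad p t).card : ℝ) := by push_cast; rfl
      _ ≤ ∑ p ∈ d.P, ∑ _t ∈ Ico 1 d.V, (d.J : ℝ) ^ d.D / (p : ℝ) ^ d.D :=
          sum_le_sum fun p hp => sum_le_sum (hbad p hp)
      _ ≤ ∑ p ∈ d.P, (d.V : ℝ) * ((d.J : ℝ) ^ d.D / (p : ℝ) ^ d.D) := by
          refine sum_le_sum fun p _ => ?_
          rw [sum_const, nsmul_eq_mul, Nat.card_Ico]
          exact mul_le_mul_of_nonneg_right (by exact_mod_cast Nat.sub_le _ _) (by positivity)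
      _ = (d.J : ℝ) ^ d.D * ∑ p ∈ d.P, (d.V : ℝ) / (p : ℝ) ^ d.D := by
          rw [mul_sum]
          exact sum_congr rfl fun p _ => by ring
  have htotal : (half.card : ℝ) ≤ good.card +
      (d.P.biUnion fun p => (Ico 1 d.V).biUnion fun t => bad p t).card := by
    exact_mod_cast (card_le_card hcover).trans (card_union_le _ _)
  have hhalfR : 2 * (half.card : ℝ) = (d.J : ℝ) ^ d.D := by exact_mod_cast hhalf
  show (d.J : ℝ) ^ d.D * (1 - 2 * ∑ p ∈ d.P, (d.V : ℝ) / (p : ℝ) ^ d.D) / 2 ≤ (good.card : ℝ)
  linarith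

end Vale.Agent.P110.Exist
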