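import Vale.Agent.P110.Exist.Defs

/-!
# Arithmetic of hit cells

What a hit tells about the slot (mod `J`) and about the fine cell (mod `ℓ`), and the mirror of a hit.
-/

namespace Vale.Agent.P110.Exist

variable {J ℓ m j j' u u' φ : ℕ}

theorem Hits.zmod (h : Hits J ℓ m j u φ) :
    ∃ k < m, (φ : ZMod ℓ) = (u : ZMod ℓ) * J + m * j + k := by
  obtain ⟨k, hk, h⟩ := h
  refine ⟨k, hk, ?_⟩
  have h' := (ZMod.natCast_eq_natCast_iff _ _ ℓ).2 h.of_mul_left
  simpa using h'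

/-- The slot group of a hit. -/
theorem Hits.modEq_slot (h : Hits J ℓ m j u φ) (hm : m ∣ J) :
    φ % J / m = j % (J / m) ∧ ∃ k < m, φ ≡ m * j + k [MOD J] := by
  obtain ⟨k, hk, h⟩ := h
  have h' : φ ≡ m * j + k [MOD J] := by
    refine h.of_mul_right.trans ?_
    simp [Nat.ModEq, add_assoc, Nat.mul_add_mod']
  refine ⟨?_, k, hk, h'⟩
  obtain ⟨n, rfl⟩ := hm
  have hm0 : 0 < m := by omega
  rw [h', Nat.mod_mul_right_div_self, Nat.mul_add_div hm0, Nat.div_eq_of_lt hk, add_zero,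
    Nat.mul_div_cancel_left _ hm0]

theorem Hits.mod_div_eq (hm : m ∣ J) (h : Hits J ℓ m j u φ) (h' : Hits J ℓ m j' u' φ) :
    j % (J / m) = j' % (J / m) :=
  (h.modEq_slot hm).1.symm.trans (h'.modEq_slot hm).1

/-- Two hits by the same slot come from the same spike. -/
theorem Hits.spike_eq (hJ : 0 < J) (hm : m ∣ J) (hu : u < ℓ) (hu' : u' < ℓ)
    (h : Hits J ℓ m j u φ) (h' : Hits J ℓ m j u' φ) : u = u' := by
  have hmJ : m ≤ J := Nat.le_of_dvd hJ hm
  obtain ⟨k, hk, h⟩ := h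
  obtain ⟨k', hk', h'⟩ := h'
  have e : u * J + m * j + k ≡ u' * J + m * j + k' [MOD J * ℓ] := h.symm.trans h'
  have e1 : k ≡ k' [MOD J] := by
    have := e.of_mul_right
    rw [Nat.ModEq, add_assoc, Nat.mul_add_mod', add_assoc, Nat.mul_add_mod'] at this
    exact Nat.ModEq.add_left_cancel' _ this
  have e2 : k = k' := e1.eq_of_lt_of_lt (by omega) (by omega)
  subst e2
  have e3 : J * u ≡ J * u' [MOD J * ℓ] := by
    rw [mul_comm J u, mul_comm J u']
    exact (e.add_right_cancel' _).add_right_cancel' _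
  exact (Nat.ModEq.mul_left_cancel' hJ.ne' e3).eq_of_lt_of_lt hu hu'

/-- The mirror of a hit is a hit of the complementary slot. -/
theorem Hits.mirror' (hℓ : 0 < ℓ) (hj : j < J) (hφ : φ < J * ℓ)
    (h : Hits J ℓ m j u (J * ℓ - 1 - φ)) :
    ∃ u' < ℓ, Hits J ℓ m (J - 1 - j) u' φ ∧ (u' : ZMod ℓ) = -(u : ZMod ℓ) - m := by
  obtain ⟨k, hk, h⟩ := h
  refine ⟨((-(u : ℤ) - m) % ℓ).toNat, ?_, ⟨m - 1 - k, by omega, ?_⟩, ?_⟩
  · have := Int.emod_lt_of_pos (-(u : ℤ) - m) (b := (ℓ : ℤ)) (by omega)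
    omega
  have hmod : 0 ≤ (-(u : ℤ) - m) % ℓ := Int.emod_nonneg _ (by omega)
  rotate_left
  · rw [← Int.cast_natCast (R := ZMod ℓ), Int.toNat_of_nonneg (Int.emod_nonneg _ (by omega)),
      ZMod.intCast_mod]
    push_cast
    ring
  rw [← Int.natCast_modEq_iff, Int.modEq_iff_dvd] at h ⊢
  have e1 : ((J * ℓ - 1 - φ : ℕ) : ℤ) = J * ℓ - 1 - φ := by omega
  have e2 : ((m - 1 - k : ℕ) : ℤ) = m - 1 - k := by omega
  have e3 : ((J - 1 - j : ℕ) : ℤ) = J - 1 - j := by omega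
  push_cast [Int.toNat_of_nonneg hmod, e2, e3] at h ⊢
  rw [e1] at h
  obtain ⟨c, hc⟩ := h
  refine ⟨-c - 1 - (-(u : ℤ) - m) / ℓ, ?_⟩
  have hd := Int.emod_add_mul_ediv (-(u : ℤ) - m) ℓ
  linear_combination -hc + (J : ℤ) * hd

/-- The `i`-th digit from the top of the low `V` digits to base `p`. -/
def digit (p V i j : ℕ) : ℕ := j % p ^ V / p ^ (V - i) % p

theorem digit_lt {p : ℕ} (hp : 0 < p) (V i j : ℕ) : digit p V i j < p := Nat.mod_lt _ hp

theorem digit_eq {p V i : ℕ} (hi : 1 ≤ i) (hiV : i ≤ V) (j : ℕ) :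
    digit p V i j = j % p ^ (V - i + 1) / p ^ (V - i) := by
  rw [digit, ← Nat.mod_mul_right_div_self, ← pow_succ,
    Nat.mod_mod_of_dvd _ (pow_dvd_pow _ (by omega : V - i + 1 ≤ V))]

/-- Residues with the same digits below are congruent. -/
theorem mod_pow_eq_of_digit {p V : ℕ} {j j' : ℕ} {n : ℕ} (hn : n ≤ V)
    (h : ∀ i, V - n < i → i ≤ V → digit p V i j = digit p V i j') :
    j % p ^ n = j' % p ^ n := by
  induction n with
  | zero => simp [Nat.mod_one]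
  | succ n ih =>
    have h1 := ih (by omega) fun i hi hiV => h i (by omega) hiV
    have h2 := h (V - n) (by omega) (by omega)
    rw [digit_eq (by omega) (by omega), digit_eq (by omega) (by omega),
      show V - (V - n) = n by omega] at h2
    rw [← Nat.div_add_mod (j % p ^ (n + 1)) (p ^ n), ← Nat.div_add_mod (j' % p ^ (n + 1)) (p ^ n),
      h2, Nat.mod_mod_of_dvd _ (pow_dvd_pow _ n.le_succ),
      Nat.mod_mod_of_dvd _ (pow_dvd_pow _ n.le_succ), h1]

theorem digit_eq_of_mod {p V i j j' n : ℕ} (hi : 1 ≤ i) (hiV : i ≤ V) (hdvd : p ^ (V - i + 1) ∣ n)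
    (h : j % n = j' % n) : digit p V i j = digit p V i j' := by
  rw [digit_eq hi hiV, digit_eq hi hiV, ← Nat.mod_mod_of_dvd j hdvd, h, Nat.mod_mod_of_dvd j' hdvd]

end Vale.Agent.P110.Exist
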