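import Vale.Agent.P110.Exist.Design.Roles

/-! Assembly of designs from parameters, codes, letters, disjointness and a count of slots. -/

namespace Vale.Agent.P110.Exist

open scoped BigOperators
open Finset

open Classical in
/-- Most slot vectors in the lower half are good. -/
def FibreGoal : Prop :=
  ∀ (d : Par), (∀ p ∈ d.P, p.Prime ∧ Odd p) → 2 ≤ d.V → ∀ top : d.Coord,
    (d.J : ℝ) ^ d.D * (1 - 2 * ∑ p ∈ d.P, (d.V : ℝ) / (p : ℝ) ^ d.D) / 2 ≤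
      (((Fintype.piFinset fun _ : d.Coord => range d.J).filter fun j =>
        d.GoodSlot j ∧ 2 * j top < d.J).card : ℝ)

namespace Par.Good

variable {d : Par} {κ ε : ℝ} {S : Finset ℕ} {c : ℕ → ℂ} (G : d.Good κ ε S c)
include G

theorem dvd_Q {m : ℕ} (hm : m ∈ S) : m ∣ d.Q :=
  (G.S_dvd m hm).trans (prod_dvd_prod_of_dvd _ _ fun p _ => pow_dvd_pow p (Nat.sub_le _ _))

theorem Q_pos : 0 < d.Q := prod_pos fun p hp => pow_pos (G.prime p hp).1.pos _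

theorem S_pos {m : ℕ} (hm : m ∈ S) : 0 < m := Nat.pos_of_dvd_of_pos (G.dvd_Q hm) G.Q_pos

theorem odd_Q : Odd d.Q := by
  unfold Par.Q
  refine Finset.prod_induction _ Odd (fun a b ha hb => ha.mul hb) odd_one fun p hp => ?_
  exact (G.prime p hp).2.pow

theorem S_odd {m : ℕ} (hm : m ∈ S) : Odd m := G.odd_Q.of_dvd_nat (G.dvd_Q hm)

theorem le_J {m : ℕ} (hm : m ∈ S) : m ≤ d.J :=
  (Nat.le_of_dvd G.Q_pos (G.dvd_Q hm)).trans (by unfold Par.J; omega)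

theorem J_ne : (d.J : ZMod d.ℓ) ≠ 0 := by
  rw [Ne, CharP.cast_eq_zero_iff (ZMod d.ℓ) d.ℓ]
  intro h
  have := Nat.le_of_dvd (by have := G.Q_pos; unfold Par.J; omega) h
  have := G.ℓ_big
  omega

theorem coprime_ℓ {m ℓ : ℕ} (hℓ : ℓ.Prime) (h : d.ℓ ≤ ℓ) (hm : m ∈ S) : Nat.Coprime m ℓ :=
  (Nat.coprime_of_lt_prime (G.S_pos hm).ne' (by
    have := G.ℓ_big; have := G.le_J hm; omega) hℓ).symm

theorem factorization_lt {p m : ℕ} (hp : p ∈ d.P) (hm : m ∈ S) :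
    m.factorization p ≤ d.V - 1 := by
  have h0 : ∏ q ∈ d.P, q ^ (d.V - 1) ≠ 0 :=
    (prod_pos fun q hq => pow_pos (G.prime q hq).1.pos _).ne'
  have h := (Nat.factorization_le_iff_dvd (G.S_pos hm).ne' h0).2 (G.S_dvd m hm) p
  refine h.trans (le_of_eq ?_)
  rw [Nat.factorization_prod fun q hq => (pow_pos (G.prime q hq).1.pos _).ne',
    Finsupp.finsetSum_apply, sum_eq_single p]
  · rw [Nat.Prime.factorization_pow (G.prime p hp).1, Finsupp.single_eq_same]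
  · intro q hq hqp
    rw [Nat.Prime.factorization_pow (G.prime q hq).1, Finsupp.single_eq_of_ne (Ne.symm hqp)]
  · exact fun h => (h hp).elim

theorem pow_ok {p : ℕ} (hp : p ∈ d.P) {t : ℕ} (h1 : 1 ≤ t) (ht : t ≤ d.V) :
    1 < p ^ t ∧ p ^ t ∣ d.Q :=
  ⟨Nat.one_lt_pow (by omega) (G.prime p hp).1.one_lt,
    (pow_dvd_pow p ht).trans (dvd_prod_of_mem _ hp)⟩

theorem odd_Y : Odd d.Y ∧ ∀ m ∈ S, Nat.Coprime m d.Y :=
  ⟨Nat.coprime_two_right.1 (Nat.Coprime.coprime_mul_right_right G.Y_cop), fun _ hm =>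
    (Nat.Coprime.coprime_dvd_right (G.dvd_Q hm)
      (Nat.Coprime.coprime_mul_left_right G.Y_cop)).symm⟩

theorem bent_ok (j : ℕ) : 0 < d.Y ∧ Par.bentSet d j ⊆ range d.ℓ ∧ (Par.bentSet d j).card = d.Y := by
  classical
  have := Fact.mk G.ℓ_prime
  refine ⟨by have := G.E_lt; unfold Par.Y; omega, filter_subset _ _, ?_⟩
  have hY : d.Y = (univ \ d.E).card := by
    rw [card_univ_sdiff, ZMod.card]; rfl
  rw [hY]
  refine card_bij (fun u _ => ((u * d.J + j : ℕ) : ZMod d.ℓ)) (fun u hu => ?_) ?_ ?_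
  · exact mem_sdiff.2 ⟨mem_univ _, (mem_filter.1 hu).2⟩
  · intro a ha b hb hab
    push_cast at hab
    have h := (ZMod.natCast_eq_natCast_iff' _ _ _).1 (mul_right_cancel₀ G.J_ne (add_right_cancel hab))
    rwa [Nat.mod_eq_of_lt (mem_range.1 (mem_filter.1 ha).1),
      Nat.mod_eq_of_lt (mem_range.1 (mem_filter.1 hb).1)] at h
  · intro x hx
    refine ⟨((x - (j : ZMod d.ℓ)) * (d.J : ZMod d.ℓ)⁻¹).val, ?_, ?_⟩
    all_goals
      have h : ((((x - (j : ZMod d.ℓ)) * (d.J : ZMod d.ℓ)⁻¹).val * d.J + j : ℕ) : ZMod d.ℓ) = x := by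
        push_cast
        rw [ZMod.natCast_zmod_val, mul_assoc, inv_mul_cancel₀ G.J_ne]
        ring
    · refine mem_filter.2 ⟨mem_range.2 (ZMod.val_lt _), ?_⟩
      rw [h]
      exact (mem_sdiff.1 hx).2
    · exact h

theorem delSet_card (p t j : ℕ) {m : ℕ} :
    (Par.delSet d p t j m).card ≤ m * d.H'.card := by
  classical
  have := Fact.mk G.ℓ_prime
  unfold Par.delSet
  split_ifs with h
  swap; · simp
  refine (card_le_card_of_surjOn (s := range m ×ˢ d.H')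
    (fun kh => ((kh.2 - ((m * j + kh.1 : ℕ) : ZMod d.ℓ)) * (d.J : ZMod d.ℓ)⁻¹).val) ?_).trans
    (le_of_eq (by simp))
  intro u hu
  obtain ⟨hu1, k, hk, hu2⟩ := mem_filter.1 hu
  refine ⟨(k, ((u * d.J + m * j + k : ℕ) : ZMod d.ℓ)),
    mem_product.2 ⟨mem_range.2 hk, hu2⟩, ?_⟩
  have h3 : (((u * d.J + m * j + k : ℕ) : ZMod d.ℓ) - ((m * j + k : ℕ) : ZMod d.ℓ)) *
      (d.J : ZMod d.ℓ)⁻¹ = u := by
    push_cast
    rw [add_assoc, add_sub_cancel_right, mul_assoc, mul_inv_cancel₀ G.J_ne, mul_one]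
  simp only [h3, ZMod.val_natCast]
  exact Nat.mod_eq_of_lt (mem_range.1 hu1)

variable (e : d.Enc) (pos : ∀ p ∈ d.P, 0 < p) (j : d.Coord → ℕ)

theorem roleA_ok (x : d.A) : (e.roleA pos j x).Ok S (d.la x) ε := by
  have hℓ : ∀ t : ℕ, ∀ p ∈ d.P, 1 ≤ t → t ≤ d.V → ∀ b, (Lt.lev (p ^ t) b).Ok S d.ℓ ε :=
    fun t p hp h1 ht b => ⟨G.ℓ_prime, (G.pow_ok hp h1 ht).1, (G.pow_ok hp h1 ht).2.trans G.ℓ_mod⟩
  rcases x with ⟨p, s, i | i | i⟩ | i
  · simp only [Par.Enc.roleA]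
    split
    · exact ⟨G.ℓ_prime.odd_of_ne_two (by have := G.ℓ_big; have := G.Q_pos; unfold Par.J at *; omega),
        fun m hm => G.coprime_ℓ G.ℓ_prime le_rfl hm⟩
    · exact hℓ _ _ p.2 (by omega) (by omega) _
  · exact hℓ _ _ p.2 (by omega) (by omega) _
  · exact ⟨G.ℓ'_prime, (G.pow_ok p.2 (by omega) (by omega)).1,
      (G.pow_ok p.2 (t := s.1 + 1) (by omega) (by omega)).2.trans G.ℓ'_mod⟩
  · exact ⟨odd_one, fun m _ => Nat.coprime_one_right m⟩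

theorem roleB_ok (x : d.B) :
    (e.roleB pos j x).Ok S (d.lb (x, false)) (d.lb (x, true)) ε := by
  obtain ⟨p, s, k⟩ := x
  simp only [Par.Enc.roleB, Par.lb]
  split_ifs with hk hs
  · refine ⟨⟨G.ℓ_prime, (G.pow_ok p.2 (by omega) (by omega)).1,
      (G.pow_ok p.2 (t := s.1 + 1) (by omega) (by omega)).2.trans G.ℓ_mod, fun m hm => ⟨?_, ?_, ?_⟩⟩,
      G.odd_Y⟩
    · unfold Par.delSet
      split_ifs
      · exact filter_subset _ _
      · simp
    · exact le_trans (by exact_mod_cast G.delSet_card p.1 _ _) (G.deleted m hm)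
    · intro hdiv
      unfold Par.delSet
      rw [if_neg]
      have := (Nat.Prime.pow_dvd_iff_le_factorization (G.prime p.1 p.2).1 (G.S_pos hm).ne').1 hdiv
      omega
  · exact ⟨(G.bent_ok (j (.inr (⟨p, s, k⟩, false)))).1, (G.bent_ok _).2.1, (G.bent_ok _).2.2,
      fun m hm => G.coprime_ℓ G.ℓ_prime le_rfl hm⟩
  · exact ⟨⟨G.ℓ_prime, (G.pow_ok p.2 (by omega) (by omega)).1,
      (G.pow_ok p.2 (t := s.1) (by omega) (by omega)).2.trans G.ℓ_mod⟩, G.odd_Y⟩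

variable {j}

theorem height_le (hj : d.GoodSlot j) {m : ℕ} (hm : m ∈ S) :
    (∏ x, (e.roleA pos j x).height (d.la x) m) *
        ∏ x, (e.roleB pos j x).height (d.lb (x, false)) (d.lb (x, true)) m ≤
      ∏ p ∈ d.P, ((d.ℓ : ℝ) / d.Y) ^ d.n p * d.W p ^ m.factorization p := by
  classical
  let F : ℕ → ℕ → ℝ := fun p t => if p ^ t ∣ m then (d.ℓ : ℝ) else 1
  let F' : ℕ → ℕ → ℝ := fun p t => if p ^ t ∣ m then (d.ℓ' : ℝ) else 1
  have hA : ∀ x, (e.roleA pos j x).height (d.la x) m = e.wA pos F F' j x := by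
    rintro (⟨p, s, i | i | i⟩ | i)
    · simp only [Par.Enc.roleA, Par.Enc.wA]
      split <;> rename_i h <;> simp [h, Lt.height, Par.la, F]
    · rfl
    · rfl
    · rfl
  have hB : ∀ x, (e.roleB pos j x).height (d.lb (x, false)) (d.lb (x, true)) m =
      e.wB pos F F ((d.ℓ : ℝ) / d.Y) j x := by
    rintro ⟨p, s, k⟩
    simp only [Par.Enc.roleB, Par.Enc.wB, Par.lb]
    split_ifs <;> rfl
  rw [prod_congr rfl fun x _ => hA x, prod_congr rfl fun x _ => hB x,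
    Par.prod_roles e pos G.J₀_le G.two_le_V hj, ← prod_coe_sort d.P]
  have hℓ1 : (1 : ℝ) ≤ d.ℓ := by exact_mod_cast G.ℓ_prime.one_le
  have hb : (1 : ℝ) ≤ (d.ℓ : ℝ) / d.Y := by
    have h0 : 0 < d.Y := by have := G.E_lt; unfold Par.Y; omega
    rw [one_le_div (by exact_mod_cast h0)]
    exact_mod_cast Nat.sub_le d.ℓ d.E.card
  have hF : ∀ p t, 0 ≤ F p t ∧ 0 ≤ F' p t := fun p t => by
    simp only [F, F']; constructor <;> split_ifs <;> positivity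
  refine prod_le_prod (fun p _ => mul_nonneg (by positivity) (prod_nonneg fun s _ =>
    mul_nonneg (mul_nonneg (pow_nonneg (hF _ _).1 _) (pow_nonneg (hF _ _).2 _))
      (pow_nonneg (hF _ _).1 _))) fun p _ => ?_
  refine mul_le_mul (pow_le_pow_right₀ hb (Nat.sub_le _ _)) (le_of_eq ?_)
    (prod_nonneg fun s _ => mul_nonneg (mul_nonneg (pow_nonneg (hF _ _).1 _)
      (pow_nonneg (hF _ _).2 _)) (pow_nonneg (hF _ _).1 _)) (by positivity)
  have hv := G.factorization_lt p.2 hm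
  have hW : ∀ s ∈ range (d.V - 1),
      F p.1 (s + 1) ^ (d.n p.1 + d.J₀ + d.L₁ p.1 - (e.sel p.1 (pos p.1 p.2) (s + 1) j).card) *
          F' p.1 (s + 1) ^ d.L₂ p.1 * F p.1 (s + 1) ^ (e.sel p.1 (pos p.1 p.2) (s + 1) j).card =
        if s < m.factorization p.1 then d.W p.1 else 1 := by
    intro s _
    have hc : (e.sel p.1 (pos p.1 p.2) (s + 1) j).card ≤ d.J₀ :=
      Par.card_sel_le e p.2 _ hj (by omega)
    rw [mul_right_comm, ← pow_add, Nat.sub_add_cancel (by omega)]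
    have hiff := Nat.Prime.pow_dvd_iff_le_factorization (k := s + 1) (G.prime p.1 p.2).1
      (G.S_pos hm).ne'
    by_cases hs : s < m.factorization p.1
    · simp [F, F', hiff.2 hs, hs, Par.W]
    · simp [F, F', mt hiff.1 hs, hs]
  rw [prod_congr rfl hW, prod_ite, prod_const_one, mul_one, prod_const]
  congr 1
  rw [show (range (d.V - 1)).filter (fun s => s < m.factorization p.1) =
      range (m.factorization p.1) by ext s; simp; omega, card_range]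

theorem energy_le (hj : d.GoodSlot j) {m : ℕ} (hm : m ∈ S) :
    (1 - 1 / (d.ℓ : ℝ)) ^ (∑ p ∈ d.P, d.V * (d.n p + d.J₀ + d.L₁ p + d.L₂ p)) *
        ((1 - ε) ^ 2 * (1 - ((d.J * d.H'.card : ℕ) + 1 : ℝ) / d.ℓ)) ^ (∑ _p ∈ d.P, d.V * d.J₀) ≤
      (∏ x, (e.roleA pos j x).en (d.la x) m ε) *
        ∏ x, (e.roleB pos j x).en (d.lb (x, false)) m ε := by
  classical
  set f := 1 - 1 / (d.ℓ : ℝ) with hf
  set g := (1 - ε) ^ 2 * (1 - ((d.J * d.H'.card : ℕ) + 1 : ℝ) / d.ℓ) with hg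
  have hℓ0 : (0 : ℝ) < d.ℓ := by exact_mod_cast G.ℓ_prime.pos
  have hf0 : 0 ≤ f := by
    rw [hf, sub_nonneg, div_le_one hℓ0]; exact_mod_cast G.ℓ_prime.one_le
  have hf1 : f ≤ 1 := by rw [hf]; linarith [div_nonneg zero_le_one hℓ0.le]
  have hg0 : 0 ≤ g := mul_nonneg (sq_nonneg _) (by
    rw [sub_nonneg, div_le_one hℓ0]; exact_mod_cast G.H'_small.le)
  have hg1 : g ≤ 1 := mul_le_one₀ (pow_le_one₀ (by linarith [G.ε_le]) (by linarith [G.ε_pos]))
    (by rw [sub_nonneg, div_le_one hℓ0]; exact_mod_cast G.H'_small.le)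
    (by linarith [div_nonneg (by positivity : (0 : ℝ) ≤ ((d.J * d.H'.card : ℕ) : ℝ) + 1) hℓ0.le])
  have hA : ∀ x, 0 ≤ e.wA pos (fun _ _ => f) (fun _ _ => f) j x ∧
      e.wA pos (fun _ _ => f) (fun _ _ => f) j x ≤ (e.roleA pos j x).en (d.la x) m ε := by
    rintro (⟨p, s, i | i | i⟩ | i)
    · simp only [Par.Enc.roleA, Par.Enc.wA]
      rcases hv : (e.code p.1 (pos p.1 p.2) (s.1 + 1) j).2.1 (.inr (.inr (.inl i))) with _ | v
      · exact ⟨zero_le_one, le_rfl⟩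
      · exact ⟨hf0, le_rfl⟩
    · exact ⟨hf0, le_rfl⟩
    · refine ⟨hf0, ?_⟩
      show f ≤ 1 - 1 / (d.ℓ' : ℝ)
      have h := one_div_le_one_div_of_le hℓ0 (by exact_mod_cast G.ℓ_lt.le : (d.ℓ : ℝ) ≤ d.ℓ')
      linarith
    · exact ⟨zero_le_one, le_rfl⟩
  have hB : ∀ x, 0 ≤ e.wB pos (fun _ _ => f) (fun _ _ => g) 1 j x ∧
      e.wB pos (fun _ _ => f) (fun _ _ => g) 1 j x ≤
        (e.roleB pos j x).en (d.lb (x, false)) m ε := by
    rintro ⟨p, s, k⟩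
    simp only [Par.Enc.roleB, Par.Enc.wB, Par.lb]
    split_ifs
    · refine ⟨hg0, mul_le_mul_of_nonneg_left (sub_le_sub_left (div_le_div_of_nonneg_right ?_ hℓ0.le) _)
        (sq_nonneg _)⟩
      exact_mod_cast Nat.add_le_add_right ((G.delSet_card _ _ _).trans
        (Nat.mul_le_mul_right _ (G.le_J hm))) 1
    · exact ⟨zero_le_one, le_rfl⟩
    · exact ⟨hf0, le_rfl⟩
  refine le_trans ?_ (mul_le_mul (prod_le_prod (fun x _ => (hA x).1) fun x _ => (hA x).2)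
    (prod_le_prod (fun x _ => (hB x).1) fun x _ => (hB x).2)
    (prod_nonneg fun x _ => (hB x).1) (prod_nonneg fun x _ => (hA x).1.trans (hA x).2))
  rw [Par.prod_roles e pos G.J₀_le G.two_le_V hj, ← prod_pow_eq_pow_sum, ← prod_pow_eq_pow_sum,
    ← prod_mul_distrib, ← prod_coe_sort d.P]
  simp only [one_pow, one_mul]
  refine prod_le_prod (fun p _ => by positivity) fun p _ => ?_
  have hc : ∀ s ∈ range (d.V - 1), f ^ (d.n p.1 + d.J₀ + d.L₁ p.1 + d.L₂ p.1) * g ^ d.J₀ ≤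
      f ^ (d.n p.1 + d.J₀ + d.L₁ p.1 - (e.sel p.1 (pos p.1 p.2) (s + 1) j).card) * f ^ d.L₂ p.1 *
        g ^ (e.sel p.1 (pos p.1 p.2) (s + 1) j).card := by
    intro s _
    rw [← pow_add]
    exact mul_le_mul (pow_le_pow_of_le_one hf0 hf1 (by omega))
      (pow_le_pow_of_le_one hg0 hg1 (Par.card_sel_le e p.2 _ hj (by omega))) (by positivity)
      (by positivity)
  refine le_trans ?_ (prod_le_prod (fun s _ => by positivity) hc)
  rw [prod_const, card_range, mul_pow (f ^ _) (g ^ _), ← pow_mul, ← pow_mul]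
  exact mul_le_mul
    (pow_le_pow_of_le_one hf0 hf1 (by rw [mul_comm]; exact Nat.mul_le_mul_right _ (Nat.sub_le _ _)))
    (pow_le_pow_of_le_one hg0 hg1 (by rw [mul_comm]; exact Nat.mul_le_mul_right _ (Nat.sub_le _ _)))
    (by positivity) (by positivity)

end Par.Good

theorem designGoal_of_modules (hP : ParamsGoal) (hE : EncGoal) (hR : RealiseGoal)
    (hD : DisjointGoal) (hF : FibreGoal) : DesignGoal := by
  classical
  intro κ hκ
  obtain ⟨d, ε, S, c, G, hwave⟩ := hP κ hκ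
  obtain ⟨e⟩ := hE d κ ε S c G
  have pos : ∀ p ∈ d.P, 0 < p := fun p hp => (G.prime p hp).1.pos
  let top : d.Coord := Sum.inl (Sum.inr ⟨0, G.rest_pos⟩)
  set T := (Fintype.piFinset fun _ : d.Coord => range d.J).filter fun j =>
    d.GoodSlot j ∧ 2 * j top < d.J with hT
  have hg := fun j => hR d.A d.B S ε d.la d.lb (e.roleA pos j) (e.roleB pos j) G.ε_pos G.ε_le
    (fun m hm => G.S_pos hm) (G.roleA_ok e pos j) (G.roleB_ok e pos j)
  choose g hmom hspec using hg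
  have hTmem : ∀ j ∈ T, d.GoodSlot j ∧ 2 * j top < d.J := fun j hj => (mem_filter.1 hj).2
  refine ⟨d.Coord, inferInstance, inferInstance, ⟨{
    J := d.J, top := top, ℓ := d.mods, S := S, c := c, T := T, g := g
    J_even := even_two_mul _
    J_pos := by have := G.Q_pos; unfold Par.J; omega
    ℓ_pos := ?_
    two_le := ?_
    S_dvd := fun m hm => ⟨G.S_odd hm, Dvd.dvd.mul_left (G.dvd_Q hm) 2⟩
    wave := hwave
    seg := fun j hj => ⟨(hTmem j hj).1.1, (hTmem j hj).2⟩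
    mom := fun j _ => hmom j
    bound := ?_
    energy := ?_
    disjoint := ?_ }⟩⟩
  · have hY := (G.bent_ok 0).1
    rintro (x | ⟨b, _ | _⟩)
    · rcases x with ⟨p, s, i | i | i⟩ | i
      · exact G.ℓ_prime.pos
      · exact G.ℓ_prime.pos
      · exact G.ℓ'_prime.pos
      · exact Nat.one_pos
    · exact G.ℓ_prime.pos
    · exact hY
  · obtain ⟨p, hp⟩ := G.nonempty
    have hn : 0 < d.n p := lt_of_lt_of_le G.J₀_pos (G.J₀_le p hp)
    let b : d.B := ⟨⟨p, hp⟩, ⟨0, by have := G.two_le_V; omega⟩, ⟨0, hn⟩⟩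
    exact Fintype.one_lt_card_iff.2 ⟨.inr (b, true), .inr (b, false), by simp⟩
  · intro j hj m hm u
    have h := ((hspec j m hm).2.1 u).trans (G.height_le e pos (hTmem j hj).1 hm)
    rw [prod_div_distrib, prod_const, card_univ, mul_div_assoc']
    rw [div_le_iff₀ (by have := G.S_pos hm; positivity)]
    calc 2 * ‖c m‖ ^ 2 * ‖coef (g j m) u‖ ^ 2 * ∏ i, ((d.mods i : ℕ) : ℝ)
        = 2 * ‖c m‖ ^ 2 * (‖coef (g j m) u‖ ^ 2 * ∏ i, ((d.mods i : ℕ) : ℝ)) := by ring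
      _ ≤ 2 * ‖c m‖ ^ 2 * ∏ p ∈ d.P, ((d.ℓ : ℝ) / d.Y) ^ d.n p * d.W p ^ m.factorization p := by
        gcongr
      _ ≤ (1 + κ) ^ 2 * (m : ℝ) ^ Fintype.card d.Coord := G.height m hm
  · set K := (1 - 1 / (d.ℓ : ℝ)) ^ (∑ p ∈ d.P, d.V * (d.n p + d.J₀ + d.L₁ p + d.L₂ p)) *
      ((1 - ε) ^ 2 * (1 - ((d.J * d.H'.card : ℕ) + 1 : ℝ) / d.ℓ)) ^ (∑ _p ∈ d.P, d.V * d.J₀)
      with hK
    have hK0 : 0 ≤ K := by
      have h1 : (0 : ℝ) < d.ℓ := by exact_mod_cast G.ℓ_prime.pos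
      refine mul_nonneg (pow_nonneg ?_ _) (pow_nonneg (mul_nonneg (sq_nonneg _) ?_) _)
      · rw [sub_nonneg, div_le_one h1]; exact_mod_cast G.ℓ_prime.one_le
      · rw [sub_nonneg, div_le_one h1]; exact_mod_cast G.H'_small.le
    have hE2 : 1 - κ ≤ (∑ m ∈ S, 2 * ‖c m‖ ^ 2) *
        (1 - 2 * ∑ p ∈ d.P, (d.V : ℝ) / (p : ℝ) ^ d.D) * K := by
      rw [hK, ← mul_assoc]; exact G.energy
    have hlow : ∀ j ∈ T, ∀ m ∈ S, 4 * ‖c m‖ ^ 2 * K ≤
        4 * ‖c m‖ ^ 2 * ∑ u, ‖coef (g j m) u‖ ^ 2 := fun j hj m hm =>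
      mul_le_mul_of_nonneg_left ((G.energy_le e pos (hTmem j hj).1 hm).trans (hspec j m hm).2.2)
        (by positivity)
    refine le_trans ?_ (sum_le_sum fun j hj => sum_le_sum (hlow j hj))
    have hcard := hF d G.prime G.two_le_V top
    have hS0 : 0 ≤ (∑ m ∈ S, 2 * ‖c m‖ ^ 2) * K :=
      mul_nonneg (sum_nonneg fun m _ => by positivity) hK0
    have h2 : (∑ _j ∈ T, ∑ m ∈ S, 4 * ‖c m‖ ^ 2 * K) =
        2 * (T.card : ℝ) * ((∑ m ∈ S, 2 * ‖c m‖ ^ 2) * K) := by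
      rw [sum_const, nsmul_eq_mul, sum_mul, mul_sum, mul_sum]
      exact sum_congr rfl fun m _ => by ring
    rw [h2]
    calc (1 - κ) * (d.J : ℝ) ^ Fintype.card d.Coord
        ≤ (∑ m ∈ S, 2 * ‖c m‖ ^ 2) *
            (1 - 2 * ∑ p ∈ d.P, (d.V : ℝ) / (p : ℝ) ^ d.D) * K * (d.J : ℝ) ^ d.D :=
          mul_le_mul_of_nonneg_right hE2 (by positivity)
      _ = 2 * ((d.J : ℝ) ^ d.D * (1 - 2 * ∑ p ∈ d.P, (d.V : ℝ) / (p : ℝ) ^ d.D) / 2) *
            ((∑ m ∈ S, 2 * ‖c m‖ ^ 2) * K) := by ring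
      _ ≤ _ := mul_le_mul_of_nonneg_right (by linarith [hcard]) hS0
  · intro j hj j' hj' m hm m' hm' u u' hu hu'
    exact hD d κ ε S c G e pos top j j' (hTmem j hj).1 (hTmem j' hj').1 (hTmem j hj).2
      (hTmem j' hj').2 m hm m' hm' u u' ((hspec j m hm).1 u hu) ((hspec j' m' hm').1 u' hu')

end Vale.Agent.P110.Exist
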