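import Mathlib

/-!
# P110, design parameters: the real inequalities behind the tuning

`val_lower`: with `n ≈ λ / y` coordinates, the chosen sets of at most `J0` coordinates with value
in a set of density `x ≈ y`, all other values avoiding density `y`, have density `≈ 1 - exp (-λ)`.
-/

noncomputable section

namespace Vale.Agent.P110.Exist.Tuning

open Finset Filter Topology

/-- Terms of a binomial expansion beyond `J0` are at most a tail of the exponential series. -/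
lemma binom_sum_le {n J0 : ℕ} {x L : ℝ} (hx : 0 ≤ x) (hL : (n : ℝ) * x ≤ L) :
    (1 + x) ^ n ≤ 1 + (∑ j ∈ Icc 1 J0, (n.choose j : ℝ) * x ^ j) +
      (Real.exp L - ∑ j ∈ range (J0 + 1), L ^ j / (j.factorial : ℝ)) := by
  have hnx : 0 ≤ (n : ℝ) * x := mul_nonneg (Nat.cast_nonneg n) hx
  have hL0 : 0 ≤ L := hnx.trans hL
  set M := max (n + 1) (J0 + 1) with hM
  have h1 : (1 + x) ^ n ≤ ∑ j ∈ range M, (n.choose j : ℝ) * x ^ j := by
    rw [add_comm 1 x, add_pow]
    refine le_trans (le_of_eq (sum_congr rfl fun j _ ↦ ?_))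
      (sum_le_sum_of_subset_of_nonneg (range_mono (le_max_left _ _)) fun j _ _ ↦ by positivity)
    rw [one_pow, mul_one, mul_comm]
  have hterm : ∀ j, (n.choose j : ℝ) * x ^ j ≤ L ^ j / (j.factorial : ℝ) := fun j ↦
    calc (n.choose j : ℝ) * x ^ j ≤ (n : ℝ) ^ j / (j.factorial : ℝ) * x ^ j :=
          mul_le_mul_of_nonneg_right (Nat.choose_le_pow_div j n) (pow_nonneg hx j)
      _ = ((n : ℝ) * x) ^ j / (j.factorial : ℝ) := by rw [mul_pow]; ring
      _ ≤ L ^ j / (j.factorial : ℝ) := by gcongr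
  have h2 := sum_range_add_sum_Ico (fun j ↦ (n.choose j : ℝ) * x ^ j)
    (show J0 + 1 ≤ M from le_max_right _ _)
  have h3 := sum_range_add_sum_Ico (fun j ↦ L ^ j / (j.factorial : ℝ))
    (show J0 + 1 ≤ M from le_max_right _ _)
  have h4 : ∑ j ∈ range M, L ^ j / (j.factorial : ℝ) ≤ Real.exp L :=
    Real.sum_le_exp_of_nonneg hL0 M
  have h5 : ∑ j ∈ Ico (J0 + 1) M, (n.choose j : ℝ) * x ^ j ≤
      ∑ j ∈ Ico (J0 + 1) M, L ^ j / (j.factorial : ℝ) := sum_le_sum fun j _ ↦ hterm j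
  have h6 : ∑ j ∈ range (J0 + 1), (n.choose j : ℝ) * x ^ j =
      1 + ∑ j ∈ Icc 1 J0, (n.choose j : ℝ) * x ^ j := by
    rw [range_eq_Ico, sum_eq_sum_Ico_succ_bot (Nat.succ_pos J0)]
    simp [Finset.Ico_add_one_right_eq_Icc]
  linarith

/-- `exp (n y / (1 + y)) ≤ (1 + y) ^ n`. -/
lemma exp_le_one_add_pow (n : ℕ) {y : ℝ} (hy : 0 ≤ y) :
    Real.exp ((n : ℝ) * y / (1 + y)) ≤ (1 + y) ^ n := by
  have h1 : 0 < 1 + y := by linarith
  rw [← Real.le_log_iff_exp_le (pow_pos h1 n), Real.log_pow, mul_div_assoc]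
  refine mul_le_mul_of_nonneg_left (le_trans (le_of_eq ?_)
    (Real.one_sub_inv_le_log_of_pos h1)) (Nat.cast_nonneg n)
  field_simp
  ring

/-- `exp (- n y / (1 - y)) ≤ (1 - y) ^ n`. -/
lemma exp_le_one_sub_pow (n : ℕ) {y : ℝ} (hy : y < 1) :
    Real.exp (-((n : ℝ) * y / (1 - y))) ≤ (1 - y) ^ n := by
  have h1 : 0 < 1 - y := by linarith
  rw [← Real.le_log_iff_exp_le (pow_pos h1 n), Real.log_pow, mul_div_assoc, ← mul_neg]
  refine mul_le_mul_of_nonneg_left (le_trans (le_of_eq ?_)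
    (Real.one_sub_inv_le_log_of_pos h1)) (Nat.cast_nonneg n)
  field_simp
  ring

/-- The density of the value set. -/
theorem val_lower {lam η : ℝ} (hlam : 0 < lam) (hη : 0 < η) :
    ∃ (J0 : ℕ) (t : ℝ), 1 ≤ J0 ∧ 0 < t ∧ t < 1 ∧
      ∀ (J : ℕ) (n : ℕ) (x y : ℝ), J0 ≤ J → 0 < y → y ≤ t → lam - t ≤ (n : ℝ) * y →
        (n : ℝ) * y ≤ lam → y / (1 + t) ≤ x →
        (1 - Real.exp (-lam)) * Real.exp (-η) ≤
          (∑ j ∈ Icc 1 J, (n.choose j : ℝ) * x ^ j) * (1 - y) ^ n := by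
  set A : ℝ := Real.exp lam - 1 with hA
  have hA0 : 0 < A := by
    have := Real.one_lt_exp_iff.2 hlam
    linarith
  set ε : ℝ := 1 - Real.exp (-η) with hε
  have hε0 : 0 < ε := by
    have := Real.exp_lt_one_iff.2 (show -η < 0 by linarith)
    linarith
  have hser : Tendsto (fun J : ℕ ↦ ∑ j ∈ range J, lam ^ j / (j.factorial : ℝ)) atTop
      (𝓝 (Real.exp lam)) := by
    rw [Real.exp_eq_exp_ℝ]
    exact (NormedSpace.expSeries_div_hasSum_exp lam).tendsto_sum_nat
  obtain ⟨J1, hJ1⟩ := eventually_atTop.1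
    (hser.eventually (lt_mem_nhds (show Real.exp lam - A * ε / 2 < Real.exp lam by
      have := mul_pos hA0 hε0
      linarith)))
  set G : ℝ → ℝ := fun t ↦
    (Real.exp ((lam - t) / ((1 + t) * (1 + t))) - 1 - A * ε / 2) *
      Real.exp (-(lam / (1 - t))) with hG
  have hG0 : G 0 = (A - A * ε / 2) * Real.exp (-lam) := by simp [hG, hA]
  have htarget : (1 - Real.exp (-lam)) * Real.exp (-η) = (A - A * ε) * Real.exp (-lam) := by
    have he : Real.exp lam * Real.exp (-lam) = 1 := by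
      rw [← Real.exp_add, add_neg_cancel, Real.exp_zero]
    rw [hA, hε]
    linear_combination (-Real.exp (-η)) * he
  have hlt : (1 - Real.exp (-lam)) * Real.exp (-η) < G 0 := by
    rw [hG0, htarget]
    refine mul_lt_mul_of_pos_right ?_ (Real.exp_pos _)
    have := mul_pos hA0 hε0
    linarith
  have hcont : ContinuousAt G 0 := by
    simp only [hG]
    fun_prop (disch := norm_num)
  obtain ⟨r, hr, hball⟩ := Metric.eventually_nhds_iff.1
    (hcont.eventually (lt_mem_nhds hlt))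
  set t : ℝ := min (r / 2) (min (1 / 2) lam) with ht
  have ht0 : 0 < t := lt_min (by linarith) (lt_min (by norm_num) hlam)
  have ht1 : t ≤ 1 / 2 := (min_le_right _ _).trans (min_le_left _ _)
  have htl : t ≤ lam := (min_le_right _ _).trans (min_le_right _ _)
  have hGt : (1 - Real.exp (-lam)) * Real.exp (-η) ≤ G t := by
    refine (hball ?_).le
    rw [Real.dist_eq, sub_zero, abs_of_pos ht0]
    linarith [min_le_left (r / 2) (min (1 / 2) lam)]
  refine ⟨max J1 1, t, le_max_right _ _, ht0, by linarith, ?_⟩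
  intro J n x y hJ hy hyt hlo hhi hx
  set x' : ℝ := y / (1 + t) with hx'
  have h1t : 0 < 1 + t := by linarith
  have hx0 : 0 ≤ x' := (div_pos hy h1t).le
  have hxy : x' ≤ y := by
    rw [hx', div_le_iff₀ h1t]
    nlinarith
  have hnx : (n : ℝ) * x' ≤ lam :=
    (mul_le_mul_of_nonneg_left hxy (Nat.cast_nonneg n)).trans hhi
  have hb := binom_sum_le (J0 := J) hx0 hnx
  have htail : Real.exp lam - ∑ j ∈ range (J + 1), lam ^ j / (j.factorial : ℝ) ≤ A * ε / 2 := by
    have := hJ1 (J + 1) (((le_max_left _ _).trans hJ).trans (Nat.le_succ J))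
    linarith
  have hS : Real.exp ((lam - t) / ((1 + t) * (1 + t))) - 1 - A * ε / 2 ≤
      ∑ j ∈ Icc 1 J, (n.choose j : ℝ) * x' ^ j := by
    have h := exp_le_one_add_pow n hx0
    have harg : (lam - t) / ((1 + t) * (1 + t)) ≤ (n : ℝ) * x' / (1 + x') := by
      rw [← div_div]
      calc (lam - t) / (1 + t) / (1 + t) ≤ (n : ℝ) * y / (1 + t) / (1 + t) := by gcongr
        _ = (n : ℝ) * x' / (1 + t) := by rw [hx']; ring
        _ ≤ (n : ℝ) * x' / (1 + x') := by
            refine div_le_div_of_nonneg_left (mul_nonneg (Nat.cast_nonneg n) hx0)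
              (by linarith) ?_
            linarith
    have := (Real.exp_le_exp.2 harg).trans h
    linarith
  have hmono : ∑ j ∈ Icc 1 J, (n.choose j : ℝ) * x' ^ j ≤
      ∑ j ∈ Icc 1 J, (n.choose j : ℝ) * x ^ j :=
    sum_le_sum fun j _ ↦
      mul_le_mul_of_nonneg_left (pow_le_pow_left₀ hx0 hx j) (Nat.cast_nonneg _)
  have hY : Real.exp (-(lam / (1 - t))) ≤ (1 - y) ^ n := by
    refine le_trans (Real.exp_le_exp.2 (neg_le_neg ?_)) (exp_le_one_sub_pow n (by linarith))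
    exact (div_le_div_of_nonneg_right hhi (by linarith)).trans
      (div_le_div_of_nonneg_left hlam.le (by linarith) (by linarith))
  refine hGt.trans ?_
  exact mul_le_mul (hS.trans hmono) hY (Real.exp_pos _).le
    (sum_nonneg fun j _ ↦ mul_nonneg (Nat.cast_nonneg _) (pow_nonneg (hx0.trans hx) j))

/-- The height of a block of `n` paired coordinates avoiding `e` of `l` values. -/
theorem height_le {n e l : ℕ} {lam : ℝ} (he : e < l) (hn : (n : ℝ) * e ≤ lam * l) :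
    ((l : ℝ) / ((l : ℝ) - e)) ^ n ≤ Real.exp (lam * ((l : ℝ) / ((l : ℝ) - e))) := by
  have hY : 0 < (l : ℝ) - e := sub_pos.2 (Nat.cast_lt.2 he)
  have hl : (0 : ℝ) < l := by linarith [(Nat.cast_nonneg e : (0 : ℝ) ≤ e)]
  have h1 : (l : ℝ) / ((l : ℝ) - e) ≤ Real.exp ((e : ℝ) / ((l : ℝ) - e)) := by
    refine le_trans (le_of_eq ?_) (Real.add_one_le_exp _)
    field_simp
    ring
  refine (pow_le_pow_left₀ (div_nonneg hl.le hY.le) h1 n).trans ?_
  rw [← Real.exp_nat_mul, ← mul_div_assoc, ← mul_div_assoc]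
  exact Real.exp_le_exp.2 (div_le_div_of_nonneg_right hn hY.le)

/-- `exp (-log (1 - x)) = (1 - x)⁻¹` over a product. -/
theorem prod_exp_neg_log {ι : Type*} (s : Finset ι) (x : ι → ℝ) (hx : ∀ i ∈ s, x i < 1) :
    Real.exp (∑ i ∈ s, -Real.log (1 - x i)) = ∏ i ∈ s, (1 - x i)⁻¹ := by
  rw [Real.exp_sum]
  exact prod_congr rfl fun i hi ↦ by rw [Real.exp_neg, Real.exp_log (by linarith [hx i hi])]

/-- One dimension serves all the levels: every target `(D + 2) log p` is reached from a base of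
at most `B` coordinates, and the added coordinates fit in `D`. -/
theorem tune_dim {l l' B c M D0 : ℕ} {η : ℝ} (hl : 1 < l) (hll : l ≤ l') (hη : 0 < η)
    (hlog : 4 * (c : ℝ) * Real.log M ≤ Real.log l) (hηl : η ≤ Real.log l)
    (htune : ∀ T : ℝ, 3 * Real.sqrt l * Real.log l ≤ T → ∃ L₁ L₂ : ℕ,
      (L₂ : ℝ) ≤ Real.sqrt l ∧ T ≤ L₁ * Real.log l + L₂ * Real.log l' ∧
      (L₁ * Real.log l + L₂ * Real.log l' : ℝ) ≤ T + η) :
    ∃ D : ℕ, D0 ≤ D ∧ 4 * c * (B + 2) ≤ D ∧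
      (D : ℝ) ≤ D0 + ((B : ℝ) + 3 * Real.sqrt l) * Real.log l + 4 * c * ((B : ℝ) + 2) + 1 ∧
      ∀ p : ℕ, 3 ≤ p → p ≤ M → ∀ b : ℕ, b ≤ B → ∃ L₁ L₂ : ℕ,
      ((D : ℝ) + 2) * Real.log p + η ≤ ((b : ℝ) + L₁) * Real.log l + L₂ * Real.log l' ∧
      ((b : ℝ) + L₁) * Real.log l + L₂ * Real.log l' ≤ ((D : ℝ) + 2) * Real.log p + 2 * η ∧
      ((L₁ : ℝ) + L₂) * Real.log l ≤ ((D : ℝ) + 2) * Real.log M + 2 * Real.log l ∧
      c * (2 * B + L₁ + L₂) ≤ D := by
  have hl1 : (1 : ℝ) < l := by exact_mod_cast hl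
  have hlog0 : 0 < Real.log l := Real.log_pos hl1
  set K : ℝ := ((B : ℝ) + 3 * Real.sqrt l) * Real.log l with hK
  refine ⟨max D0 (max ⌈K⌉₊ (4 * c * (B + 2))), le_max_left _ _,
    (le_max_right _ _).trans (le_max_right _ _), ?_, ?_⟩
  · have hK0 : 0 ≤ K := by positivity
    have := Nat.ceil_lt_add_one hK0
    push_cast
    refine max_le ?_ (max_le ?_ ?_)
    all_goals
      have h1 : (0 : ℝ) ≤ D0 := Nat.cast_nonneg _
      have h2 : 0 ≤ 4 * (c : ℝ) * ((B : ℝ) + 2) := by positivity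
      linarith
  set D : ℕ := max D0 (max ⌈K⌉₊ (4 * c * (B + 2))) with hD
  intro p hp3 hpM b hb
  have hp1 : 1 ≤ Real.log p := by
    rw [Real.le_log_iff_exp_le (by positivity)]
    have : (3 : ℝ) ≤ p := by exact_mod_cast hp3
    linarith [Real.exp_one_lt_d9]
  have hDK : K ≤ (D : ℝ) := (Nat.le_ceil K).trans
    (Nat.cast_le.2 ((le_max_left _ _).trans (le_max_right _ _)))
  have hDc : 4 * (c : ℝ) * ((B : ℝ) + 2) ≤ D := by
    have h : 4 * c * (B + 2) ≤ D := (le_max_right _ _).trans (le_max_right _ _)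
    have h' : ((4 * c * (B + 2) : ℕ) : ℝ) ≤ D := Nat.cast_le.2 h
    push_cast at h'
    exact h'
  have hbB : (b : ℝ) * Real.log l ≤ (B : ℝ) * Real.log l :=
    mul_le_mul_of_nonneg_right (Nat.cast_le.2 hb) hlog0.le
  set T : ℝ := ((D : ℝ) + 2) * Real.log p + η - (b : ℝ) * Real.log l with hT
  have hT0 : 3 * Real.sqrt l * Real.log l ≤ T := by
    have : (D : ℝ) ≤ ((D : ℝ) + 2) * Real.log p := by nlinarith
    rw [hK] at hDK
    linarith
  obtain ⟨L1, L2, h1, h2, h3⟩ := htune T hT0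
  refine ⟨L1, L2, by linarith, by linarith, ?_⟩
  have hll' : Real.log l ≤ Real.log l' := Real.log_le_log (by linarith) (Nat.cast_le.2 hll)
  have hlogp : Real.log p ≤ Real.log M :=
    Real.log_le_log (by positivity) (Nat.cast_le.2 hpM)
  have hsum : ((L1 : ℝ) + L2) * Real.log l ≤
      ((D : ℝ) + 2) * Real.log M + 2 * Real.log l := by
    have hL2 := mul_le_mul_of_nonneg_left hll' (Nat.cast_nonneg L2 : (0 : ℝ) ≤ L2)
    have := mul_le_mul_of_nonneg_left hlogp (show (0 : ℝ) ≤ (D : ℝ) + 2 by positivity)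
    have hb0 : 0 ≤ (b : ℝ) * Real.log l := by positivity
    linarith
  refine ⟨hsum, ?_⟩
  have hkey : 4 * ((c : ℝ) * ((L1 : ℝ) + L2)) * Real.log l ≤
      ((D : ℝ) + 2 + 8 * c) * Real.log l := by
    have h5 := mul_le_mul_of_nonneg_left hsum (show (0 : ℝ) ≤ 4 * c by positivity)
    have h6 := mul_le_mul_of_nonneg_left hlog (show (0 : ℝ) ≤ (D : ℝ) + 2 by positivity)
    linarith
  have h4 := le_of_mul_le_mul_right hkey hlog0
  rcases Nat.eq_zero_or_pos c with rfl | hc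
  · simp
  · have hcR : (1 : ℝ) ≤ c := Nat.one_le_cast.2 hc
    have hB0 : 0 ≤ (c : ℝ) * B := by positivity
    have : ((c * (2 * B + L1 + L2) : ℕ) : ℝ) ≤ D := by
      push_cast
      linarith
    exact_mod_cast this

end Vale.Agent.P110.Exist.Tuning
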