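import Vale.Agent.P110.Exist.Design.Defs
import Vale.Agent.P110.Exist.Design.Tuning
import Vale.Agent.P110.Exist.PrimePairGoal
import Vale.Agent.P110.Exist.Wave

/-! Good parameters exist. -/

noncomputable section

namespace Vale.Agent.P110.Exist

open Finset

namespace Params

/-- `-log (1 - p⁻²)`. -/
def lam (p : ℕ) : ℝ := -Real.log (1 - 1 / (p : ℝ) ^ 2)

lemma inv_sq_le {p : ℕ} (hp : 3 ≤ p) : 1 / (p : ℝ) ^ 2 ≤ 1 / 9 := by
  have h : (3 : ℝ) ≤ p := by exact_mod_cast hp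
  refine one_div_le_one_div_of_le (by norm_num) ?_
  nlinarith

lemma lam_pos {p : ℕ} (hp : 3 ≤ p) : 0 < lam p := by
  have h1 := inv_sq_le hp
  have h2 : 0 < 1 / (p : ℝ) ^ 2 := by positivity
  rw [lam, neg_pos]
  exact Real.log_neg (by linarith) (by linarith)

lemma lam_le_one {p : ℕ} (hp : 3 ≤ p) : lam p ≤ 1 := by
  have h1 := inv_sq_le hp
  have h2 : 0 < 1 / (p : ℝ) ^ 2 := by positivity
  have h0 : 0 < 1 - 1 / (p : ℝ) ^ 2 := by linarith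
  have h3 := Real.one_sub_inv_le_log_of_pos h0
  have h4 : (1 - 1 / (p : ℝ) ^ 2)⁻¹ ≤ 2 := by
    rw [inv_le_iff_one_le_mul₀ h0]
    linarith
  rw [lam]
  linarith

lemma one_sub_exp_lam {p : ℕ} (hp : 3 ≤ p) : 1 - Real.exp (-lam p) = 1 / (p : ℝ) ^ 2 := by
  have h1 := inv_sq_le hp
  rw [lam, neg_neg, Real.exp_log (by linarith)]
  ring

lemma card_coord (d : Par) : d.D = (∑ p ∈ d.P, (d.V - 1) * (2 * d.J₀ + (d.L₁ p + d.L₂ p))) +
    d.rest + (∑ p ∈ d.P, d.V * d.n p) * 2 := by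
  simp only [Par.D, Fintype.card_sum, Fintype.card_prod, Fintype.card_sigma, Fintype.card_fin,
    Fintype.card_bool]
  rw [Finset.sum_coe_sort d.P fun p ↦ (d.V - 1) * (2 * d.J₀ + (d.L₁ p + d.L₂ p)),
    Finset.sum_coe_sort d.P fun p ↦ d.V * d.n p]

lemma prod_factorization {P : Finset ℕ} {m : ℕ} (hm : m ≠ 0)
    (h : ∀ p, p.Prime → p ∣ m → p ∈ P) : ∏ p ∈ P, p ^ m.factorization p = m := by
  rw [← Finsupp.prod_of_support_subset m.factorization (fun p hp ↦ ?_) (fun p k ↦ p ^ k)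
    (fun p _ ↦ pow_zero p)]
  · exact Nat.prod_factorization_pow_eq_self hm
  · rw [Nat.support_factorization, Nat.mem_primeFactors] at hp
    exact h p hp.1 hp.2.1

/-- Four factors, each close to one. -/
lemma four_factors {a b c e u v w z : ℝ} (ha : 1 - u ≤ a) (hb : 1 - v ≤ b) (hc : 1 - w ≤ c)
    (he : 1 - z ≤ e) (hu : 0 ≤ u) (hv : 0 ≤ v) (hw : 0 ≤ w) (hz : 0 ≤ z)
    (hs : u + v + w + z ≤ 1) : 1 - (u + v + w + z) ≤ a * b * c * e := by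
  have h1 : 1 - (u + v) ≤ a * b := by
    have := mul_le_mul ha hb (by linarith) (by linarith)
    have := mul_nonneg hu hv
    linarith
  have h2 : 1 - (u + v + w) ≤ a * b * c := by
    have := mul_le_mul h1 hc (by linarith) (by linarith)
    have := mul_nonneg (add_nonneg hu hv) hw
    linarith
  have := mul_le_mul h2 he (by linarith) (by linarith)
  have := mul_nonneg (add_nonneg (add_nonneg hu hv) hw) hz
  linarith

/-- `exp ((D + 2) log p) = p ^ (D + 2)`. -/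
lemma exp_log_pow {p : ℕ} (hp : 3 ≤ p) (D : ℕ) :
    Real.exp (((D : ℝ) + 2) * Real.log p) = (p : ℝ) ^ (D + 2) := by
  rw [show ((D : ℝ) + 2) = ((D + 2 : ℕ) : ℝ) by push_cast; rfl, Real.exp_nat_mul,
    Real.exp_log (Nat.cast_pos.2 (by omega))]

/-- The counting field. -/
lemma count_field {p D n : ℕ} {η W s y ee : ℝ} (hp : 3 ≤ p) (hη : 0 < η) (hn : n ≤ D)
    (hD : 4 / η ≤ D) (hW : Real.exp (((D : ℝ) + 2) * Real.log p + η) ≤ W) (hs : 0 ≤ s)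
    (hv : 1 / (p : ℝ) ^ 2 * Real.exp (-(η / 2)) ≤ s * (1 - y) ^ n) (hy : y ≤ 1) (hee : ee ≤ y) :
    (p : ℝ) ^ D + 2 ^ n ≤ W * s * (1 - ee) ^ n := by
  have hpR : (3 : ℝ) ≤ p := by exact_mod_cast hp
  have hbern : 1 + (D : ℝ) * (1 / 2) ≤ (1 + 1 / 2 : ℝ) ^ D := one_add_mul_le_pow (by norm_num) D
  have h32 : (1 : ℝ) ≤ (1 + 1 / 2 : ℝ) ^ D * (η / 2) := by
    rw [div_le_iff₀ hη] at hD
    have := mul_le_mul_of_nonneg_right hbern (half_pos hη).le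
    linarith
  have h3p : (2 : ℝ) ^ D * (1 + 1 / 2 : ℝ) ^ D ≤ (p : ℝ) ^ D := by
    rw [← mul_pow]
    exact pow_le_pow_left₀ (by norm_num) (by linarith) D
  have h2 : (2 : ℝ) ^ n ≤ (p : ℝ) ^ D * (η / 2) := by
    have h2D : (2 : ℝ) ^ n ≤ 2 ^ D := pow_le_pow_right₀ one_le_two hn
    have h6 := mul_le_mul_of_nonneg_left h32 (show (0 : ℝ) ≤ 2 ^ D by positivity)
    have h7 := mul_le_mul_of_nonneg_right h3p (half_pos hη).le
    linarith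
  have h1 : (p : ℝ) ^ D + 2 ^ n ≤ (p : ℝ) ^ D * Real.exp (η / 2) := by
    have := mul_le_mul_of_nonneg_left (Real.add_one_le_exp (η / 2))
      (show (0 : ℝ) ≤ (p : ℝ) ^ D by positivity)
    linarith
  have hp0 : (p : ℝ) ≠ 0 := by linarith
  have h4 : (p : ℝ) ^ D * Real.exp (η / 2) = Real.exp (((D : ℝ) + 2) * Real.log p + η) *
      (1 / (p : ℝ) ^ 2 * Real.exp (-(η / 2))) := by
    rw [Real.exp_add, exp_log_pow hp, pow_add]
    rw [show η / 2 = η + -(η / 2) by ring, Real.exp_add]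
    field_simp
    ring_nf
  refine h1.trans (h4.trans_le ?_)
  rw [mul_assoc]
  refine (mul_le_mul hW hv (by positivity) ((Real.exp_pos _).le.trans hW)).trans ?_
  exact mul_le_mul_of_nonneg_left (mul_le_mul_of_nonneg_left
    (pow_le_pow_left₀ (by linarith) (by linarith) n) hs) ((Real.exp_pos _).le.trans hW)

/-- The height field. -/
lemma height_field (hE : EulerGoal) {P : Finset ℕ} {n : ℕ → ℕ} {W : ℕ → ℝ} {r η κ a : ℝ}
    {V m D : ℕ} (hP : ∀ p ∈ P, p.Prime ∧ Odd p ∧ 3 ≤ p) (hm : m ≠ 0)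
    (hmP : ∀ p, p.Prime → p ∣ m → p ∈ P) (hv : ∀ p ∈ P, m.factorization p ≤ V)
    (hW0 : ∀ p ∈ P, 0 ≤ W p)
    (hW : ∀ p ∈ P, W p ≤ Real.exp (2 * η) * (p : ℝ) ^ (D + 2))
    (hn : ∀ p ∈ P, r ^ n p ≤ Real.exp (lam p * r)) (hr : 1 ≤ r) (hη : 0 ≤ η) (hκ : 0 ≤ κ)
    (hκ1 : κ ≤ 1) (hrκ : (P.card : ℝ) * (r - 1) ≤ κ / 2)
    (hηκ : (P.card : ℝ) * (2 * η * V) ≤ κ / 2) (ha0 : 0 ≤ a) (ha : a ≤ 2 / (Real.pi * m)) :
    2 * a ^ 2 * ∏ p ∈ P, r ^ n p * W p ^ m.factorization p ≤ (1 + κ) ^ 2 * (m : ℝ) ^ D := by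
  set Λ : ℝ := ∑ p ∈ P, lam p with hΛ
  have hfac : ∀ p ∈ P, r ^ n p * W p ^ m.factorization p ≤
      Real.exp (lam p * r + 2 * η * V) * (((p : ℝ) ^ (D + 2)) ^ m.factorization p) := by
    intro p hp
    have h5 : Real.exp (2 * η) ^ m.factorization p ≤ Real.exp (2 * η * V) := by
      rw [← Real.exp_nat_mul, mul_comm]
      exact Real.exp_le_exp.2
        (mul_le_mul_of_nonneg_left (Nat.cast_le.2 (hv p hp)) (by linarith))
    rw [Real.exp_add, mul_assoc]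
    refine mul_le_mul (hn p hp) ((pow_le_pow_left₀ (hW0 p hp) (hW p hp) _).trans ?_)
      (pow_nonneg (hW0 p hp) _) (Real.exp_pos _).le
    rw [mul_pow]
    exact mul_le_mul_of_nonneg_right h5 (by positivity)
  have hprod : ∏ p ∈ P, r ^ n p * W p ^ m.factorization p ≤
      Real.exp (Λ * r + P.card * (2 * η * V)) * (m : ℝ) ^ (D + 2) := by
    refine (Finset.prod_le_prod (fun p hp ↦
      mul_nonneg (by positivity) (pow_nonneg (hW0 p hp) _)) hfac).trans (le_of_eq ?_)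
    rw [Finset.prod_mul_distrib, ← Real.exp_sum, Finset.sum_add_distrib, ← Finset.sum_mul,
      Finset.sum_const, nsmul_eq_mul]
    congr 1
    conv_rhs => rw [← prod_factorization hm hmP]
    push_cast
    rw [← Finset.prod_pow]
    exact Finset.prod_congr rfl fun p _ ↦ by rw [← pow_mul, ← pow_mul, mul_comm]
  have hmpos : (0 : ℝ) < m := Nat.cast_pos.2 (Nat.pos_of_ne_zero hm)
  have hc2 : 2 * a ^ 2 * (m : ℝ) ^ 2 ≤ 8 / Real.pi ^ 2 := by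
    rw [le_div_iff₀ (by positivity)] at ha
    have h2 := pow_le_pow_left₀ (by positivity) ha 2
    rw [le_div_iff₀ (by positivity)]
    linarith
  have hEuler : 8 / Real.pi ^ 2 * Real.exp Λ ≤ 1 := by
    have h1 := hE P fun p hp ↦ ⟨(hP p hp).1, (hP p hp).2.1⟩
    have h2 := Tuning.prod_exp_neg_log P (fun p ↦ 1 / (p : ℝ) ^ 2) fun p hp ↦ by
      linarith [inv_sq_le (hP p hp).2.2]
    rw [← h2] at h1
    exact h1
  have hexp : Λ * r + P.card * (2 * η * V) ≤ Λ + κ := by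
    have hΛc : Λ ≤ P.card := by
      have := Finset.sum_le_card_nsmul P lam 1 fun p hp ↦ lam_le_one (hP p hp).2.2
      simpa using this
    have := mul_le_mul_of_nonneg_right hΛc (show 0 ≤ r - 1 by linarith)
    linarith
  have hlast : Real.exp κ ≤ (1 + κ) ^ 2 := by
    have hp : 0 < 1 + κ := by linarith
    rw [← Real.le_log_iff_exp_le (pow_pos hp 2), Real.log_pow]
    have h1 := Real.one_sub_inv_le_log_of_pos hp
    have h2 : κ / 2 ≤ 1 - (1 + κ)⁻¹ := by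
      have h3 : 1 - (1 + κ)⁻¹ = κ / (1 + κ) := by
        field_simp
        ring
      rw [h3]
      exact div_le_div_of_nonneg_left hκ hp (by linarith)
    push_cast
    linarith
  calc 2 * a ^ 2 * ∏ p ∈ P, r ^ n p * W p ^ m.factorization p
      ≤ 2 * a ^ 2 * (Real.exp (Λ + κ) * (m : ℝ) ^ (D + 2)) := by
        refine mul_le_mul_of_nonneg_left (hprod.trans ?_) (by positivity)
        exact mul_le_mul_of_nonneg_right (Real.exp_le_exp.2 hexp) (by positivity)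
    _ = 2 * a ^ 2 * (m : ℝ) ^ 2 * Real.exp Λ * (Real.exp κ * (m : ℝ) ^ D) := by
        rw [Real.exp_add, pow_add]
        ring
    _ ≤ 1 * ((1 + κ) ^ 2 * (m : ℝ) ^ D) := by
        refine mul_le_mul ?_ ?_ (by positivity) zero_le_one
        · exact (mul_le_mul_of_nonneg_right hc2 (Real.exp_pos _).le).trans hEuler
        · exact mul_le_mul_of_nonneg_right hlast (by positivity)
    _ = _ := one_mul _

/-- The dropped segments lose little. -/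
lemma loss_centres {P : Finset ℕ} {V D : ℕ} {κ : ℝ} (hP : ∀ p ∈ P, p.Prime) (hκ : 0 < κ)
    (hD1 : 1 ≤ D) (hD : 10 * ((P.card : ℝ) * V) / κ ≤ D) :
    1 - κ / 5 ≤ 1 - 2 * ∑ p ∈ P, (V : ℝ) / (p : ℝ) ^ D := by
  have hDR : (0 : ℝ) < D := Nat.cast_pos.2 hD1
  have h1 : ∑ p ∈ P, (V : ℝ) / (p : ℝ) ^ D ≤ (P.card : ℝ) * ((V : ℝ) / D) := by
    rw [← nsmul_eq_mul]
    refine Finset.sum_le_card_nsmul _ _ _ fun p hp ↦ ?_
    refine div_le_div_of_nonneg_left (Nat.cast_nonneg _) hDR ?_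
    exact_mod_cast (Nat.lt_pow_self (hP p hp).one_lt).le
  have h2 : (P.card : ℝ) * ((V : ℝ) / D) ≤ κ / 10 := by
    rw [div_le_iff₀ hκ] at hD
    rw [← mul_div_assoc, div_le_iff₀ hDR]
    linarith
  linarith

/-- The spikes at zero lose little. -/
lemma loss_spikes {P : Finset ℕ} {V J0 BT D0 D cc : ℕ} {L : ℕ → ℕ} {n : ℕ → ℕ}
    {κ LM lg sq h₀ l C : ℝ} (hlg : 1 ≤ lg) (hsq : 0 ≤ sq) (hLM : 0 ≤ LM) (hl : 1 ≤ l)
    (hD : (D : ℝ) ≤ D0 + ((BT : ℝ) + 3 * sq) * lg + 4 * cc * ((BT : ℝ) + 2) + 1)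
    (hn : ∀ p ∈ P, n p + J0 ≤ BT)
    (hL : ∀ p ∈ P, (L p : ℝ) * lg ≤ ((D : ℝ) + 2) * LM + 2 * lg)
    (hC : C = (P.card : ℝ) * V * (3 + LM * (11 + 12 * cc))) (hh₀ : 0 < h₀)
    (hX : ((BT : ℝ) + sq + D0 + 1) * h₀ ≤ 3 * l) (hCh : 15 * C ≤ κ * h₀) :
    1 - κ / 5 ≤ (1 - 1 / l) ^ (∑ p ∈ P, V * (n p + J0 + L p)) := by
  have hl0 : 0 < l := by linarith
  have hbase : (-2 : ℝ) ≤ -(1 / l) := by
    have : 1 / l ≤ 1 := by rw [div_le_one hl0]; linarith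
    linarith
  have h0 := one_add_mul_le_pow hbase (∑ p ∈ P, V * (n p + J0 + L p))
  rw [← sub_eq_add_neg] at h0
  refine le_trans ?_ h0
  set X : ℝ := (BT : ℝ) + sq + D0 + 1 with hXdef
  have hlg0 : 0 < lg := by linarith
  have hBT0 : (0 : ℝ) ≤ BT := Nat.cast_nonneg _
  have hD00 : (0 : ℝ) ≤ D0 := Nat.cast_nonneg _
  have hc0 : (0 : ℝ) ≤ cc := Nat.cast_nonneg _
  have hX1 : 1 ≤ X := by linarith
  have hDX : (D : ℝ) + 2 ≤ (11 + 12 * (cc : ℝ)) * X * lg := by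
    have h2 : (D0 : ℝ) + 3 + 4 * cc * ((BT : ℝ) + 2) ≤
        ((D0 : ℝ) + 3 + 4 * cc * ((BT : ℝ) + 2)) * lg :=
      le_mul_of_one_le_right (by positivity) hlg
    have h3 : ((BT : ℝ) + 3 * sq) + (D0 + 3 + 4 * cc * ((BT : ℝ) + 2)) ≤
        (11 + 12 * (cc : ℝ)) * X := by
      rw [hXdef]
      nlinarith
    have := mul_le_mul_of_nonneg_right h3 hlg0.le
    linarith
  have hLX : ∀ p ∈ P, ((n p + J0 + L p : ℕ) : ℝ) ≤ (3 + LM * (11 + 12 * cc)) * X := by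
    intro p hp
    have h2 : (L p : ℝ) * lg ≤ (LM * (11 + 12 * cc) * X + 2) * lg := by
      have := mul_le_mul_of_nonneg_right hDX hLM
      linarith [hL p hp]
    have h3 := le_of_mul_le_mul_right h2 hlg0
    have h4 : ((n p + J0 : ℕ) : ℝ) ≤ BT := Nat.cast_le.2 (hn p hp)
    push_cast at h4 ⊢
    linarith
  have hN1 : ((∑ p ∈ P, V * (n p + J0 + L p) : ℕ) : ℝ) ≤ C * X := by
    rw [Nat.cast_sum, hC, mul_assoc, mul_assoc, ← nsmul_eq_mul]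
    refine Finset.sum_le_card_nsmul _ _ _ fun p hp ↦ ?_
    rw [Nat.cast_mul]
    exact mul_le_mul_of_nonneg_left (hLX p hp) (Nat.cast_nonneg _)
  have hC0 : 0 ≤ C := by rw [hC]; positivity
  have hfin : C * X ≤ κ / 5 * l := by
    refine le_of_mul_le_mul_right ?_ hh₀
    have h6 := mul_le_mul_of_nonneg_left hX hC0
    have h7 := mul_le_mul_of_nonneg_right hCh hl0.le
    linarith
  rw [mul_neg, ← sub_eq_add_neg, mul_one_div]
  have : ((∑ p ∈ P, V * (n p + J0 + L p) : ℕ) : ℝ) / l ≤ κ / 5 := by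
    rw [div_le_iff₀ hl0]
    linarith
  linarith

/-- The projections lose little. -/
lemma loss_proj {N : ℕ} {κ ε δ : ℝ} (hN : 1 ≤ (N : ℝ)) (hε : ε = κ / (20 * N)) (hκ0 : 0 < κ)
    (hκ : κ ≤ 1 / 2) (hδ0 : 0 ≤ δ) (hδ : (N : ℝ) * δ ≤ κ / 10) :
    1 - κ / 5 ≤ ((1 - ε) ^ 2 * (1 - δ)) ^ N := by
  have hε0 : 0 < ε := by rw [hε]; positivity
  have h4 : (N : ℝ) * (2 * ε) = κ / 10 := by
    rw [hε]
    field_simp
    ring
  have h5 : δ ≤ 1 / 20 := by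
    have := le_mul_of_one_le_left hδ0 hN
    linarith
  have hε20 : ε ≤ 1 / 20 := by
    rw [hε, div_le_iff₀ (by positivity)]
    linarith
  have h6 : 1 + -(2 * ε + δ) ≤ (1 - ε) ^ 2 * (1 - δ) := by
    nlinarith [mul_nonneg hε0.le hδ0, mul_nonneg (sq_nonneg ε) (show 0 ≤ 1 - δ by linarith)]
  have h7 := one_add_mul_le_pow (show (-2 : ℝ) ≤ -(2 * ε + δ) by linarith) N
  refine le_trans ?_ (h7.trans (pow_le_pow_left₀ (by linarith) h6 N))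
  linarith

/-- Common constants of the value sets. -/
lemma exists_vals {P : Finset ℕ} (hP : ∀ p ∈ P, 3 ≤ p) (hne : P.Nonempty) {η : ℝ} (hη : 0 < η) :
    ∃ (J0 : ℕ) (t : ℝ), 1 ≤ J0 ∧ 0 < t ∧ t < 1 ∧ ∀ p ∈ P, ∀ (n : ℕ) (x y : ℝ), 0 < y → y ≤ t →
      lam p - t ≤ (n : ℝ) * y → (n : ℝ) * y ≤ lam p → y / (1 + t) ≤ x →
      1 / (p : ℝ) ^ 2 * Real.exp (-(η / 2)) ≤
        (∑ j ∈ Icc 1 J0, (n.choose j : ℝ) * x ^ j) * (1 - y) ^ n := by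
  classical
  have hval : ∀ p : ℕ, ∃ (J0 : ℕ) (t : ℝ), p ∈ P → 1 ≤ J0 ∧ 0 < t ∧ t < 1 ∧
      ∀ (J : ℕ) (n : ℕ) (x y : ℝ), J0 ≤ J → 0 < y → y ≤ t → lam p - t ≤ (n : ℝ) * y →
        (n : ℝ) * y ≤ lam p → y / (1 + t) ≤ x →
        (1 - Real.exp (-lam p)) * Real.exp (-(η / 2)) ≤
          (∑ j ∈ Icc 1 J, (n.choose j : ℝ) * x ^ j) * (1 - y) ^ n := by
    intro p
    by_cases hp : p ∈ P
    · obtain ⟨J0, t, h⟩ := Tuning.val_lower (lam_pos (hP p hp)) (half_pos hη)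
      exact ⟨J0, t, fun _ ↦ h⟩
    · exact ⟨0, 0, fun h ↦ absurd h hp⟩
  choose J0f tf hval using hval
  obtain ⟨q, hq⟩ := hne
  refine ⟨P.sup J0f, P.inf' ⟨q, hq⟩ tf, (hval q hq).1.trans (Finset.le_sup hq),
    (Finset.lt_inf'_iff _).2 fun p hp ↦ (hval p hp).2.1,
    lt_of_le_of_lt (Finset.inf'_le _ hq) (hval q hq).2.2.1, ?_⟩
  intro p hp n x y hy hyt hlo hhi hx
  obtain ⟨-, ht0, -, hv⟩ := hval p hp
  have htp : P.inf' ⟨q, hq⟩ tf ≤ tf p := Finset.inf'_le _ hp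
  have ht : 0 < P.inf' ⟨q, hq⟩ tf := (Finset.lt_inf'_iff _).2 fun p hp ↦ (hval p hp).2.1
  have := hv (P.sup J0f) n x y (Finset.le_sup hp) hy (hyt.trans htp) (by linarith) hhi
    ((div_le_div_of_nonneg_left hy.le (by linarith) (by linarith)).trans hx)
  rwa [one_sub_exp_lam (hP p hp)] at this

/-- The block sizes `⌊lam p / y⌋`. -/
lemma blocks {P : Finset ℕ} (hP : ∀ p ∈ P, 3 ≤ p) {l h h₀ B u J0 : ℕ} {t y : ℝ} (ht0 : 0 < t)
    (ht1 : t < 1) (hh₀ : 1 ≤ h₀) (hl : 1 ≤ l) (hhh : h₀ ≤ h) (hhB : h ≤ B)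
    (hlt : 2 * (B : ℝ) / t ≤ l) (hlu : 2 * B * u ≤ l)
    (hu : ∀ p ∈ P, ((J0 : ℝ) + 1) / lam p ≤ u) (hy : y = (1 + t) * h / l) :
    0 < y ∧ y ≤ t ∧ ∃ n : ℕ → ℕ, ∀ p ∈ P, (n p : ℝ) * y ≤ lam p ∧ lam p - t ≤ (n p : ℝ) * y ∧
      J0 ≤ n p ∧ n p ≤ l / h₀ := by
  have hl0 : (0 : ℝ) < l := Nat.cast_pos.2 hl
  have hh : (0 : ℝ) < h := Nat.cast_pos.2 (lt_of_lt_of_le hh₀ hhh)
  have hy0 : 0 < y := by rw [hy]; positivity
  have h2 : (1 + t) * h ≤ 2 * (B : ℝ) :=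
    mul_le_mul (by linarith) (Nat.cast_le.2 hhB) hh.le zero_le_two
  have hyt : y ≤ t := by
    rw [hy, div_le_iff₀ hl0]
    rw [div_le_iff₀ ht0] at hlt
    linarith
  refine ⟨hy0, hyt, fun p ↦ ⌊lam p / y⌋₊, fun p hp ↦ ?_⟩
  have hlp0 := lam_pos (hP p hp)
  have h0 := (div_pos hlp0 hy0).le
  have h1 := (le_div_iff₀ hy0).1 (Nat.floor_le h0)
  have h3 := (div_lt_iff₀ hy0).1 (Nat.lt_floor_add_one (lam p / y))
  refine ⟨h1, by linarith, Nat.le_floor ?_, ?_⟩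
  · have hu' := hu p hp
    rw [div_le_iff₀ hlp0] at hu'
    have h4 : ((2 * B * u : ℕ) : ℝ) ≤ l := Nat.cast_le.2 hlu
    push_cast at h4
    rw [le_div_iff₀ hy0, hy, ← mul_div_assoc, div_le_iff₀ hl0]
    have h5 := mul_le_mul_of_nonneg_left h4 hlp0.le
    have h6 := mul_le_mul_of_nonneg_left h2 (Nat.cast_nonneg J0 : (0 : ℝ) ≤ J0)
    have h7 := mul_le_mul_of_nonneg_left hu' (show (0 : ℝ) ≤ 2 * (B : ℝ) by positivity)
    linarith [(Nat.cast_nonneg B : (0 : ℝ) ≤ B)]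
  · rw [Nat.le_div_iff_mul_le (by omega)]
    have h4 := h1.trans (lam_le_one (hP p hp))
    rw [hy, ← mul_div_assoc, div_le_iff₀ hl0, one_mul] at h4
    have h5 : (h₀ : ℝ) ≤ (1 + t) * h := by
      have := mul_nonneg ht0.le hh.le
      have : (h₀ : ℝ) ≤ h := Nat.cast_le.2 hhh
      linarith
    have h6 := mul_le_mul_of_nonneg_left h5 (Nat.cast_nonneg (⌊lam p / y⌋₊))
    rw [hy] at h6 ⊢
    exact_mod_cast (h6.trans h4)

/-- The dimension and the labels. -/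
lemma levels {P : Finset ℕ} (hne : P.Nonempty) {M V J0 BT D0 l l' : ℕ} {n : ℕ → ℕ} {η : ℝ}
    (hP : ∀ p ∈ P, 3 ≤ p ∧ p ≤ M) (hV : 1 ≤ V) (hD0 : 1 ≤ D0) (hn : ∀ p ∈ P, n p + J0 ≤ BT)
    (hl : 1 < l) (hll : l ≤ l') (hη : 0 < η) (hηl : η ≤ Real.log l) (hM : 1 ≤ M)
    (hlM : M ^ (4 * (2 * P.card * V)) ≤ l)
    (htune : ∀ T : ℝ, 3 * Real.sqrt l * Real.log l ≤ T → ∃ L₁ L₂ : ℕ,
      (L₂ : ℝ) ≤ Real.sqrt l ∧ T ≤ L₁ * Real.log l + L₂ * Real.log l' ∧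
      (L₁ * Real.log l + L₂ * Real.log l' : ℝ) ≤ T + η) :
    ∃ (D : ℕ) (L1 L2 : ℕ → ℕ) (rest : ℕ), 1 ≤ rest ∧ D0 ≤ D ∧
      (∑ p ∈ P, (V - 1) * (2 * J0 + (L1 p + L2 p))) + rest + (∑ p ∈ P, V * n p) * 2 = D ∧
      (D : ℝ) ≤ D0 + ((BT : ℝ) + 3 * Real.sqrt l) * Real.log l +
        4 * ((2 * P.card * V : ℕ) : ℝ) * ((BT : ℝ) + 2) + 1 ∧
      ∀ p ∈ P, n p ≤ D ∧
        ((D : ℝ) + 2) * Real.log p + η ≤
          (((n p + J0 : ℕ) : ℝ) + L1 p) * Real.log l + L2 p * Real.log l' ∧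
        (((n p + J0 : ℕ) : ℝ) + L1 p) * Real.log l + L2 p * Real.log l' ≤
          ((D : ℝ) + 2) * Real.log p + 2 * η ∧
        ((L1 p + L2 p : ℕ) : ℝ) * Real.log l ≤
          ((D : ℝ) + 2) * Real.log M + 2 * Real.log l := by
  classical
  have hlogM : 4 * ((2 * P.card * V : ℕ) : ℝ) * Real.log M ≤ Real.log l := by
    have h1 : ((M ^ (4 * (2 * P.card * V)) : ℕ) : ℝ) ≤ l := Nat.cast_le.2 hlM
    rw [Nat.cast_pow] at h1
    have hM0 : (0 : ℝ) < M := Nat.cast_pos.2 hM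
    have h2 := Real.log_le_log (pow_pos hM0 _) h1
    rw [Real.log_pow, Nat.cast_mul] at h2
    exact h2
  obtain ⟨D, hDD0, hDc, hDub, hDtune⟩ :=
    Tuning.tune_dim (B := BT) (D0 := D0) hl hll hη hlogM hηl htune
  have hlev : ∀ p : ℕ, ∃ L₁ L₂ : ℕ, p ∈ P → _ :=
    fun p ↦ if hp : p ∈ P then
      let ⟨L1, L2, hL⟩ := hDtune p (hP p hp).1 (hP p hp).2 (n p + J0) (hn p hp)
      ⟨L1, L2, fun _ ↦ hL⟩
    else ⟨0, 0, fun h ↦ absurd h hp⟩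
  choose L1 L2 hlev using hlev
  have hused : (∑ p ∈ P, (V - 1) * (2 * J0 + (L1 p + L2 p))) + (∑ p ∈ P, V * n p) * 2 < D := by
    have h1 : (∑ p ∈ P, (V - 1) * (2 * J0 + (L1 p + L2 p))) + (∑ p ∈ P, V * n p) * 2 ≤
        ∑ p ∈ P, V * (2 * BT + L1 p + L2 p) := by
      rw [Finset.sum_mul, ← Finset.sum_add_distrib]
      refine Finset.sum_le_sum fun p hp ↦ ?_
      have h2 := Nat.mul_le_mul_right (2 * J0 + (L1 p + L2 p)) (Nat.sub_le V 1)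
      have h3 := Nat.mul_le_mul_left V
        (show 2 * n p + (2 * J0 + (L1 p + L2 p)) ≤ 2 * BT + L1 p + L2 p by
          have := hn p hp; omega)
      rw [Nat.mul_add] at h3
      rw [show V * n p * 2 = V * (2 * n p) by ring]
      omega
    have h4 : P.card * (2 * ∑ p ∈ P, V * (2 * BT + L1 p + L2 p)) ≤ P.card * D := by
      rw [← Nat.mul_assoc, Finset.mul_sum, ← smul_eq_mul P.card D]
      refine Finset.sum_le_card_nsmul _ _ _ fun p hp ↦ le_of_eq_of_le ?_ (hlev p hp).2.2.2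
      ring
    have := Nat.le_of_mul_le_mul_left h4 hne.card_pos
    omega
  refine ⟨D, L1, L2, D - ((∑ p ∈ P, (V - 1) * (2 * J0 + (L1 p + L2 p))) +
    (∑ p ∈ P, V * n p) * 2), by omega, hDD0, by omega, hDub, fun p hp ↦ ?_⟩
  obtain ⟨h1, h2, h3, -⟩ := hlev p hp
  refine ⟨?_, h1, h2, by push_cast; exact h3⟩
  have hc1 : 1 ≤ 4 * (2 * P.card * V) := by
    have : 0 < P.card * V := Nat.mul_pos hne.card_pos hV
    rw [Nat.mul_assoc]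
    omega
  have h5 := Nat.mul_le_mul_right (BT + 2) hc1
  have := hn p hp
  omega

/-- The weight of a level as an exponential. -/
lemma W_eq (d : Par) (p : ℕ) (h : 0 < d.ℓ) (h' : 0 < d.ℓ') : d.W p =
    Real.exp ((((d.n p + d.J₀ : ℕ) : ℝ) + d.L₁ p) * Real.log d.ℓ + d.L₂ p * Real.log d.ℓ') := by
  rw [Real.exp_add, ← Nat.cast_add, Real.exp_nat_mul, Real.exp_log (Nat.cast_pos.2 h),
    Real.exp_nat_mul, Real.exp_log (Nat.cast_pos.2 h')]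
  rfl

/-- The numerical fields from the choices. -/
lemma good_of (hE : EulerGoal) {d : Par} {κ ε η t : ℝ} {S : Finset ℕ} {c : ℕ → ℂ} {D M B : ℕ}
    (hκ : 0 < κ) (hκ1 : κ ≤ 1 / 2) (hη : 0 < η) (ht0 : 0 < t) (ht1 : t < 1)
    (hε : 0 < ε) (hε1 : ε ≤ 1)
    (hP : ∀ p ∈ d.P, p.Prime ∧ Odd p ∧ 3 ≤ p) (hne : d.P.Nonempty) (hV : 2 ≤ d.V)
    (hJ0 : 1 ≤ d.J₀) (hrest : 1 ≤ d.rest) (hD : d.D = D)
    (hS : ∀ m ∈ S, m ≠ 0 ∧ m ≤ M ∧ ∀ p, p.Prime → p ∣ m → p ∈ d.P) (hMV : M + 1 ≤ d.V)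
    (hc : ∀ m ∈ S, ‖c m‖ ≤ 2 / (Real.pi * m))
    (hlp : d.ℓ.Prime) (hlp' : d.ℓ'.Prime) (hbig : 4 * d.J + d.J * B + 4 ≤ d.ℓ)
    (hll : d.ℓ < d.ℓ') (hQ : d.ℓ % d.Q = 1 % d.Q) (hQ' : d.ℓ' % d.Q = 1 % d.Q)
    (hcop : Nat.Coprime (d.ℓ - d.E.card) (2 * d.Q))
    (hsH : ∀ x ∈ d.H, -1 - x ∈ d.H) (hsH' : ∀ x ∈ d.H', -1 - x ∈ d.H')
    (hsE : ∀ x ∈ d.E, -1 - x ∈ d.E)
    (hfol : ∀ k : ℕ, Odd k → k ≤ d.J + 1 → ∀ i : ℤ, |i| ≤ ((d.J + 1 : ℕ) : ℤ) →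
      (∀ x ∈ d.H, (k : ZMod d.ℓ) * x + i ∈ d.H') ∧
        ∀ x, (k : ZMod d.ℓ) * x + i ∈ d.H' → x ∈ d.E)
    (hEB : d.E.card ≤ B) (hH'B : d.H'.card ≤ B)
    (hEh : (d.E.card : ℝ) ≤ (1 + t) * d.H.card)
    (huni : ∀ z : ℤ, |z| ≤ ((d.J + 1 : ℕ) : ℤ) →
      ((d.E ∪ d.E.image fun x => (z : ZMod d.ℓ) - x).card : ℝ) ≤ (1 + t) * d.H.card)
    (hyt : (1 + t) * d.H.card / d.ℓ ≤ t)
    (hn : ∀ p ∈ d.P, (d.n p : ℝ) * ((1 + t) * d.H.card / d.ℓ) ≤ lam p ∧ d.J₀ ≤ d.n p ∧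
      d.n p ≤ D)
    (hval : ∀ p ∈ d.P, 1 / (p : ℝ) ^ 2 * Real.exp (-(η / 2)) ≤
      (∑ j ∈ Icc 1 d.J₀, ((d.n p).choose j : ℝ) * ((d.H.card : ℝ) / d.ℓ) ^ j) *
        (1 - (1 + t) * d.H.card / d.ℓ) ^ d.n p)
    (hlev : ∀ p ∈ d.P, ((D : ℝ) + 2) * Real.log p + η ≤
      (((d.n p + d.J₀ : ℕ) : ℝ) + d.L₁ p) * Real.log d.ℓ + d.L₂ p * Real.log d.ℓ' ∧
      (((d.n p + d.J₀ : ℕ) : ℝ) + d.L₁ p) * Real.log d.ℓ + d.L₂ p * Real.log d.ℓ' ≤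
        ((D : ℝ) + 2) * Real.log p + 2 * η)
    (hDη : 4 / η ≤ D) (hr₁ : (B : ℝ) + 2 * ((d.P.card : ℝ) * B) / κ ≤ d.ℓ)
    (hηκ : (d.P.card : ℝ) * (2 * η * d.V) ≤ κ / 2)
    (hdel : ((M : ℝ) * B * (2 * S.card) / ε) ^ 2 ≤ d.ℓ) (hSne : S.Nonempty)
    (hen : 1 - κ ≤ (∑ m ∈ S, 2 * ‖c m‖ ^ 2) *
      (1 - 2 * ∑ p ∈ d.P, (d.V : ℝ) / (p : ℝ) ^ D) *
      (1 - 1 / (d.ℓ : ℝ)) ^ (∑ p ∈ d.P, d.V * (d.n p + d.J₀ + d.L₁ p + d.L₂ p)) *
      ((1 - ε) ^ 2 * (1 - ((d.J * d.H'.card : ℕ) + 1 : ℝ) / d.ℓ)) ^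
        (∑ _p ∈ d.P, d.V * d.J₀)) :
    d.Good κ ε S c := by
  have hl0 : (0 : ℝ) < d.ℓ := Nat.cast_pos.2 hlp.pos
  have hEl : (d.E.card : ℝ) < d.ℓ := by
    have h1 := mul_lt_mul_of_pos_right (lt_of_le_of_lt hyt ht1) hl0
    rw [div_mul_cancel₀ _ hl0.ne', one_mul] at h1
    linarith
  constructor
  · exact fun p hp ↦ ⟨(hP p hp).1, (hP p hp).2.1⟩
  · exact hne
  · exact hV
  · exact hJ0
  · exact fun p hp ↦ (hn p hp).2.1
  · exact hrest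
  · intro m hm
    obtain ⟨hm0, hmM, hmP⟩ := hS m hm
    conv_lhs => rw [← prod_factorization hm0 hmP]
    refine Finset.prod_dvd_prod_of_dvd _ _ fun p _ ↦ Nat.pow_dvd_pow p ?_
    have := Nat.factorization_lt p hm0
    omega
  · exact hlp
  · exact hlp'
  · omega
  · exact hll
  · exact (Nat.modEq_iff_dvd' hlp.one_le).1 hQ.symm
  · exact (Nat.modEq_iff_dvd' hlp'.one_le).1 hQ'.symm
  · exact_mod_cast hEl
  · exact hcop
  · exact hsH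
  · exact hsH'
  · exact hsE
  · intro k hk hkK i hi
    exact hfol k hk hkK i (by push_cast; exact hi)
  · intro p hp z hz
    rw [hD, W_eq d p hlp.pos hlp'.pos]
    exact count_field (hP p hp).2.2 hη (hn p hp).2.2 hDη
      (Real.exp_le_exp.2 (hlev p hp).1) (Finset.sum_nonneg fun j _ ↦ by positivity) (hval p hp)
      (hyt.trans ht1.le)
      (div_le_div_of_nonneg_right (huni z (by push_cast; exact hz)) hl0.le)
  · intro m hm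
    obtain ⟨hm0, hmM, hmP⟩ := hS m hm
    rw [hD]
    have hY : (d.Y : ℝ) = (d.ℓ : ℝ) - d.E.card := by
      rw [Par.Y, Nat.cast_sub]
      exact_mod_cast hEl.le
    have hY0 : 0 < (d.Y : ℝ) := by
      rw [hY]
      linarith
    refine height_field hE (V := d.V) (η := η) hP hm0 hmP ?_
      (fun p _ ↦ by rw [W_eq d p hlp.pos hlp'.pos]; positivity)
      ?_ ?_ ?_ hη.le hκ.le (by linarith) ?_ hηκ (norm_nonneg _) (hc m hm)
    · intro p _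
      have := Nat.factorization_lt p hm0
      omega
    · intro p hp
      rw [W_eq d p hlp.pos hlp'.pos, ← exp_log_pow (hP p hp).2.2, ← Real.exp_add]
      exact Real.exp_le_exp.2 (by linarith [(hlev p hp).2])
    · intro p hp
      rw [hY]
      refine Tuning.height_le (e := d.E.card) (by exact_mod_cast hEl) ?_
      have h2 := (hn p hp).1
      rw [← mul_div_assoc, div_le_iff₀ hl0] at h2
      exact (mul_le_mul_of_nonneg_left hEh (Nat.cast_nonneg _)).trans h2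
    · rw [one_le_div hY0, hY]
      linarith [(Nat.cast_nonneg d.E.card : (0 : ℝ) ≤ d.E.card)]
    · rw [div_sub_one hY0.ne', hY, ← mul_div_assoc, div_le_iff₀ (by linarith)]
      rw [← le_sub_iff_add_le', div_le_iff₀ hκ] at hr₁
      have hEB' : (d.E.card : ℝ) ≤ B := Nat.cast_le.2 hEB
      have h4 := mul_le_mul_of_nonneg_left hEB' (Nat.cast_nonneg d.P.card : (0 : ℝ) ≤ d.P.card)
      have h5 := mul_le_mul_of_nonneg_left hEB' hκ.le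
      linarith
  · have := Nat.mul_le_mul_left d.J hH'B
    omega
  · exact hε
  · exact hε1
  · intro m hm
    have hS0 : (0 : ℝ) < S.card := Nat.cast_pos.2 hSne.card_pos
    have h1 : (M : ℝ) * B * (2 * S.card) / ε ≤ Real.sqrt d.ℓ := Real.le_sqrt_of_sq_le hdel
    rw [div_le_iff₀ hε] at h1
    rw [le_div_iff₀ (by positivity)]
    have h2 : ((m * d.H'.card : ℕ) : ℝ) ≤ (M : ℝ) * B := by
      exact_mod_cast Nat.mul_le_mul (hS m hm).2.1 hH'B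
    have := mul_le_mul_of_nonneg_right h2 (show (0 : ℝ) ≤ 2 * S.card by positivity)
    linarith
  · rw [hD]
    exact hen

/-- The odd primes up to `M`, a common divisor exponent, and the support facts. -/
lemma setup {S : Finset ℕ} (hS : ∀ m ∈ S, Odd m) :
    ∃ (M : ℕ) (P : Finset ℕ), 3 ≤ M ∧ P.Nonempty ∧
      (∀ p ∈ P, p.Prime ∧ Odd p ∧ 3 ≤ p ∧ p ≤ M) ∧
      ∀ m ∈ S, m ≠ 0 ∧ m ≤ M ∧ ∀ p, p.Prime → p ∣ m → p ∈ P := by
  refine ⟨max 3 (S.sup id), (range (max 3 (S.sup id) + 1)).filter fun p ↦ p.Prime ∧ Odd p,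
    le_max_left _ _, ⟨3, ?_⟩, fun p hp ↦ ?_, fun m hm ↦ ?_⟩
  · simp only [mem_filter, mem_range]
    exact ⟨by omega, Nat.prime_three, by decide⟩
  · simp only [mem_filter, mem_range] at hp
    refine ⟨hp.2.1, hp.2.2, ?_, by omega⟩
    rcases hp.2.2 with ⟨k, rfl⟩
    have := hp.2.1.two_le
    omega
  · have hle : m ≤ max 3 (S.sup id) := (Finset.le_sup (f := id) hm).trans (le_max_right _ _)
    refine ⟨(hS m hm).pos.ne', hle, fun p hp hpm ↦ ?_⟩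
    have h1 := Nat.le_of_dvd (hS m hm).pos hpm
    simp only [mem_filter, mem_range]
    exact ⟨by omega, hp, (hS m hm).of_dvd_nat hpm⟩

/-- The scale constants `η`, `h₀`, `D0`, `ε`. -/
lemma scales {κ a : ℝ} (hκ : 0 < κ) (hκ1 : κ ≤ 1) (ha : 1 ≤ a) :
    ∃ η : ℝ, 0 < η ∧ η ≤ 1 ∧ a * (2 * η) ≤ κ / 2 := by
  refine ⟨κ / (4 * a), by positivity, ?_, le_of_eq ?_⟩
  · rw [div_le_one (by positivity)]
    linarith
  · field_simp
    ring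

/-- The energy product. -/
lemma energy_field {P : Finset ℕ} {V J0 BT D0 D B h₀ l hc : ℕ} {n L1 L2 : ℕ → ℕ}
    {κ ε E0 LM C N2 : ℝ} {J : ℕ} (hP : ∀ p ∈ P, p.Prime) (hκ : 0 < κ) (hκ1 : κ ≤ 1 / 2)
    (hE0 : 1 - κ / 5 ≤ E0) (hLM : 0 ≤ LM) (hl : 3 ≤ l) (hD1 : 1 ≤ D)
    (hD : 10 * ((P.card : ℝ) * V) / κ ≤ D)
    (hDub : (D : ℝ) ≤ D0 + ((BT : ℝ) + 3 * Real.sqrt l) * Real.log l +
      4 * ((2 * P.card * V : ℕ) : ℝ) * ((BT : ℝ) + 2) + 1)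
    (hBT : BT = l / h₀ + J0) (hn : ∀ p ∈ P, n p + J0 ≤ BT)
    (hL : ∀ p ∈ P, ((L1 p + L2 p : ℕ) : ℝ) * Real.log l ≤ ((D : ℝ) + 2) * LM + 2 * Real.log l)
    (hC : C = (P.card : ℝ) * V * (3 + LM * (11 + 12 * ((2 * P.card * V : ℕ) : ℝ))))
    (hh₀ : 0 < h₀) (hCh : 15 * C / κ ≤ h₀) (hsq : h₀ * h₀ ≤ l)
    (hlin : h₀ * (J0 + D0 + 1) ≤ l) (hN2 : N2 = ((∑ _p ∈ P, V * J0 : ℕ) : ℝ)) (hN21 : 1 ≤ N2)
    (hε : ε = κ / (20 * N2)) (hhc : hc ≤ B)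
    (hl₂ : 10 * (N2 * (J * B + 1)) / κ ≤ (l : ℝ)) :
    1 - κ ≤ E0 * (1 - 2 * ∑ p ∈ P, (V : ℝ) / (p : ℝ) ^ D) *
      (1 - 1 / (l : ℝ)) ^ (∑ p ∈ P, V * (n p + J0 + L1 p + L2 p)) *
      ((1 - ε) ^ 2 * (1 - ((J * hc : ℕ) + 1 : ℝ) / l)) ^ (∑ _p ∈ P, V * J0) := by
  have hlR : (3 : ℝ) ≤ l := by exact_mod_cast hl
  have hl0 : (0 : ℝ) < l := by linarith
  have hlog1 : 1 ≤ Real.log l := by
    rw [Real.le_log_iff_exp_le hl0]
    linarith [Real.exp_one_lt_d9]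
  have hb := loss_centres (V := V) hP hκ hD1 hD
  have hc' : 1 - κ / 5 ≤ (1 - 1 / (l : ℝ)) ^ (∑ p ∈ P, V * (n p + J0 + L1 p + L2 p)) := by
    have hsum : ∑ p ∈ P, V * (n p + J0 + L1 p + L2 p) =
        ∑ p ∈ P, V * (n p + J0 + (L1 p + L2 p)) :=
      Finset.sum_congr rfl fun p _ ↦ by rw [Nat.add_assoc (n p + J0)]
    rw [hsum]
    refine loss_spikes (h₀ := (h₀ : ℝ)) (sq := Real.sqrt l) (L := fun p ↦ L1 p + L2 p) hlog1
      (Real.sqrt_nonneg _) hLM (by linarith) hDub hn hL hC (Nat.cast_pos.2 hh₀) ?_ ?_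
    · have h1 : ((h₀ * h₀ : ℕ) : ℝ) ≤ l := Nat.cast_le.2 hsq
      have h2 : ((h₀ * (J0 + D0 + 1) : ℕ) : ℝ) ≤ l := Nat.cast_le.2 hlin
      have h3 : (((l / h₀) * h₀ : ℕ) : ℝ) ≤ l := Nat.cast_le.2 (Nat.div_mul_le_self _ _)
      push_cast at h1 h2 h3
      have h4 : Real.sqrt l * h₀ ≤ l := by
        have h5 : (h₀ : ℝ) ≤ Real.sqrt l := Real.le_sqrt_of_sq_le (by linarith)
        have := mul_le_mul_of_nonneg_left h5 (Real.sqrt_nonneg (l : ℝ))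
        rwa [Real.mul_self_sqrt hl0.le] at this
      rw [hBT]
      push_cast
      linarith
    · rw [div_le_iff₀ hκ] at hCh
      linarith
  have he' : 1 - κ / 5 ≤
      ((1 - ε) ^ 2 * (1 - ((J * hc : ℕ) + 1 : ℝ) / l)) ^ (∑ _p ∈ P, V * J0) := by
    rw [hN2] at hN21 hε hl₂
    refine loss_proj hN21 hε hκ hκ1 (by positivity) ?_
    have h3 : ((J * hc : ℕ) : ℝ) ≤ ((J * B : ℕ) : ℝ) :=
      Nat.cast_le.2 (Nat.mul_le_mul_left J hhc)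
    rw [Nat.cast_mul J B] at h3
    rw [div_le_iff₀ hκ] at hl₂
    rw [← mul_div_assoc, div_le_iff₀ hl0]
    have := mul_le_mul_of_nonneg_left h3
      (Nat.cast_nonneg _ : (0 : ℝ) ≤ ((∑ _p ∈ P, V * J0 : ℕ) : ℝ))
    linarith
  have := four_factors hE0 hb hc' he' (by linarith) (by linarith) (by linarith) (by linarith)
    (by linarith)
  linarith

/-- Existence of good parameters, given the waves, the Euler bound and the Følner sets. -/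
theorem params_small (hW : WaveGoal) (hE : EulerGoal) (hF : FolnerGoal) {κ : ℝ} (hκ : 0 < κ)
    (hκ1 : κ ≤ 1 / 2) :
    ∃ (d : Par) (ε : ℝ) (S : Finset ℕ) (c : ℕ → ℂ), d.Good κ ε S c ∧
      ∀ x : ℝ, |∑ m ∈ S, 2 * (c m * fe (m * x)).re| ≤ 1 := by
  obtain ⟨S, c, hSodd, hwave, hc, hen⟩ := hW (κ / 5) (by linarith)
  have hSne : S.Nonempty := by
    rw [Finset.nonempty_iff_ne_empty]
    rintro rfl
    rw [Finset.sum_empty] at hen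
    linarith
  obtain ⟨M, P, hM3, hPne, hPmem, hS⟩ := setup hSodd
  obtain ⟨V, hV⟩ : ∃ V, V = M + 2 := ⟨_, rfl⟩
  have hPV : (1 : ℝ) ≤ (P.card : ℝ) * V :=
    one_le_mul_of_one_le_of_one_le (Nat.one_le_cast.2 hPne.card_pos)
      (Nat.one_le_cast.2 (by omega))
  obtain ⟨η, hη0, hη1, hηκ⟩ := scales hκ (by linarith) hPV
  obtain ⟨J0, t, hJ01, ht0, ht1, hvals⟩ :=
    exists_vals (fun p hp ↦ (hPmem p hp).2.2.1) hPne hη0
  have hQodd : Odd (∏ p ∈ P, p ^ V) :=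
    Finset.prod_induction _ Odd (fun a b ↦ Odd.mul) odd_one fun p hp ↦ (hPmem p hp).2.1.pow
  obtain ⟨J, hJ⟩ : ∃ J, J = 2 * ∏ p ∈ P, p ^ V := ⟨_, rfl⟩
  obtain ⟨N2, hN2⟩ : ∃ N : ℝ, N = ((∑ _p ∈ P, V * J0 : ℕ) : ℝ) := ⟨_, rfl⟩
  have hN21 : 1 ≤ N2 := by
    rw [hN2, Finset.sum_const, smul_eq_mul]
    exact Nat.one_le_cast.2 (Nat.mul_pos hPne.card_pos (Nat.mul_pos (by omega) hJ01))
  obtain ⟨ε, hε⟩ : ∃ e : ℝ, e = κ / (20 * N2) := ⟨_, rfl⟩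
  have hε0 : 0 < ε := by rw [hε]; positivity
  have hε1 : ε ≤ 1 := by
    rw [hε, div_le_one (by positivity)]
    linarith
  obtain ⟨C, hC⟩ : ∃ a : ℝ, a =
      (P.card : ℝ) * V * (3 + Real.log M * (11 + 12 * ((2 * P.card * V : ℕ) : ℝ))) := ⟨_, rfl⟩
  obtain ⟨h₀, hh₀, hh₀C⟩ : ∃ h₀ : ℕ, 1 ≤ h₀ ∧ 15 * C / κ ≤ h₀ := by
    refine ⟨⌈15 * C / κ⌉₊ + 1, by omega, ?_⟩
    push_cast
    linarith [Nat.le_ceil (15 * C / κ)]
  obtain ⟨D0, hD01, hD0⟩ : ∃ D0 : ℕ, 1 ≤ D0 ∧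
      4 / η + 10 * ((P.card : ℝ) * V) / κ ≤ D0 := by
    refine ⟨⌈4 / η + 10 * ((P.card : ℝ) * V) / κ⌉₊ + 1, by omega, ?_⟩
    push_cast
    linarith [Nat.le_ceil (4 / η + 10 * ((P.card : ℝ) * V) / κ)]
  obtain ⟨u, hu⟩ : ∃ u : ℕ, ∀ p ∈ P, ((J0 : ℝ) + 1) / lam p ≤ u := by
    refine ⟨P.sup fun p ↦ ⌈((J0 : ℝ) + 1) / lam p⌉₊, fun p hp ↦ (Nat.le_ceil _).trans ?_⟩
    exact_mod_cast Finset.le_sup (f := fun p ↦ ⌈((J0 : ℝ) + 1) / lam p⌉₊) hp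
  obtain ⟨B, hB⟩ := hF (J + 1) (∏ p ∈ P, p ^ V) h₀ t ht0 hQodd
  obtain ⟨l, l', hlp, hlp', hlB, hll, -, hlQ, hlQ', htune⟩ :=
    primePairGoal (∏ p ∈ P, p ^ V)
      (B + (⌈(B : ℝ) + 2 * ((P.card : ℝ) * B) / κ⌉₊ + ⌈10 * (N2 * (J * B + 1)) / κ⌉₊ +
        ⌈((M : ℝ) * B * (2 * S.card) / ε) ^ 2⌉₊ + ⌈2 * (B : ℝ) / t⌉₊) + 2 * B * u +
        (4 * J + J * B) + M ^ (4 * (2 * P.card * V)) + h₀ * h₀ + h₀ * (J0 + D0 + 1) + 4)
      η hQodd.pos hη0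
  obtain ⟨H, H', E, hHh, hEB, hsH, hsH', hsE, hfol, -, hEle, huni, hcop⟩ :=
    hB l hlp (le_trans (by omega) hlB)
  have hfol0 := hfol 1 odd_one (by omega) 0 (by rw [abs_zero]; positivity)
  have hH'E : H' ⊆ E := fun x hx ↦ hfol0.2 x (by simpa using hx)
  have hhH' : H ⊆ H' := fun x hx ↦ by simpa using hfol0.1 x hx
  have hH'B : H'.card ≤ B := (card_le_card hH'E).trans hEB
  have hhB : H.card ≤ B := (card_le_card hhH').trans hH'B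
  have hnat : ∀ r : ℝ, ⌈r⌉₊ ≤ l → r ≤ (l : ℝ) := fun r h ↦
    (Nat.le_ceil r).trans (Nat.cast_le.2 h)
  obtain ⟨hy0, hyt, n, hn⟩ := blocks (fun p hp ↦ (hPmem p hp).2.2.1) ht0 ht1 hh₀ hlp.one_le hHh hhB
    (hnat _ (by omega)) (by omega) hu rfl
  have hnBT : ∀ p ∈ P, n p + J0 ≤ l / h₀ + J0 := fun p hp ↦
    Nat.add_le_add_right (hn p hp).2.2.2 _
  have hlog : η ≤ Real.log l := by
    refine hη1.trans ?_
    rw [Real.le_log_iff_exp_le (Nat.cast_pos.2 hlp.pos)]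
    have : (4 : ℝ) ≤ l := by exact_mod_cast (show 4 ≤ l by omega)
    linarith [Real.exp_one_lt_d9]
  obtain ⟨D, L1, L2, rest, hrest, hDD0, hsum, hDub, hlev⟩ :=
    levels (V := V) hPne (fun p hp ↦ (hPmem p hp).2.2) (by omega) hD01 hnBT hlp.one_lt hll.le hη0 hlog
      (by omega) (by omega) htune
  have hDR : (D0 : ℝ) ≤ D := Nat.cast_le.2 hDD0
  have h4η : 0 ≤ 4 / η := by positivity
  have h10 : 0 ≤ 10 * ((P.card : ℝ) * V) / κ := by positivity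
  have hl₁ : (B : ℝ) + 2 * ((P.card : ℝ) * B) / κ ≤ l := hnat _ (by omega)
  have hl₂ : 10 * (N2 * (J * B + 1)) / κ ≤ (l : ℝ) := hnat _ (by omega)
  have hl₃ : ((M : ℝ) * B * (2 * S.card) / ε) ^ 2 ≤ l := hnat _ (by omega)
  rw [hJ] at hfol huni
  refine ⟨⟨P, V, J0, l, l', n, L1, L2, rest, H, H', E⟩, ε, S, c, ?_, hwave⟩
  refine good_of hE (t := t) (B := B) (M := M) (D := D) hκ hκ1 hη0 ht0 ht1 hε0 hε1
    (fun p hp ↦ ⟨(hPmem p hp).1, (hPmem p hp).2.1, (hPmem p hp).2.2.1⟩) hPne ?_ hJ01 hrest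
    ((card_coord _).trans hsum) hS ?_ hc hlp hlp' ?_ hll hlQ hlQ' hcop hsH hsH' hsE
    hfol hEB hH'B hEle huni hyt
    (fun p hp ↦ ⟨(hn p hp).1, (hn p hp).2.2.1, (hlev p hp).1⟩) ?_
    (fun p hp ↦ ⟨(hlev p hp).2.1, (hlev p hp).2.2.1⟩) (by linarith) hl₁ ?_
    hl₃ hSne ?_
  · change 2 ≤ V
    omega
  · change M + 1 ≤ V
    omega
  · change 4 * (2 * ∏ p ∈ P, p ^ V) + 2 * (∏ p ∈ P, p ^ V) * B + 4 ≤ l
    rw [← hJ]
    omega
  · intro p hp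
    refine hvals p hp _ _ _ hy0 hyt (hn p hp).2.1 (hn p hp).1 (le_of_eq ?_)
    field_simp
  · change (P.card : ℝ) * (2 * η * V) ≤ κ / 2
    linarith
  · change 1 - κ ≤ (∑ m ∈ S, 2 * ‖c m‖ ^ 2) * (1 - 2 * ∑ p ∈ P, (V : ℝ) / (p : ℝ) ^ D) *
      (1 - 1 / (l : ℝ)) ^ (∑ p ∈ P, V * (n p + J0 + L1 p + L2 p)) *
      ((1 - ε) ^ 2 * (1 - (((2 * ∏ p ∈ P, p ^ V) * H'.card : ℕ) + 1 : ℝ) / l)) ^
        (∑ _p ∈ P, V * J0)
    rw [← hJ]
    exact energy_field (fun p hp ↦ (hPmem p hp).1) hκ hκ1 hen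
      (Real.log_nonneg (Nat.one_le_cast.2 (by omega))) (by omega) (le_trans hD01 hDD0)
      (by linarith) hDub rfl hnBT (fun p hp ↦ (hlev p hp).2.2.2) hC hh₀ hh₀C (by omega) (by omega)
      hN2 hN21 hε hH'B hl₂

end Params

/-- Good parameters exist, given the waves, the Euler bound and the Følner sets. -/
theorem params_of_modules (hW : WaveGoal) (hE : EulerGoal) (hF : FolnerGoal) : ParamsGoal := by
  intro κ hκ
  obtain ⟨d, ε, S, c, hg, hwave⟩ :=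
    Params.params_small hW hE hF (lt_min hκ (by norm_num : (0 : ℝ) < 1 / 2)) (min_le_right _ _)
  refine ⟨d, ε, S, c, { hg with height := ?_, energy := ?_ }, hwave⟩
  · intro m hm
    refine (hg.height m hm).trans (mul_le_mul_of_nonneg_right ?_ (by positivity))
    have h0 : 0 < min κ (1 / 2 : ℝ) := lt_min hκ (by norm_num)
    exact pow_le_pow_left₀ (by linarith) (by linarith [min_le_left κ (1 / 2 : ℝ)]) 2
  · exact (sub_le_sub_left (min_le_left _ _) 1).trans hg.energy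

/-- Good parameters exist, given the Følner sets. -/
theorem params_of_folner (hF : FolnerGoal) : ParamsGoal :=
  params_of_modules waveGoal eulerGoal hF

end Vale.Agent.P110.Exist
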