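import Vale.Agent.P110.Exist.Design.Defs
import Vale.Agent.P110.Exist.Letters.Char
import Vale.Agent.P110.Exist.Letters.Proj
import Vale.Agent.P110.Exist.Letters.QuadPair
import Vale.Agent.P110.Exist.Letters.Prod

/-!
Letters with prescribed roles: each coordinate gets its letter, the pairs theirs, and the product
letter inherits support, height and energy.
-/

namespace Vale.Agent.P110.Exist

open scoped BigOperators
open Finset

namespace Realise

variable {S : Finset ℕ} {ε : ℝ}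

/-- `g` realises the role `x` on a coordinate of modulus `ℓ`. -/
def SingleSpec (S : Finset ℕ) (ε : ℝ) (ℓ : ℕ) (x : Lt) (g : ℕ → ℕ → ℂ) : Prop :=
  (∀ r, IsMom S (fun m => g m r)) ∧ ∀ m ∈ S,
    (∀ u < ℓ, coef1 ℓ (g m) u ≠ 0 → x.Supp ℓ m u) ∧
    (∀ u < ℓ, ‖coef1 ℓ (g m) u‖ ^ 2 * ℓ ≤ x.height ℓ m) ∧
    0 ≤ x.en ℓ m ε ∧ x.en ℓ m ε ≤ ∑ u ∈ range ℓ, ‖coef1 ℓ (g m) u‖ ^ 2

/-- `g` realises the role `x` on a pair of coordinates of moduli `ℓ`, `Y`. -/
def PairSpec (S : Finset ℕ) (ε : ℝ) (ℓ Y : ℕ) (x : Bl) (g : ℕ → ℕ → ℕ → ℂ) : Prop :=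
  (∀ a b, IsMom S (fun m => g m a b)) ∧ ∀ m ∈ S,
    (∀ a < ℓ, ∀ v < Y, coef2 ℓ Y (g m) a v ≠ 0 → x.Supp ℓ m a) ∧
    (∀ a < ℓ, ∀ v < Y, ‖coef2 ℓ Y (g m) a v‖ ^ 2 * (ℓ * Y) ≤ x.height ℓ Y m) ∧
    0 ≤ x.en ℓ m ε ∧
      x.en ℓ m ε ≤ ∑ a ∈ range ℓ, ∑ v ∈ range Y, ‖coef2 ℓ Y (g m) a v‖ ^ 2

lemma char_sq {ℓ q b : ℕ} {g : ℕ → ℕ → ℂ} {m : ℕ} (hℓ : 0 < ℓ)
    (h : ∀ u < ℓ, ‖coef1 ℓ (g m) u‖ ^ 2 = if q ∣ m then (if u = m * b % ℓ then 1 else 0)
      else (if u = m * b % ℓ then 0 else 1 / (ℓ : ℝ))) :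
    (∀ u < ℓ, coef1 ℓ (g m) u ≠ 0 → (q ∣ m ↔ u = m * b % ℓ)) ∧
    (∀ u < ℓ, ‖coef1 ℓ (g m) u‖ ^ 2 * ℓ ≤ if q ∣ m then (ℓ : ℝ) else 1) := by
  refine ⟨fun u hu hne => ?_, fun u hu => ?_⟩
  · have h' := h u hu
    have hpos : (0 : ℝ) < ‖coef1 ℓ (g m) u‖ ^ 2 := pow_pos (norm_pos_iff.2 hne) 2
    constructor <;> intro hh
    · by_contra h2
      simp [hh, h2] at h'
      exact hne h'
    · by_contra h2
      simp [hh, h2] at h'
      subst hh
      exact hne h'
  · rw [h u hu]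
    have hl : (0 : ℝ) < ℓ := Nat.cast_pos.2 hℓ
    split_ifs
    · rw [one_mul]
    · rw [zero_mul]; exact hl.le
    · rw [zero_mul]; exact zero_le_one
    · rw [div_mul_cancel₀ _ hl.ne']

lemma single (hS : ∀ m ∈ S, 0 < m) (hε : 0 < ε) (hε1 : ε ≤ 1) {ℓ : ℕ} {x : Lt}
    (hx : x.Ok S ℓ ε) : ∃ g, SingleSpec S ε ℓ x g := by
  match x, hx with
  | .quad, ⟨hodd, hcop⟩ =>
    obtain ⟨g, hmom, hg⟩ := quadLetterGoal S ℓ hodd hcop
    have hl : (0 : ℝ) < ℓ := Nat.cast_pos.2 hodd.pos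
    refine ⟨g, hmom, fun m hm => ⟨fun _ _ _ => trivial, fun u hu => ?_, zero_le_one, ?_⟩⟩
    · rw [hg m hm u hu, div_mul_cancel₀ _ hl.ne']
      exact le_rfl
    · rw [sum_congr rfl fun u hu => hg m hm u (mem_range.1 hu), sum_const, card_range, nsmul_eq_mul,
        mul_one_div, div_self hl.ne']
      exact le_rfl
  | .lev q b, ⟨hp, hq, hqd⟩ =>
    obtain ⟨g, hmom, hg⟩ := charLetterGoal S ℓ q b hp hq hqd
    have hl : (1 : ℝ) ≤ ℓ := Nat.one_le_cast.2 hp.one_le
    refine ⟨g, hmom, fun m hm => ⟨(char_sq hp.pos (hg m hm)).1, (char_sq hp.pos (hg m hm)).2,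
      sub_nonneg.2 ((div_le_one (by linarith)).2 hl), ?_⟩⟩
    have hmem : m * b % ℓ ∈ range ℓ := mem_range.2 (Nat.mod_lt _ hp.pos)
    rw [sum_congr rfl fun u hu => hg m hm u (mem_range.1 hu)]
    show 1 - 1 / (ℓ : ℝ) ≤ _
    by_cases hd : q ∣ m
    · simp only [hd, if_true, sum_ite_eq', hmem]
      linarith [show (0 : ℝ) ≤ 1 / (ℓ : ℝ) by positivity]
    · simp only [hd, if_false]
      rw [← sum_erase (f := fun u => if u = m * b % ℓ then (0 : ℝ) else 1 / ℓ) _ (if_pos rfl),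
        sum_congr rfl fun u hu => if_neg (ne_of_mem_erase hu), sum_const, card_erase_of_mem hmem,
        card_range, nsmul_eq_mul, Nat.cast_sub hp.one_le, Nat.cast_one]
      exact le_of_eq (by field_simp)
  | .del q b R, ⟨hp, hq, hqd, hR⟩ =>
    obtain ⟨g, hmom, hg⟩ := charLetterGoal S ℓ q b hp hq hqd
    have hl : (0 : ℝ) < ℓ := Nat.cast_pos.2 hp.pos
    have hsmall : ∀ m ∈ S, ∑ u ∈ R m, ‖coef1 ℓ (g m) u‖ ≤ ε / (2 * S.card) := fun m hm => by
      obtain ⟨hsub, hcard, hempty⟩ := hR m hm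
      by_cases hd : q ∣ m
      · rw [hempty hd, sum_empty]; positivity
      have hb : ∀ u ∈ R m, ‖coef1 ℓ (g m) u‖ ≤ (Real.sqrt ℓ)⁻¹ := fun u hu => by
        rw [← Real.sqrt_sq (norm_nonneg _), ← Real.sqrt_inv]
        refine Real.sqrt_le_sqrt ?_
        rw [hg m hm u (mem_range.1 (hsub hu)), if_neg hd, one_div]
        split_ifs
        · positivity
        · exact le_rfl
      refine (sum_le_sum hb).trans ?_
      rw [sum_const, nsmul_eq_mul, ← div_eq_mul_inv, div_le_iff₀ (Real.sqrt_pos.2 hl)]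
      exact hcard.trans (le_of_eq (by ring))
    obtain ⟨g', hmom', hg'⟩ := projGoal S ℓ g R ε hp.pos hS hε hε1 hmom (fun m hm => (hR m hm).1)
      hsmall
    have he : (0 : ℝ) ≤ (1 - ε) ^ 2 := sq_nonneg _
    have he1 : (1 - ε) ^ 2 ≤ 1 := pow_le_one₀ (by linarith) (by linarith)
    refine ⟨g', hmom', fun m hm => ?_⟩
    obtain ⟨hsupp, hht⟩ := char_sq hp.pos (hg m hm)
    obtain ⟨hsub, hcard, hempty⟩ := hR m hm
    have hmem : m * b % ℓ ∈ range ℓ := mem_range.2 (Nat.mod_lt _ hp.pos)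
    have hnorm : ∀ u < ℓ, u ∉ R m →
        ‖coef1 ℓ (g' m) u‖ ^ 2 = (1 - ε) ^ 2 * ‖coef1 ℓ (g m) u‖ ^ 2 := fun u hu hn => by
      rw [hg' m hm u hu, if_neg hn, norm_mul, mul_pow, Complex.norm_real, Real.norm_eq_abs, sq_abs]
    refine ⟨fun u hu hne => ?_, fun u hu => ?_, ?_, ?_⟩
    · rw [hg' m hm u hu] at hne
      by_cases hmemR : u ∈ R m
      · simp [hmemR] at hne
      · rw [if_neg hmemR] at hne
        exact ⟨hsupp u hu (right_ne_zero_of_mul hne), hmemR⟩
    · by_cases hmemR : u ∈ R m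
      · rw [hg' m hm u hu, if_pos hmemR, norm_zero, zero_pow two_ne_zero, zero_mul]
        show (0 : ℝ) ≤ if q ∣ m then (ℓ : ℝ) else 1
        split_ifs <;> positivity
      · rw [hnorm u hu hmemR, mul_assoc]
        exact (mul_le_of_le_one_left (by positivity) he1).trans (hht u hu)
    · refine mul_nonneg he (sub_nonneg.2 ((div_le_one hl).2 ?_))
      have h2 : (2 : ℝ) ≤ ℓ := by exact_mod_cast hp.two_le
      have hS1 : (1 : ℝ) ≤ S.card := Nat.one_le_cast.2 (card_pos.2 ⟨m, hm⟩)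
      have h3 : ε * Real.sqrt ℓ / (2 * S.card) ≤ Real.sqrt ℓ / 2 := by
        rw [div_le_div_iff₀ (by positivity) two_pos]
        nlinarith [mul_le_mul hε1 hS1 zero_le_one zero_le_one, Real.sqrt_nonneg (ℓ : ℝ)]
      have hsq := Real.sq_sqrt hl.le
      nlinarith [sq_nonneg (Real.sqrt ℓ - 1)]
    · show (1 - ε) ^ 2 * (1 - (((R m).card : ℝ) + 1) / ℓ) ≤ _
      refine le_trans ?_ (sum_le_sum_of_subset_of_nonneg (sdiff_subset (t := R m))
        fun _ _ _ => sq_nonneg _)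
      rw [sum_congr rfl fun u hu => hnorm u (mem_range.1 (mem_sdiff.1 hu).1) (mem_sdiff.1 hu).2,
        ← mul_sum]
      refine mul_le_mul_of_nonneg_left ?_ he
      by_cases hd : q ∣ m
      · rw [hempty hd, sdiff_empty, sum_congr rfl fun u hu => hg m hm u (mem_range.1 hu)]
        simp only [hd, if_true, sum_ite_eq', hmem]
        have : (0 : ℝ) ≤ ((((∅ : Finset ℕ)).card : ℝ) + 1) / ℓ := by positivity
        linarith
      · calc (1 : ℝ) - (((R m).card : ℝ) + 1) / ℓ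
            ≤ ((((range ℓ) \ R m).erase (m * b % ℓ)).card : ℝ) * (1 / ℓ) := by
              rw [mul_one_div, one_sub_div hl.ne', div_le_div_iff_of_pos_right hl]
              have h1 := pred_card_le_card_erase (a := m * b % ℓ) (s := range ℓ \ R m)
              rw [card_sdiff_of_subset hsub, card_range] at h1
              have hle : (R m).card ≤ ℓ := by simpa using card_le_card hsub
              have h2 : ((ℓ - (R m).card - 1 : ℕ) : ℝ) ≤
                  ((range ℓ \ R m).erase (m * b % ℓ)).card := Nat.cast_le.2 h1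
              have h3 : (ℓ : ℝ) - ((R m).card + 1) ≤ ((ℓ - (R m).card - 1 : ℕ) : ℝ) := by
                have h4 : ℓ ≤ (ℓ - (R m).card - 1) + ((R m).card + 1) := by omega
                have h5 : (ℓ : ℝ) ≤ ((ℓ - (R m).card - 1 : ℕ) : ℝ) + ((R m).card + 1) := by
                  exact_mod_cast h4
                linarith
              linarith
          _ = ∑ u ∈ (range ℓ \ R m).erase (m * b % ℓ), ‖coef1 ℓ (g m) u‖ ^ 2 := by
              rw [sum_congr rfl fun u hu => by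
                rw [hg m hm u (mem_range.1 (mem_sdiff.1 (mem_of_mem_erase hu)).1), if_neg hd,
                  if_neg (ne_of_mem_erase hu)], sum_const, nsmul_eq_mul]
          _ ≤ _ := sum_le_sum_of_subset_of_nonneg (erase_subset _ _) fun _ _ _ => sq_nonneg _

lemma pair (hS : ∀ m ∈ S, 0 < m) (hε : 0 < ε) (hε1 : ε ≤ 1) {ℓ Y : ℕ} {x : Bl}
    (hx : x.Ok S ℓ Y ε) : ∃ g, PairSpec S ε ℓ Y x g := by
  match x, hx with
  | .bent A, ⟨hY, hA, hcard, hcop⟩ =>
    classical
    obtain ⟨g, hmom, hg⟩ := pairLetterGoal S ℓ Y A hY hA hcard hcop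
    have hy : (0 : ℝ) < Y := Nat.cast_pos.2 hY
    have hl : 0 < ℓ := hY.trans_le (hcard ▸ (card_le_card hA).trans (card_range ℓ).le)
    refine ⟨g, hmom, fun m hm => ⟨fun a ha v hv hne => ?_, fun a ha v hv => ?_, zero_le_one, ?_⟩⟩
    · by_contra h
      have h' := hg m hm a ha v hv
      rw [if_neg (show ¬∃ w ∈ A, a = m * w % ℓ from h)] at h'
      exact hne (norm_eq_zero.1 (pow_eq_zero_iff two_ne_zero |>.1 h'))
    · rw [hg m hm a ha v hv]
      show _ ≤ (ℓ : ℝ) / Y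
      split_ifs
      · exact le_of_eq (by field_simp)
      · rw [zero_mul]; positivity
    · rw [sum_congr rfl fun a ha => sum_congr rfl fun v hv =>
        hg m hm a (mem_range.1 ha) v (mem_range.1 hv)]
      show (1 : ℝ) ≤ _
      set f : ℕ → ℕ := fun w => m * w % ℓ
      have hinj : Set.InjOn f A := fun w hw w' hw' he => by
        have h1 : w ≡ w' [MOD ℓ] :=
          Nat.ModEq.cancel_left_of_coprime (Nat.Coprime.symm (hcop m hm)) he
        exact Nat.ModEq.eq_of_lt_of_lt h1 (mem_range.1 (hA hw)) (mem_range.1 (hA hw'))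
      refine le_trans (le_of_eq ?_) (sum_le_sum_of_subset_of_nonneg (s := A.image f)
        (image_subset_iff.2 fun w _ => mem_range.2 (Nat.mod_lt _ hl))
        fun _ _ _ => sum_nonneg fun _ _ => by split_ifs <;> positivity)
      rw [sum_image hinj, sum_congr rfl fun w hw => sum_congr rfl fun v _ =>
        if_pos (show ∃ w' ∈ A, f w = m * w' % ℓ from ⟨w, hw, rfl⟩), sum_const, sum_const,
        card_range, hcard, nsmul_eq_mul, nsmul_eq_mul]
      field_simp
  | .split x, ⟨hx, hodd, hcop⟩ =>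
    obtain ⟨g, hmom, hg⟩ := single hS hε hε1 hx
    obtain ⟨h, hmom', hh⟩ := quadLetterGoal S Y hodd hcop
    have hy : (0 : ℝ) < Y := Nat.cast_pos.2 hodd.pos
    have hc : ∀ m a v, coef2 ℓ Y (fun r s => g m r * h m s) a v =
        coef1 ℓ (g m) a * coef1 Y (h m) v := fun m a v => by
      simp only [coef2, coef1, mul_sum, sum_mul]
      rw [sum_comm]
      exact sum_congr rfl fun r _ => sum_congr rfl fun s _ => by ring
    refine ⟨fun m r s => g m r * h m s, fun r s => Letters.Prod.isMom_mul (hmom r) (hmom' s),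
      fun m hm => ?_⟩
    obtain ⟨hsupp, hht, hen0, hen⟩ := hg m hm
    refine ⟨fun a ha v hv hne => ?_, fun a ha v hv => ?_, hen0, ?_⟩
    · rw [hc] at hne
      exact hsupp a ha (left_ne_zero_of_mul hne)
    · rw [hc, norm_mul, mul_pow, hh m hm v hv]
      exact (le_of_eq (by field_simp)).trans (hht a ha)
    · refine hen.trans (le_of_eq (sum_congr rfl fun a _ => ?_))
      rw [sum_congr rfl fun v hv => by rw [hc, norm_mul, mul_pow, hh m hm v (mem_range.1 hv)],
        sum_const, card_range, nsmul_eq_mul]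
      field_simp

end Realise

/-- Letters with prescribed roles exist. -/
theorem realiseGoal : RealiseGoal := by
  intro A B _ _ _ _ S ε la lb xa xb hε hε1 hS ha hb
  choose ga hga using fun i => Realise.single hS hε hε1 (ha i)
  choose gb hgb using fun i => Realise.pair hS hε hε1 (hb i)
  refine ⟨Letters.Prod.prodLetter la lb ga gb,
    Letters.Prod.isMom_prodLetter la lb (fun i => (hga i).1) (fun i => (hgb i).1), fun m hm => ?_⟩
  have hA := fun i => (hga i).2 m hm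
  have hB := fun i => (hgb i).2 m hm
  refine ⟨fun u hne => ?_, fun u => ?_, ?_⟩
  · rw [Letters.Prod.coef_prodLetter] at hne
    exact ⟨fun i => (hA i).1 _ (u _).isLt
        ((prod_ne_zero_iff.1 (left_ne_zero_of_mul hne)) i (mem_univ i)),
      fun i => (hB i).1 _ (u _).isLt _ (u _).isLt
        ((prod_ne_zero_iff.1 (right_ne_zero_of_mul hne)) i (mem_univ i))⟩
  · rw [Letters.Prod.coef_prodLetter, norm_mul, mul_pow, norm_prod, norm_prod, ← prod_pow,
      ← prod_pow, Fintype.prod_sum_type, Fintype.prod_prod_type]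
    simp only [Sum.elim_inl, Sum.elim_inr, Fintype.prod_bool]
    rw [mul_mul_mul_comm, ← prod_mul_distrib, ← prod_mul_distrib]
    refine mul_le_mul (prod_le_prod (fun i _ => by positivity) fun i _ => (hA i).2.1 _ (u _).isLt)
      (prod_le_prod (fun i _ => by positivity) fun i _ => ?_)
      (prod_nonneg fun i _ => by positivity)
      (prod_nonneg fun i _ =>
        le_trans (by positivity) ((hA i).2.1 _ (u (Sum.inl i)).isLt))
    rw [mul_comm ((lb (i, true) : ℕ) : ℝ)]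
    exact (hB i).2.1 _ (u _).isLt _ (u _).isLt
  · rw [Letters.Prod.sum_sq_coef_prodLetter]
    exact mul_le_mul (prod_le_prod (fun i _ => (hA i).2.2.1) fun i _ => (hA i).2.2.2)
      (prod_le_prod (fun i _ => (hB i).2.2.1) fun i _ => (hB i).2.2.2)
      (prod_nonneg fun i _ => (hB i).2.2.1) (prod_nonneg fun i _ => sum_nonneg fun _ _ => sq_nonneg _)

end Vale.Agent.P110.Exist
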