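import Vale.Agent.P110.Exist.Design.Defs

/-! Selections, validity of the letters, and products over the coordinates of a segment. -/

namespace Vale.Agent.P110.Exist

open scoped BigOperators
open Finset

namespace Par

variable {d : Par} (e : d.Enc)

theorem sel_of_le {p : ℕ} (hp : 0 < p) {t : ℕ} (ht : d.V ≤ t) (j : d.Coord → ℕ) :
    e.sel p hp t j = ∅ := by
  rw [Enc.sel, Nat.sub_eq_zero_of_le ht]; rfl

theorem sel_eq_code {p : ℕ} (hp : 0 < p) {t : ℕ} (ht : t < d.V) (j : d.Coord → ℕ) :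
    e.sel p hp t j = (e.code p hp t j).1 := by
  have h1 : d.V - t = (d.V - (t + 1)) + 1 := by omega
  have h2 : d.V - (d.V - (t + 1) + 1) = t := by omega
  show e.selDown p hp j (d.V - t) = _
  rw [h1, Enc.selDown, h2]
  rfl

theorem code_valid {p : ℕ} (hpP : p ∈ d.P) (hp : 0 < p) {j : d.Coord → ℕ} (hj : d.GoodSlot j) :
    ∀ t, 1 ≤ t → t < d.V →
      (e.sel p hp (t + 1) j).card ≤ d.J₀ ∧
        d.Valid p t (e.sel p hp (t + 1) j) (e.code p hp t j) := by
  suffices ∀ i t, t + i + 1 = d.V → 1 ≤ t → (e.sel p hp (t + 1) j).card ≤ d.J₀ ∧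
      d.Valid p t (e.sel p hp (t + 1) j) (e.code p hp t j) by
    intro t h1 h2
    exact this (d.V - t - 1) t (by omega) h1
  intro i
  induction i with
  | zero =>
    intro t ht h1
    have hc : (e.sel p hp (t + 1) j).card ≤ d.J₀ := by
      rw [sel_of_le e hp (by omega)]; simp
    exact ⟨hc, e.valid p hpP t h1 (by omega) _ hc _ (hj.2 p hpP hp t h1 (by omega))⟩
  | succ i ih =>
    intro t ht h1
    have h := (ih (t + 1) (by omega) (by omega)).2
    have hc : (e.sel p hp (t + 1) j).card ≤ d.J₀ := by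
      rw [sel_eq_code e hp (by omega)]; exact h.2.1
    exact ⟨hc, e.valid p hpP t h1 (by omega) _ hc _ (hj.2 p hpP hp t h1 (by omega))⟩

theorem card_sel_le {p : ℕ} (hpP : p ∈ d.P) (hp : 0 < p) {j : d.Coord → ℕ} (hj : d.GoodSlot j)
    {t : ℕ} (ht : 1 ≤ t) : (e.sel p hp t j).card ≤ d.J₀ := by
  rcases Nat.lt_or_ge t d.V with h | h
  · rw [sel_eq_code e hp h]; exact (code_valid e hpP hp hj t ht h).2.2.1
  · rw [sel_of_le e hp h]; simp

variable (pos : ∀ p ∈ d.P, 0 < p)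

/-- Weights of single coordinates: `F` on level letters, `F'` on second labels. -/
noncomputable def Enc.wA (F F' : ℕ → ℕ → ℝ) (j : d.Coord → ℕ) : d.A → ℝ
  | .inr _ => 1
  | .inl ⟨p, s, .inl i⟩ =>
      if ((e.code p.1 (pos p.1 p.2) (s.1 + 1) j).2.1 (.inr (.inr (.inl i)))).isSome then
        F p.1 (s.1 + 1) else 1
  | .inl ⟨p, s, .inr (.inl _)⟩ => F p.1 (s.1 + 1)
  | .inl ⟨p, s, .inr (.inr _)⟩ => F' p.1 (s.1 + 1)

/-- Weights of pairs: `G` on selected coordinates, `b` on bent pairs, `F` on level letters. -/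
noncomputable def Enc.wB (F G : ℕ → ℕ → ℝ) (b : ℝ) (j : d.Coord → ℕ) : d.B → ℝ
  | ⟨p, s, k⟩ =>
    if k ∈ e.sel p.1 (pos p.1 p.2) (s.1 + 1) j then G p.1 (s.1 + 1)
    else if s.1 = 0 then b else F p.1 s.1

theorem prod_levels (a c : ℕ → ℝ) (n W : ℕ) (cs : ℕ → ℕ) (b : ℝ) (hlast : cs (W + 1) = 0) :
    (∏ s ∈ range (W + 1), c (s + 1) ^ cs (s + 1) *
        (if s = 0 then b else a s) ^ (n - cs (s + 1))) =
      b ^ (n - cs 1) * ∏ s ∈ range W, c (s + 1) ^ cs (s + 1) * a (s + 1) ^ (n - cs (s + 1 + 1)) := by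
  rw [prod_mul_distrib, prod_range_succ (fun s => c (s + 1) ^ cs (s + 1)), hlast, pow_zero, mul_one,
    prod_range_succ' (fun s => (if s = 0 then b else a s) ^ (n - cs (s + 1))), prod_mul_distrib]
  simp only [Nat.succ_ne_zero, if_false, if_true]
  ring

theorem prod_roles (hJn : ∀ p ∈ d.P, d.J₀ ≤ d.n p) (hV : 2 ≤ d.V)
    {j : d.Coord → ℕ} (hj : d.GoodSlot j) (F F' G : ℕ → ℕ → ℝ) (b : ℝ) :
    (∏ x, e.wA pos F F' j x) * ∏ x, e.wB pos F G b j x =
      ∏ p : d.P, b ^ (d.n p.1 - (e.sel p.1 (pos p.1 p.2) 1 j).card) *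
        ∏ s ∈ range (d.V - 1),
          F p.1 (s + 1) ^ (d.n p.1 + d.J₀ + d.L₁ p.1 - (e.sel p.1 (pos p.1 p.2) (s + 1) j).card) *
            F' p.1 (s + 1) ^ d.L₂ p.1 *
            G p.1 (s + 1) ^ (e.sel p.1 (pos p.1 p.2) (s + 1) j).card := by
  classical
  rw [Fintype.prod_sum_type]
  simp only [Enc.wA, prod_const_one, mul_one]
  rw [Fintype.prod_sigma, Fintype.prod_sigma, ← prod_mul_distrib]
  refine prod_congr rfl fun p _ => ?_
  set c := fun t => (e.sel p.1 (pos p.1 p.2) t j).card with hc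
  have hB : (∏ y, e.wB pos F G b j ⟨p, y⟩) =
      ∏ s ∈ range (d.V - 1 + 1), G p.1 (s + 1) ^ c (s + 1) *
        (if s = 0 then b else F p.1 s) ^ (d.n p.1 - c (s + 1)) := by
    rw [Nat.sub_add_cancel (by omega : 1 ≤ d.V), Fintype.prod_prod_type, ← Fin.prod_univ_eq_prod_range (α := ℝ)]
    refine prod_congr rfl fun s _ => ?_
    simp only [Enc.wB]
    rw [prod_ite]
    simp only [prod_const]
    congr 2
    · simp [hc]
    · rw [filter_not, card_sdiff_of_subset (filter_subset _ _)]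
      simp [hc]
  rw [hB, prod_levels (F p.1) (G p.1) (d.n p.1) (d.V - 1) c b
    (by simp [hc, sel_of_le e (pos p.1 p.2) (by omega : d.V ≤ d.V - 1 + 1) j])]
  rw [mul_left_comm]
  congr 1
  rw [Fintype.prod_prod_type, ← Fin.prod_univ_eq_prod_range (α := ℝ),
    ← Fin.prod_univ_eq_prod_range (α := ℝ), ← prod_mul_distrib]
  refine prod_congr rfl fun s _ => ?_
  have h1 : 1 ≤ s.1 + 1 := by omega
  have h2 : s.1 + 1 < d.V := by omega
  obtain ⟨hc', hv⟩ := code_valid e p.2 (pos p.1 p.2) hj (s.1 + 1) h1 h2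
  have hs : c (s.1 + 1) ≤ d.J₀ := card_sel_le e p.2 (pos p.1 p.2) hj h1
  have hZ := sel_eq_code e (pos p.1 p.2) h2 j
  rw [Fintype.prod_sum_type, Fintype.prod_sum_type]
  simp only [prod_const, card_univ, Fintype.card_fin]
  rw [prod_ite]
  simp only [prod_const, one_pow, mul_one]
  have hcard : (univ.filter fun i : Fin (2 * d.J₀) =>
      ((e.code p.1 (pos p.1 p.2) (s.1 + 1) j).2.1 (.inr (.inr (.inl i)))).isSome).card =
      d.J₀ + c (s.1 + 1 + 1) - c (s.1 + 1) := by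
    have hi : ∀ i : Fin (2 * d.J₀),
        ((e.code p.1 (pos p.1 p.2) (s.1 + 1) j).2.1 (.inr (.inr (.inl i)))).isSome ↔
          i.1 < d.J₀ + c (s.1 + 1 + 1) - c (s.1 + 1) := fun i => by
      have h := hv.2.2.1 (.inr (.inr (.inl i)))
      rw [← hZ] at h
      exact h
    simp only [hi, Fin.card_filter_val_lt]
    simp only [hc] at *
    omega
  rw [hcard]
  have hn := hJn p.1 p.2
  have hexp : d.n p.1 + d.J₀ + d.L₁ p.1 - c (s.1 + 1) =
      (d.J₀ + c (s.1 + 1 + 1) - c (s.1 + 1)) + d.L₁ p.1 + (d.n p.1 - c (s.1 + 1 + 1)) := by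
    simp only [hc] at *; omega
  simp only [hc] at hexp ⊢
  rw [hexp, pow_add, pow_add]
  ring

end Par

end Vale.Agent.P110.Exist
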